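import Vale.Agent.P202.CharZero.AADefs

/-!
Powers of the ideal generated by the variables.
-/

namespace Vale.Agent.P202.CZ

open MvPowerSeries

variable {σ R : Type*} [CommRing R]

lemma exists_le_degree_eq {c : ℕ} (β : σ →₀ ℕ) (h : c ≤ β.degree) :
    ∃ α ≤ β, α.degree = c := by
  classical
  induction c with
  | zero => exact ⟨0, zero_le, by simp⟩
  | succ c ih =>
    obtain ⟨α, hα, hc⟩ := ih (by omega)
    have hne : α ≠ β := by
      rintro rfl
      omega
    obtain ⟨i, hi⟩ : ∃ i, α i < β i := by
      by_contra h'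
      push Not at h'
      exact hne (le_antisymm hα h')
    refine ⟨α + Finsupp.single i 1, ?_, ?_⟩
    · intro j
      by_cases hj : j = i
      · subst hj
        simp only [Finsupp.coe_add, Pi.add_apply, Finsupp.single_eq_same]
        omega
      · simp only [Finsupp.coe_add, Pi.add_apply, Finsupp.single_apply, if_neg (Ne.symm hj),
          add_zero]
        exact hα j
    · rw [map_add, hc, Finsupp.degree_single]

lemma coeff_eq_zero_of_mem_pow {f : MvPowerSeries σ R} {c : ℕ}
    (hf : f ∈ (Ideal.span (Set.range X) : Ideal (MvPowerSeries σ R)) ^ c) (d : σ →₀ ℕ)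
    (hd : d.degree < c) : coeff d f = 0 := by
  classical
  induction c generalizing f d with
  | zero => omega
  | succ c ih =>
    rw [pow_succ] at hf
    refine Submodule.mul_induction_on hf ?_ ?_
    · intro a ha b hb
      rw [coeff_mul]
      refine Finset.sum_eq_zero ?_
      rintro ⟨p, q⟩ hpq
      rw [Finset.HasAntidiagonal.mem_antidiagonal] at hpq
      by_cases hp : p.degree < c
      · rw [ih ha p hp, zero_mul]
      · have hq : q = 0 := by
          have : p.degree + q.degree = d.degree := by rw [← map_add, hpq]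
          have hq0 : q.degree = 0 := by omega
          exact (Finsupp.degree_eq_zero_iff q).mp hq0
        subst hq
        have hb0 : coeff (0 : σ →₀ ℕ) b = 0 := by
          refine Submodule.span_induction (p := fun b _ => coeff (0 : σ →₀ ℕ) b = 0)
            ?_ ?_ ?_ ?_ hb
          · rintro _ ⟨i, rfl⟩
            simp
          · simp
          · intro x y _ _ hx hy
            rw [map_add, hx, hy, add_zero]
          · intro a x _ hx
            rw [smul_eq_mul, coeff_zero_eq_constantCoeff_apply, map_mul,
              ← coeff_zero_eq_constantCoeff_apply x, hx, mul_zero]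
        simp only
        rw [hb0, mul_zero]
    · intro x y hx hy
      rw [map_add, hx, hy, add_zero]

lemma mem_pow_of_coeff_eq_zero [Finite σ] {f : MvPowerSeries σ R} {c : ℕ}
    (hf : ∀ d : σ →₀ ℕ, d.degree < c → coeff d f = 0) :
    f ∈ (Ideal.span (Set.range X) : Ideal (MvPowerSeries σ R)) ^ c := by
  classical
  have := Fintype.ofFinite σ
  choose! cf hcf using (fun β (h : c ≤ Finsupp.degree β) => exists_le_degree_eq (σ := σ) β h)
  let S : Finset (σ →₀ ℕ) := Finset.finsuppAntidiag Finset.univ c
  have hS : ∀ α : σ →₀ ℕ, α ∈ S ↔ α.degree = c := by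
    intro α
    simp [S, Finset.mem_finsuppAntidiag, Finsupp.degree_eq_sum]
  let g : (σ →₀ ℕ) → MvPowerSeries σ R := fun α γ =>
    if cf (α + γ) = α then coeff (α + γ) f else 0
  have key : f = ∑ α ∈ S, monomial α (1 : R) * g α := by
    ext β
    rw [map_sum]
    have h1 : ∀ α ∈ S, coeff β (monomial α (1 : R) * g α) =
        if (α ≤ β ∧ cf β = α) then coeff β f else 0 := by
      intro α _
      rw [coeff_monomial_mul, one_mul]
      by_cases hα : α ≤ β
      · have h2 : coeff (β - α) (g α) = if cf β = α then coeff β f else 0 := by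
          change g α (β - α) = _
          simp only [g, add_tsub_cancel_of_le hα]
        simp only [hα, true_and, if_true, h2]
      · simp [hα]
    rw [Finset.sum_congr rfl h1]
    by_cases hβ : c ≤ β.degree
    · obtain ⟨h3, h4⟩ := hcf β hβ
      rw [Finset.sum_eq_single (cf β)]
      · simp [h3]
      · intro α _ hne
        rw [if_neg]
        rintro ⟨_, h⟩
        exact hne h.symm
      · intro h
        exact absurd ((hS _).mpr h4) h
    · rw [hf β (by omega), Finset.sum_eq_zero]
      intro α _
      split_ifs <;> rfl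
  rw [key]
  refine Ideal.sum_mem _ fun α hα => Ideal.mul_mem_right _ _ ?_
  rw [hS] at hα
  have h5 : monomial α (1 : R) = ∏ i, (X i : MvPowerSeries σ R) ^ α i := by
    have := MvPowerSeries.coeff_zero_one (R := R) (σ := σ)
    rw [MvPowerSeries.monomial_one_eq, Finsupp.prod_fintype]
    intro i
    simp
  rw [h5]
  have h6 : ∏ i, (X i : MvPowerSeries σ R) ^ α i ∈
      ∏ i, (Ideal.span (Set.range X) : Ideal (MvPowerSeries σ R)) ^ α i :=
    Ideal.prod_mem_prod fun i _ => Ideal.pow_mem_pow (Ideal.subset_span (Set.mem_range_self i)) _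
  rw [Finset.prod_pow_eq_pow_sum] at h6
  rwa [show ∑ i, α i = c by rw [← hα, Finsupp.degree_eq_sum]] at h6

/-- membership in the powers of the ideal of the variables. -/
theorem mem_pow_iff [Finite σ] {f : MvPowerSeries σ R} {c : ℕ} :
    f ∈ (Ideal.span (Set.range X) : Ideal (MvPowerSeries σ R)) ^ c ↔
      ∀ d : σ →₀ ℕ, d.degree < c → coeff d f = 0 :=
  ⟨fun h d hd => coeff_eq_zero_of_mem_pow h d hd, mem_pow_of_coeff_eq_zero⟩

theorem mem_span_X_iff [Finite σ] {f : MvPowerSeries σ R} :
    f ∈ (Ideal.span (Set.range X) : Ideal (MvPowerSeries σ R)) ↔ constantCoeff f = 0 := by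
  rw [← pow_one (Ideal.span (Set.range X)), mem_pow_iff]
  constructor
  · intro h
    exact h 0 (by simp)
  · intro h d hd
    have : d = 0 := (Finsupp.degree_eq_zero_iff d).mp (by omega)
    subst this
    exact h

section Field

variable {K : Type*} [Field K] [Finite σ]

theorem mem_mm_pow_iff {f : MvPowerSeries σ K} {c : ℕ} :
    f ∈ mm σ K ^ c ↔ ∀ d : σ →₀ ℕ, d.degree < c → coeff d f = 0 := mem_pow_iff

theorem mem_mm_iff {f : MvPowerSeries σ K} : f ∈ mm σ K ↔ constantCoeff f = 0 := mem_span_X_iff

theorem maximalIdeal_eq : IsLocalRing.maximalIdeal (MvPowerSeries σ K) = mm σ K := by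
  ext f
  rw [mem_mm_iff, IsLocalRing.mem_maximalIdeal, mem_nonunits_iff, isUnit_iff_constantCoeff,
    isUnit_iff_ne_zero, not_not]

instance : IsAdicComplete (IsLocalRing.maximalIdeal (MvPowerSeries σ K)) (MvPowerSeries σ K) := by
  rw [maximalIdeal_eq, mm]
  infer_instance

end Field

end Vale.Agent.P202.CZ
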