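import Mathlib

/-!
# Power series acting on complete local rings, coefficient fields in characteristic zero,
and finiteness over the power series ring.
-/

namespace Vale.Agent.P202.CZ

open MvPowerSeries IsLocalRing Filter Topology

universe u v

section Hom

variable {K S : Type*} [Field K] [CommRing S]

/-- evaluation of polynomials maps powers of the ideal of the variables to powers of `I`. -/
theorem eval_mem_pow (I : Ideal S) (τ : K →+* S) {d : ℕ} (x : Fin d → S) (hx : ∀ i, x i ∈ I)
    (n : ℕ) {p : MvPolynomial (Fin d) K} (hp : p ∈ MvPolynomial.idealOfVars (Fin d) K ^ n) :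
    MvPolynomial.eval₂Hom τ x p ∈ I ^ n := by
  have h1 : (MvPolynomial.idealOfVars (Fin d) K).map (MvPolynomial.eval₂Hom τ x) ≤ I := by
    rw [MvPolynomial.idealOfVars, Ideal.map_span, Ideal.span_le]
    rintro _ ⟨_, ⟨i, rfl⟩, rfl⟩
    simpa using hx i
  have h2 := Ideal.mem_map_of_mem (MvPolynomial.eval₂Hom τ x) hp
  rw [Ideal.map_pow] at h2
  exact Ideal.pow_right_mono h1 n h2

/-- the truncated evaluation. -/
noncomputable def truncEval (I : Ideal S) (τ : K →+* S) {d : ℕ} (x : Fin d → S)
    (hx : ∀ i, x i ∈ I) (n : ℕ) : MvPowerSeries (Fin d) K →+* S ⧸ I ^ n :=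
  (Ideal.Quotient.lift (MvPolynomial.idealOfVars (Fin d) K ^ n)
    ((Ideal.Quotient.mk (I ^ n)).comp (MvPolynomial.eval₂Hom τ x))
    (fun p hp => by
      rw [RingHom.comp_apply, Ideal.Quotient.eq_zero_iff_mem]
      exact eval_mem_pow I τ x hx n hp)).comp (truncTotalAlgHom (Fin d) K n).toRingHom

theorem truncEval_apply (I : Ideal S) (τ : K →+* S) {d : ℕ} (x : Fin d → S)
    (hx : ∀ i, x i ∈ I) (n : ℕ) (p : MvPowerSeries (Fin d) K) :
    truncEval I τ x hx n p =
      Ideal.Quotient.mk (I ^ n) (MvPolynomial.eval₂Hom τ x (p.truncTotal n)) := by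
  rfl

theorem truncEval_coe (I : Ideal S) (τ : K →+* S) {d : ℕ} (x : Fin d → S)
    (hx : ∀ i, x i ∈ I) (n : ℕ) (p : MvPolynomial (Fin d) K) :
    truncEval I τ x hx n (p : MvPowerSeries (Fin d) K) =
      Ideal.Quotient.mk (I ^ n) (MvPolynomial.eval₂Hom τ x p) := by
  have h := (truncTotalAlgHom (Fin d) K n).commutes p
  have h2 : truncEval I τ x hx n (p : MvPowerSeries (Fin d) K) =
      (Ideal.Quotient.lift (MvPolynomial.idealOfVars (Fin d) K ^ n)
    ((Ideal.Quotient.mk (I ^ n)).comp (MvPolynomial.eval₂Hom τ x))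
    (fun p hp => by
      rw [RingHom.comp_apply, Ideal.Quotient.eq_zero_iff_mem]
      exact eval_mem_pow I τ x hx n hp))
      (truncTotalAlgHom (Fin d) K n (algebraMap (MvPolynomial (Fin d) K)
        (MvPowerSeries (Fin d) K) p)) := rfl
  rw [h2, h]
  rfl

/-- D10a: power series act on complete local rings. -/
theorem exists_powerSeries_hom (I : Ideal S)
    [IsAdicComplete I S] (τ : K →+* S) {d : ℕ} (x : Fin d → S) (hx : ∀ i, x i ∈ I) :
    ∃ φ : MvPowerSeries (Fin d) K →+* S, (∀ a, φ (C a) = τ a) ∧ ∀ i, φ (X i) = x i := by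
  have hf : ∀ {m n : ℕ} (hle : m ≤ n),
      (Ideal.Quotient.factorPow I hle).comp (truncEval I τ x hx n) = truncEval I τ x hx m := by
    intro m n hle
    ext p
    rw [RingHom.comp_apply, truncEval_apply, truncEval_apply]
    change Ideal.Quotient.mk (I ^ m) _ = _
    rw [Ideal.Quotient.eq, ← map_sub]
    exact eval_mem_pow I τ x hx m
      (truncTotal_sub_truncTotal_mem_pow_idealOfVars hle (le_refl _) _)
  refine ⟨IsAdicComplete.liftRingHom I (truncEval I τ x hx) hf, ?_, ?_⟩
  · intro a
    have hC : (C a : MvPowerSeries (Fin d) K) = ((MvPolynomial.C a : MvPolynomial (Fin d) K) :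
        MvPowerSeries (Fin d) K) := (MvPolynomial.coe_C a).symm
    have : ∀ n : ℕ, Ideal.Quotient.mk (I ^ n)
        (IsAdicComplete.liftRingHom I (truncEval I τ x hx) hf (C a)) =
        Ideal.Quotient.mk (I ^ n) (τ a) := by
      intro n
      rw [IsAdicComplete.mk_liftRingHom, hC, truncEval_coe]
      simp
    apply (IsHausdorff.eq_iff_smodEq (I := I)).2
    intro n
    rw [SModEq.sub_mem, smul_eq_mul, Ideal.mul_top, ← Ideal.Quotient.eq]
    exact this n
  · intro i
    have hC : (X i : MvPowerSeries (Fin d) K) = ((MvPolynomial.X i : MvPolynomial (Fin d) K) :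
        MvPowerSeries (Fin d) K) := (MvPolynomial.coe_X i).symm
    have : ∀ n : ℕ, Ideal.Quotient.mk (I ^ n)
        (IsAdicComplete.liftRingHom I (truncEval I τ x hx) hf (X i)) =
        Ideal.Quotient.mk (I ^ n) (x i) := by
      intro n
      rw [IsAdicComplete.mk_liftRingHom, hC, truncEval_coe]
      simp
    apply (IsHausdorff.eq_iff_smodEq (I := I)).2
    intro n
    rw [SModEq.sub_mem, smul_eq_mul, Ideal.mul_top, ← Ideal.Quotient.eq]
    exact this n

end Hom

section Coeff

/-- every field extension in characteristic zero is formally smooth. -/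
theorem formallySmooth_of_charZero (k : Type v) (L : Type u) [Field k] [Field L] [CharZero k] [Algebra k L] :
    Algebra.FormallySmooth k L := by
  obtain ⟨s, hs⟩ := exists_isTranscendenceBasis k L
  have halg : Algebra.IsAlgebraic (IntermediateField.adjoin k (Set.range ((↑) : s → L))) L :=
    hs.isAlgebraic_field
  have hsep : Algebra.IsSeparable (IntermediateField.adjoin k (Set.range ((↑) : s → L))) L :=
    inferInstance
  exact Algebra.FormallySmooth.of_algebraicIndependent_of_isSeparable hs.1

/-- lifting of a field of characteristic zero to a coefficient field. -/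
theorem exists_coefficient_field_over {k : Type v} {S : Type u} [Field k] [CharZero k] [CommRing S]
    [IsLocalRing S] [IsAdicComplete (maximalIdeal S) S] (f : k →+* S) :
    ∃ σ : ResidueField S →+* S, (∀ a, residue S (σ a) = a) ∧
      ∀ a, σ (residue S (f a)) = f a := by
  let : Algebra k S := f.toAlgebra
  let : Field (S ⧸ maximalIdeal S) := Ideal.Quotient.field _
  have : Algebra.FormallySmooth k (S ⧸ maximalIdeal S) :=
    formallySmooth_of_charZero k (S ⧸ maximalIdeal S)
  obtain ⟨g, hg⟩ := Algebra.FormallySmooth.exists_mkₐ_comp_eq_of_isAdicComplete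
    (R := k) (A := S ⧸ maximalIdeal S) (I := maximalIdeal S) (AlgHom.id k (S ⧸ maximalIdeal S))
  refine ⟨g.toRingHom, fun a => ?_, fun a => ?_⟩
  · exact congr($hg a)
  · exact g.commutes a

/-- D10b: coefficient fields in characteristic zero. -/
theorem exists_coefficient_fields {R S : Type u} [CommRing R] [IsLocalRing R]
    [IsAdicComplete (maximalIdeal R) R] [CommRing S] [IsLocalRing S]
    [IsAdicComplete (maximalIdeal S) S] [Algebra R S] [IsLocalHom (algebraMap R S)]
    [Algebra ℚ R] :
    ∃ (σR : ResidueField R →+* R) (σS : ResidueField S →+* S),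
      (∀ a, residue R (σR a) = a) ∧ (∀ a, residue S (σS a) = a) ∧
      ∀ a, algebraMap R S (σR a) = σS (ResidueField.map (algebraMap R S) a) := by
  obtain ⟨σR, h1, -⟩ := exists_coefficient_field_over (k := ℚ) (S := R) (algebraMap ℚ R)
  have : CharZero (ResidueField R) := by
    have h : Function.Injective ((residue R).comp (algebraMap ℚ R)) := RingHom.injective _
    exact charZero_of_injective_ringHom h
  obtain ⟨σS, h2, h3⟩ := exists_coefficient_field_over (k := ResidueField R) (S := S)
    ((algebraMap R S).comp σR)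
  refine ⟨σR, σS, h1, h2, fun a => ?_⟩
  have h4 := h3 a
  rw [RingHom.comp_apply] at h4
  rw [← h4]
  congr 1
  conv_rhs => rw [← h1 a]
  rw [ResidueField.map_residue]

end Coeff

section Fin

/-- finite free modules over precomplete rings are precomplete. -/
theorem isPrecomplete_pi {L : Type*} [CommRing L] (I : Ideal L) [IsPrecomplete I L] (n : ℕ) :
    IsPrecomplete I (Fin n → L) := by
  have key : ∀ (m : ℕ) (v : Fin n → L),
      v ∈ (I ^ m • (⊤ : Submodule L (Fin n → L))) ↔ ∀ i, v i ∈ I ^ m := by
    intro m v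
    constructor
    · intro h i
      have h2 : (LinearMap.proj i : (Fin n → L) →ₗ[L] L) v ∈
          Submodule.map (LinearMap.proj i : (Fin n → L) →ₗ[L] L)
            (I ^ m • (⊤ : Submodule L (Fin n → L))) := Submodule.mem_map_of_mem h
      rw [Submodule.map_smul''] at h2
      have h3 := Submodule.smul_mono (le_refl (I ^ m)) (le_top : Submodule.map (LinearMap.proj i :
        (Fin n → L) →ₗ[L] L) (⊤ : Submodule L (Fin n → L)) ≤ ⊤) h2
      simpa using h3
    · intro h
      have h2 : v = ∑ i, v i • (Pi.single i (1 : L) : Fin n → L) := by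
        ext j
        simp [Finset.sum_apply, Pi.single_apply]
      rw [h2]
      exact Submodule.sum_mem _ fun i _ => Submodule.smul_mem_smul (h i) trivial
  refine ⟨fun f hf => ?_⟩
  have h1 : ∀ i, ∃ l : L, ∀ m, f m i ≡ l [SMOD (I ^ m • ⊤ : Submodule L L)] := by
    intro i
    refine IsPrecomplete.prec ‹_› (f := fun m => f m i) fun {m m'} hm => ?_
    have h2 := hf hm
    rw [SModEq.sub_mem, key] at h2
    rw [SModEq.sub_mem, smul_eq_mul, Ideal.mul_top]
    exact h2 i
  choose l hl using h1
  refine ⟨l, fun m => ?_⟩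
  rw [SModEq.sub_mem, key]
  intro i
  have h2 := hl i m
  rw [SModEq.sub_mem, smul_eq_mul, Ideal.mul_top] at h2
  exact h2

/-- D10c: finiteness over the power series ring. -/
theorem finite_over_powerSeries {K S : Type*} [Field K] [CommRing S] [IsLocalRing S]
    [IsNoetherianRing S] [IsAdicComplete (maximalIdeal S) S] {d : ℕ}
    [Algebra (MvPowerSeries (Fin d) K) S]
    (hK : ∀ z : S, ∃ a : K, z - algebraMap (MvPowerSeries (Fin d) K) S (C a) ∈ maximalIdeal S)
    (hx : ∀ i, algebraMap (MvPowerSeries (Fin d) K) S (X i) ∈ maximalIdeal S)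
    {M : ℕ} (hM : maximalIdeal S ^ M ≤
      Ideal.span (Set.range fun i => algebraMap (MvPowerSeries (Fin d) K) S (X i))) :
    Module.Finite (MvPowerSeries (Fin d) K) S := by
  set L := MvPowerSeries (Fin d) K with hL
  set I : Ideal L := Ideal.span (Set.range X) with hI
  have hIS : I.map (algebraMap L S) =
      Ideal.span (Set.range fun i => algebraMap (MvPowerSeries (Fin d) K) S (X i)) := by
    rw [hI, Ideal.map_span, ← Set.range_comp]
    rfl
  have hIm : I.map (algebraMap L S) ≤ maximalIdeal S := by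
    rw [hIS, Ideal.span_le]
    rintro _ ⟨i, rfl⟩
    exact hx i
  -- powers of the maximal ideal
  have step : ∀ m : ℕ, ∃ N : Submodule L S, N.FG ∧
      ∀ z : S, ∃ w ∈ N, z - w ∈ maximalIdeal S ^ m := by
    intro m
    induction m with
    | zero => exact ⟨⊥, Submodule.fg_bot, fun z => ⟨0, by simp, by simp⟩⟩
    | succ m ih =>
      obtain ⟨N, hN, h⟩ := ih
      obtain ⟨T, hT⟩ := (IsNoetherian.noetherian (maximalIdeal S ^ m) : (maximalIdeal S ^ m).FG)
      refine ⟨N ⊔ Submodule.span L (T : Set S), hN.sup ⟨T, rfl⟩, fun z => ?_⟩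
      obtain ⟨w, hw, hzw⟩ := h z
      rw [← hT] at hzw
      obtain ⟨c, -, hc⟩ := Submodule.mem_span_finset.1 hzw
      choose a ha using hK
      refine ⟨w + ∑ t ∈ T, (C (a (c t)) : L) • t, ?_, ?_⟩
      · refine Submodule.add_mem_sup hw (Submodule.sum_mem _ fun t ht => ?_)
        exact Submodule.smul_mem _ _ (Submodule.subset_span ht)
      · have h2 : z - (w + ∑ t ∈ T, (C (a (c t)) : L) • t) =
            ∑ t ∈ T, (c t - algebraMap L S (C (a (c t)))) * t := by
          rw [← sub_sub, ← hc, ← Finset.sum_sub_distrib]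
          refine Finset.sum_congr rfl fun t _ => ?_
          rw [smul_eq_mul, sub_mul, Algebra.smul_def]
        rw [h2, pow_succ']
        refine Ideal.sum_mem _ fun t ht => Ideal.mul_mem_mul (ha _) ?_
        rw [← hT]
        exact Submodule.subset_span ht
  obtain ⟨N, ⟨T, hT⟩, h⟩ := step M
  -- the surjection
  obtain ⟨n, g, hg⟩ : ∃ (n : ℕ) (g : Fin n → S), Set.range g = (T : Set S) := by
    obtain ⟨n, ⟨e⟩⟩ := Finite.exists_equiv_fin (T : Set S)
    exact ⟨n, fun i => (e.symm i : S), by
      ext z
      constructor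
      · rintro ⟨i, rfl⟩
        exact (e.symm i).2
      · intro hz
        exact ⟨e ⟨z, hz⟩, by simp⟩⟩
  have := isPrecomplete_pi I n
  have : IsHausdorff (I.map (algebraMap L S)) S :=
    IsHausdorff.of_le_jacobson _ _ (hIm.trans (maximalIdeal_le_jacobson _))
  have : IsHausdorff I S := IsHausdorff.map_algebraMap_iff.1 this
  have hsurj : Function.Surjective (Fintype.linearCombination L g) := by
    apply surjective_of_mkQ_comp_surjective (I := I)
    intro z
    obtain ⟨z, rfl⟩ := Submodule.mkQ_surjective _ z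
    obtain ⟨w, hw, hzw⟩ := h z
    rw [← hT, ← hg, ← Fintype.range_linearCombination] at hw
    obtain ⟨v, rfl⟩ := hw
    refine ⟨v, ?_⟩
    rw [LinearMap.comp_apply, ← sub_eq_zero, ← map_sub, Submodule.mkQ_apply,
      Submodule.Quotient.mk_eq_zero, Ideal.smul_top_eq_map, Submodule.restrictScalars_mem, hIS]
    rw [← neg_mem_iff, neg_sub]
    exact hM hzw
  exact Module.Finite.of_surjective _ hsurj

end Fin

end Vale.Agent.P202.CZ
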