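import Vale.Agent.P202.CharZero.Fgc
import Vale.Agent.P202.Flat

/-!
D10d: the subring `E` of `S` generated by `R` and the power series over the coefficient field
of `S`; the extension `E → S` is free.
-/

namespace Vale.Agent.P202.CZ

open MvPowerSeries IsLocalRing Filter Topology

universe u

section general

/-- one flatness step at a time: a system of elements independent modulo the maximal ideal is
independent modulo every ideal of finite colength. -/
lemma fm_star {R S E K : Type*} [CommRing R] [IsLocalRing R] [IsNoetherianRing R] [CommRing S]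
    [Algebra R S] [Module.Flat R S] [CommRing E] (φ : R →+* E) (ι : E →+* S)
    (hι : ∀ r, ι (φ r) = algebraMap R S r) [Field K] (τ : K →+* E)
    (hE : ∀ z : E, ∃ a : K, z - τ a ∈ (maximalIdeal R).map φ) {t : ℕ} (v : Fin t → S)
    (hv : ∀ c : Fin t → K, ∑ i, ι (τ (c i)) * v i ∈ (maximalIdeal R).map (algebraMap R S) →
      ∀ i, c i = 0) (N : ℕ) (I : Ideal R) :
    maximalIdeal R ^ N ≤ I → ∀ r : Fin t → E, ∑ i, ι (r i) * v i ∈ I.map (algebraMap R S) →
      ∀ i, r i ∈ I.map φ := by
  classical
  induction I using WellFoundedGT.induction with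
  | ind I IH =>
  intro hN r hr i
  by_cases hI : I = ⊤
  · rw [hI, Ideal.map_top]; trivial
  have hex : ∃ j, maximalIdeal R ^ j ≤ I := ⟨N, hN⟩
  set j := Nat.find hex with hj
  have hj1 : maximalIdeal R ^ j ≤ I := Nat.find_spec hex
  have hj0 : j ≠ 0 := by
    intro h0
    rw [h0, pow_zero, Ideal.one_eq_top, top_le_iff] at hj1
    exact hI hj1
  obtain ⟨i0, hi0⟩ := Nat.exists_eq_succ_of_ne_zero hj0
  have hj2 : ¬ maximalIdeal R ^ i0 ≤ I := by
    apply Nat.find_min hex
    omega
  obtain ⟨w, hw1, hw2⟩ := Set.not_subset.mp hj2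
  have hmw : ∀ x ∈ maximalIdeal R, x * w ∈ I := by
    intro x hx
    apply hj1
    rw [hi0, pow_succ']
    exact Ideal.mul_mem_mul hx hw1
  set I' := I ⊔ Ideal.span {w} with hI'
  have hlt : I < I' := by
    refine lt_of_le_of_ne le_sup_left ?_
    intro h
    apply hw2
    rw [h]
    exact Ideal.mem_sup_right (Ideal.mem_span_singleton_self w)
  have hwI' : w ∈ I' := Ideal.mem_sup_right (Ideal.mem_span_singleton_self w)
  have hmI' : maximalIdeal R * I' ≤ I := by
    rw [hI', Ideal.mul_sup, sup_le_iff]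
    refine ⟨Ideal.mul_le_right, ?_⟩
    rw [Ideal.mul_le]
    intro x hx y hy
    obtain ⟨z, rfl⟩ := Ideal.mem_span_singleton'.mp hy
    have := I.mul_mem_left z (hmw x hx)
    convert this using 1
    ring
  have hwJ : ∀ y ∈ (maximalIdeal R).map φ, φ w * y ∈ I.map φ := by
    intro y hy
    have h1 : φ w * y ∈ (Ideal.span {w}).map φ * (maximalIdeal R).map φ :=
      Ideal.mul_mem_mul (Ideal.mem_map_of_mem _ (Ideal.mem_span_singleton_self w)) hy
    rw [← Ideal.map_mul] at h1
    refine Ideal.map_mono ?_ h1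
    rw [mul_comm]
    refine le_trans (Ideal.mul_mono_right ?_) hmI'
    exact le_sup_right
  have h2 := IH I' hlt (hN.trans hlt.le) r (Ideal.map_mono hlt.le hr)
  have h3 : ∀ i, ∃ (a : E) (c : K), a ∈ I.map φ ∧ r i = a + φ w * τ c := by
    intro i
    have h4 := h2 i
    rw [hI', Ideal.map_sup, Ideal.map_span, Set.image_singleton] at h4
    obtain ⟨a, ha, y, hy, hay⟩ := Submodule.mem_sup.mp h4
    obtain ⟨b, rfl⟩ := Ideal.mem_span_singleton'.mp hy
    obtain ⟨c, hc⟩ := hE b
    refine ⟨a + φ w * (b - τ c), c, Ideal.add_mem _ ha (hwJ _ hc), ?_⟩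
    rw [← hay]
    ring
  choose a c ha hrc using h3
  set u : S := ∑ i, ι (τ (c i)) * v i with hu
  have hmap : ∀ y ∈ I.map φ, ι y ∈ I.map (algebraMap R S) := by
    intro y hy
    have h5 : ι y ∈ (I.map φ).map ι := Ideal.mem_map_of_mem _ hy
    rw [Ideal.map_map] at h5
    have h6 : ι.comp φ = algebraMap R S := RingHom.ext hι
    rwa [h6] at h5
  have hwu : w • u ∈ I • (⊤ : Submodule R S) := by
    rw [Ideal.smul_top_eq_map, Submodule.restrictScalars_mem]
    have h7 : w • u = ∑ i, ι (r i) * v i - ∑ i, ι (a i) * v i := by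
      rw [← Finset.sum_sub_distrib, hu, Finset.smul_sum]
      refine Finset.sum_congr rfl fun i _ => ?_
      rw [hrc i, map_add, map_mul, hι, Algebra.smul_def]
      ring
    rw [h7]
    refine Ideal.sub_mem _ hr (Ideal.sum_mem _ fun i _ => Ideal.mul_mem_right _ _ (hmap _ (ha i)))
  have hu0 : u ∈ (maximalIdeal R).map (algebraMap R S) := by
    by_contra hcon
    refine hw2 (mem_of_smul_mem (V := S) (maximalIdeal R) hlt.le hmI'
      (maximalIdeal R • (⊤ : Submodule R S)) le_rfl (u := u) ?_ hwI' ?_)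
    · rw [Ideal.smul_top_eq_map, Submodule.restrictScalars_mem]
      exact hcon
    · exact Submodule.mem_sup_right hwu
  have h8 := hv c hu0 i
  rw [hrc i, h8, map_zero, mul_zero, add_zero]
  exact ha i

lemma fm_gen {L S : Type*} [CommRing L] [IsLocalRing L] [CommRing S] [Algebra L S]
    [Module.Finite L S] {E : Subalgebra L S} (J : Ideal E) {s : ℕ}
    (hJ : J ^ (s + 1) ≤ (maximalIdeal L).map (algebraMap L E)) (P : Submodule E S)
    (h : (⊤ : Submodule E S) ≤ P ⊔ J • ⊤) : P = ⊤ := by
  have h1 : ∀ j : ℕ, (⊤ : Submodule E S) ≤ P ⊔ J ^ j • ⊤ := by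
    intro j
    induction j with
    | zero => rw [pow_zero, Ideal.one_eq_top, Submodule.top_smul]; exact le_sup_right
    | succ j ih =>
      refine ih.trans (sup_le le_sup_left ?_)
      calc J ^ j • (⊤ : Submodule E S) ≤ J ^ j • (P ⊔ J • ⊤) := smul_mono_right _ h
        _ = J ^ j • P ⊔ J ^ j • (J • (⊤ : Submodule E S)) := Submodule.smul_sup _ _ _
        _ ≤ P ⊔ J ^ (j + 1) • ⊤ := by
          refine sup_le_sup Submodule.smul_le_right ?_
          rw [← Submodule.mul_smul, ← pow_succ]
  have h2 : (⊤ : Submodule E S) ≤ P ⊔ (maximalIdeal L).map (algebraMap L E) • ⊤ :=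
    (h1 (s + 1)).trans (sup_le_sup le_rfl (Submodule.smul_mono_left hJ))
  have h3 : (⊤ : Submodule L S) ≤ P.restrictScalars L ⊔ maximalIdeal L • ⊤ := by
    intro z _
    have h4 : z ∈ P ⊔ (maximalIdeal L).map (algebraMap L E) • (⊤ : Submodule E S) := h2 trivial
    obtain ⟨p, hp, q, hq, hpq⟩ := Submodule.mem_sup.mp h4
    refine Submodule.mem_sup.mpr ⟨p, hp, q, ?_, hpq⟩
    have h5 : q ∈ ((maximalIdeal L).map (algebraMap L E) • (⊤ : Submodule E S)).restrictScalars L :=
      hq
    rw [Ideal.smul_restrictScalars] at h5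
    exact h5
  have h4 : (⊤ : Submodule L S) ≤ P.restrictScalars L :=
    Submodule.le_of_le_smul_of_le_jacobson_bot Module.Finite.fg_top
      (maximalIdeal_le_jacobson _) h3
  exact top_le_iff.mp fun z hz => h4 hz

lemma fm_length {R S E L : Type*} [CommRing R] [CommRing S] [Algebra R S]
    [Module.FaithfullyFlat R S] [CommRing E] (φ : R →+* E) (ι : E →+* S)
    (hι : ∀ r, ι (φ r) = algebraMap R S r) [CommRing L] [Algebra L E] (I : Ideal R) (J : Ideal E)
    (hJ : J = I.map φ) :
    Module.length R (R ⧸ I) ≤ Module.length L (E ⧸ J) := by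
  have h1 : Module.length L (E ⧸ J) = Module.length L (E ⧸ J.restrictScalars L) :=
    (Submodule.Quotient.restrictScalarsEquiv L J).symm.length_eq
  rw [h1, Module.length_quotient, Module.length_quotient]
  have hmono : StrictMono (fun I : Ideal R => (I.map φ).restrictScalars L) := by
    intro I1 I2 h
    have hle : (I1.map φ).restrictScalars L ≤ (I2.map φ).restrictScalars L :=
      fun z hz => Ideal.map_mono h.le hz
    refine lt_of_le_of_ne hle ?_
    intro heq
    apply h.ne
    have h2 : I1.map φ = I2.map φ := Submodule.restrictScalars_injective L _ _ heq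
    have h3 : I1.map (algebraMap R S) = I2.map (algebraMap R S) := by
      have h6 : ι.comp φ = algebraMap R S := RingHom.ext hι
      rw [← h6, ← Ideal.map_map, ← Ideal.map_map, h2]
    exact Ideal.map_injective_of_faithfullyFlat (A := R) (B := S) h3
  have := Order.coheight_le_coheight_apply_of_strictMono _ hmono I
  rw [hJ]
  exact this

end general

/-- D10d: the subring `E` generated by `R` and the power series. -/
theorem exists_free_model {R S : Type u} [CommRing R] [IsLocalRing R] [IsNoetherianRing R]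
    [CommRing S] [IsLocalRing S] [IsNoetherianRing S] [Algebra R S]
    [IsLocalHom (algebraMap R S)] [Module.Flat R S]
    {k K : Type u} [Field k] [Field K] (σR : k →+* R) (σS : K →+* S) (κ : k →+* K)
    (hRS : ∀ a, algebraMap R S (σR a) = σS (κ a))
    (hk : ∀ z : R, ∃ a : k, z - σR a ∈ maximalIdeal R)
    (hK : ∀ z : S, ∃ a : K, z - σS a ∈ maximalIdeal S)
    {d : ℕ} [Algebra (MvPowerSeries (Fin d) K) S] [Module.Finite (MvPowerSeries (Fin d) K) S]
    (hC : ∀ a, algebraMap (MvPowerSeries (Fin d) K) S (C a) = σS a)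
    (x : Fin d → R) (hx : ∀ i, x i ∈ maximalIdeal R)
    (hX : ∀ i, algebraMap (MvPowerSeries (Fin d) K) S (X i) = algebraMap R S (x i))
    {s : ℕ} (hs : maximalIdeal R ^ (s + 1) ≤ Ideal.span (Set.range x) * maximalIdeal R ^ s) :
    ∃ (E : Subalgebra (MvPowerSeries (Fin d) K) S) (t : ℕ) (_ : Module.Basis (Fin t) E S)
      (J : Ideal E), Module.Finite (MvPowerSeries (Fin d) K) E ∧
      (∀ z : E, ∃ a : K, z - algebraMap (MvPowerSeries (Fin d) K) E (C a) ∈ J) ∧ (1 : E) ∉ J ∧
      (∀ i, algebraMap (MvPowerSeries (Fin d) K) E (X i) ∈ J) ∧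
      (J ^ (s + 1) ≤
        Ideal.span (Set.range fun i => algebraMap (MvPowerSeries (Fin d) K) E (X i)) * J ^ s) ∧
      J.map (algebraMap E S) = (maximalIdeal R).map (algebraMap R S) ∧
      ∀ N : ℕ, Module.length R (R ⧸ maximalIdeal R ^ N) ≤
        Module.length (MvPowerSeries (Fin d) K) (E ⧸ J ^ N) := by
  classical
  set L := MvPowerSeries (Fin d) K with hL
  set E : Subalgebra L S := Algebra.adjoin L (Set.range (algebraMap R S)) with hE
  have hRE : ∀ r : R, algebraMap R S r ∈ E := fun r => Algebra.subset_adjoin ⟨r, rfl⟩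
  let φ : R →+* E := (algebraMap R S).codRestrict E.toSubring hRE
  have hφ : ∀ r, ((φ r : E) : S) = algebraMap R S r := fun r => rfl
  let ι : E →+* S := algebraMap E S
  have hι : ∀ z : E, ι z = (z : S) := fun z => rfl
  have hιφ : ∀ r, ι (φ r) = algebraMap R S r := fun r => rfl
  have hιφ' : ι.comp φ = algebraMap R S := RingHom.ext hιφ
  let τ : K →+* E := (algebraMap L E).comp (C (σ := Fin d) (R := K))
  have hτ : ∀ a, ι (τ a) = σS a := fun a => by rw [← hC a]; rfl
  set J : Ideal E := (maximalIdeal R).map φ with hJ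
  have hXE : ∀ i, algebraMap L E (X i) = φ (x i) := by
    intro i
    apply Subtype.ext
    rw [hφ, ← hX i]
    rfl
  have hXJ : ∀ i, algebraMap L E (X i) ∈ J := fun i => by
    rw [hXE]; exact Ideal.mem_map_of_mem _ (hx i)
  have hloc : (maximalIdeal R).map (algebraMap R S) ≤ maximalIdeal S :=
    (((local_hom_TFAE (algebraMap R S)).out 0 2 :
      IsLocalHom (algebraMap R S) ↔ _).mp inferInstance)
  -- power series are constants modulo `J`
  have hmL : ∀ f : L, constantCoeff f = 0 → algebraMap L E f ∈ J := by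
    intro f hf
    have h1 := fgc_mem_span_X f hf
    have h2 : algebraMap L E f ∈
        (Ideal.span (Set.range (X : Fin d → L))).map (algebraMap L E) := Ideal.mem_map_of_mem _ h1
    refine (Ideal.map_le_iff_le_comap.mpr ?_) h2
    rw [Ideal.span_le]
    rintro _ ⟨i, rfl⟩
    exact hXJ i
  have hEK : ∀ z : E, ∃ a : K, z - τ a ∈ J := by
    rintro ⟨z, hz⟩
    refine Algebra.adjoin_induction (R := L) (p := fun z hz => ∃ a : K, (⟨z, hz⟩ : E) - τ a ∈ J)
      ?_ ?_ ?_ ?_ hz
    · rintro _ ⟨r, rfl⟩
      obtain ⟨a, ha⟩ := hk r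
      refine ⟨κ a, ?_⟩
      have h1 : φ (r - σR a) ∈ J := Ideal.mem_map_of_mem _ ha
      convert h1 using 1
      apply Subtype.ext
      rw [hφ, map_sub, hRS]
      change algebraMap R S r - ι (τ (κ a)) = _
      rw [hτ]
    · intro f
      refine ⟨constantCoeff f, ?_⟩
      have h1 := hmL (f - C (constantCoeff f)) (by simp)
      rw [map_sub] at h1
      exact h1
    · rintro z1 z2 h1 h2 ⟨a, ha⟩ ⟨b, hb⟩
      refine ⟨a + b, ?_⟩
      have := J.add_mem ha hb
      convert this using 1
      rw [map_add]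
      change (⟨z1, h1⟩ : E) + ⟨z2, h2⟩ - _ = _
      ring
    · rintro z1 z2 h1 h2 ⟨a, ha⟩ ⟨b, hb⟩
      refine ⟨a * b, ?_⟩
      have := J.add_mem (J.mul_mem_left (⟨z2, h2⟩ : E) ha) (J.mul_mem_left (τ a) hb)
      convert this using 1
      rw [map_mul]
      change (⟨z1, h1⟩ : E) * ⟨z2, h2⟩ - _ = _
      ring
  have hιJ : J.map ι = (maximalIdeal R).map (algebraMap R S) := by
    rw [hJ, Ideal.map_map, hιφ']
  have h1J : (1 : E) ∉ J := by
    intro h
    have h1 : ι 1 ∈ J.map ι := Ideal.mem_map_of_mem _ h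
    rw [hιJ, map_one] at h1
    exact (Ideal.ne_top_iff_one _).mp (maximalIdeal.isMaximal S).ne_top (hloc h1)
  have hrange : Ideal.span (Set.range fun i => algebraMap L E (X i)) =
      (Ideal.span (Set.range x)).map φ := by
    rw [Ideal.map_span, ← Set.range_comp]
    congr 2
    funext i
    exact hXE i
  have hJs : J ^ (s + 1) ≤
      Ideal.span (Set.range fun i => algebraMap L E (X i)) * J ^ s := by
    rw [hrange, hJ, ← Ideal.map_pow, ← Ideal.map_pow, ← Ideal.map_mul]
    exact Ideal.map_mono hs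
  -- `S / m S` over `K`
  let algK : Algebra K S := σS.toAlgebra
  let Q := S ⧸ (maximalIdeal R).map (algebraMap R S)
  have hKsmul : ∀ (a : K) (z : S), a • z = σS a * z := fun a z => rfl
  have hQfin : Module.Finite K Q := by
    obtain ⟨T, hT⟩ := (Module.Finite.fg_top : (⊤ : Submodule L S).FG)
    refine ⟨⟨T.image (Ideal.Quotient.mk _), ?_⟩⟩
    rw [eq_top_iff]
    rintro q -
    obtain ⟨z, rfl⟩ := Ideal.Quotient.mk_surjective q
    have hz : z ∈ Submodule.span L (T : Set S) := by rw [hT]; trivial
    rw [Finset.coe_image]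
    induction hz using Submodule.span_induction with
    | mem z hz => exact Submodule.subset_span ⟨z, hz, rfl⟩
    | zero => rw [map_zero]; exact Submodule.zero_mem _
    | add z1 z2 _ _ h1 h2 => rw [map_add]; exact Submodule.add_mem _ h1 h2
    | smul f z _ h1 =>
      have h3 : Ideal.Quotient.mk ((maximalIdeal R).map (algebraMap R S)) (f • z) =
          (constantCoeff f) • Ideal.Quotient.mk ((maximalIdeal R).map (algebraMap R S)) z := by
        change Ideal.Quotient.mk _ (f • z) = Ideal.Quotient.mk _ (constantCoeff f • z)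
        rw [Ideal.Quotient.eq, hKsmul, Algebra.smul_def, ← sub_mul]
        refine Ideal.mul_mem_right _ _ ?_
        rw [← hC, ← map_sub]
        have h4 := hmL (f - C (constantCoeff f)) (by simp)
        have h5 := Ideal.mem_map_of_mem ι h4
        rw [hιJ] at h5
        exact h5
      rw [h3]
      exact Submodule.smul_mem _ _ h1
  set t := Module.finrank K Q with ht
  let bQ : Module.Basis (Fin t) K Q := Module.finBasis K Q
  have hsurj : ∀ i, ∃ z : S, Ideal.Quotient.mk ((maximalIdeal R).map (algebraMap R S)) z = bQ i :=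
    fun i => Ideal.Quotient.mk_surjective _
  choose v hv using hsurj
  have hmkKs : ∀ (a : K) (z : S),
      Ideal.Quotient.mk ((maximalIdeal R).map (algebraMap R S)) (σS a * z) =
      a • (Ideal.Quotient.mk ((maximalIdeal R).map (algebraMap R S)) z : Q) := fun a z => rfl
  have hvspan : ∀ z : S, ∃ c : Fin t → K,
      z - ∑ i, σS (c i) * v i ∈ (maximalIdeal R).map (algebraMap R S) := by
    intro z
    refine ⟨fun i => bQ.repr (Ideal.Quotient.mk _ z) i, ?_⟩
    rw [← Ideal.Quotient.eq, map_sum]
    simp only [hmkKs, hv]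
    exact (bQ.sum_repr _).symm
  have hvind : ∀ c : Fin t → K,
      ∑ i, ι (τ (c i)) * v i ∈ (maximalIdeal R).map (algebraMap R S) → ∀ i, c i = 0 := by
    intro c hc
    rw [← Ideal.Quotient.eq_zero_iff_mem, map_sum] at hc
    simp only [hτ, hmkKs, hv] at hc
    exact Fintype.linearIndependent_iff.mp bQ.linearIndependent c hc
  -- generation
  have hgen : Submodule.span E (Set.range v) = ⊤ := by
    refine fm_gen J (s := s) ?_ _ ?_
    · refine hJs.trans (Ideal.mul_le_left.trans ?_)
      rw [Ideal.span_le]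
      rintro _ ⟨i, rfl⟩
      refine Ideal.mem_map_of_mem _ ?_
      rw [IsLocalRing.mem_maximalIdeal, mem_nonunits_iff]
      intro h
      have := MvPowerSeries.isUnit_constantCoeff _ h
      rw [constantCoeff_X] at this
      exact not_isUnit_zero this
    · intro z _
      obtain ⟨c, hc⟩ := hvspan z
      rw [← hιJ] at hc
      refine Submodule.mem_sup.mpr ⟨∑ i, σS (c i) * v i, ?_, z - ∑ i, σS (c i) * v i, ?_, by ring⟩
      · refine Submodule.sum_mem _ fun i _ => ?_
        have h1 : σS (c i) * v i = (τ (c i)) • v i := by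
          rw [Algebra.smul_def]; change _ = ι (τ (c i)) * v i; rw [hτ]
        rw [h1]
        exact Submodule.smul_mem _ _ (Submodule.subset_span ⟨i, rfl⟩)
      · rw [Ideal.smul_top_eq_map, Submodule.restrictScalars_mem]
        exact hc
  -- independence
  have hind : LinearIndependent E v := by
    rw [Fintype.linearIndependent_iff]
    intro r hr i
    apply Subtype.ext
    have h1 : ∀ N : ℕ, ((r i : E) : S) ∈ maximalIdeal S ^ N := by
      intro N
      have h2 := fm_star φ ι hιφ τ hEK v hvind N (maximalIdeal R ^ N) le_rfl r (by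
        have h3 : ∑ i, ι (r i) * v i = 0 := by
          rw [← hr]
          refine Finset.sum_congr rfl fun i _ => ?_
          rw [Algebra.smul_def]
        rw [h3]; exact Ideal.zero_mem _) i
      have h4 : ι (r i) ∈ ((maximalIdeal R ^ N).map φ).map ι := Ideal.mem_map_of_mem _ h2
      rw [Ideal.map_map, hιφ', Ideal.map_pow] at h4
      exact Ideal.pow_right_mono hloc N h4
    have h5 : ((r i : E) : S) ∈ ⨅ N : ℕ, maximalIdeal S ^ N := by
      rw [Ideal.mem_iInf]; exact h1
    rw [Ideal.iInf_pow_eq_bot_of_isLocalRing _ (maximalIdeal.isMaximal S).ne_top] at h5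
    exact h5
  have hfin : Module.Finite L E := by
    have : IsNoetherian L S := inferInstance
    change Module.Finite L (Subalgebra.toSubmodule E)
    infer_instance
  have : Module.FaithfullyFlat R S := Module.FaithfullyFlat.of_flat_of_isLocalHom
  refine ⟨E, t, Module.Basis.mk hind (by rw [hgen]), J, hfin, hEK, h1J, hXJ, hJs, hιJ, ?_⟩
  intro N
  exact fm_length φ ι hιφ _ _ (by rw [hJ, Ideal.map_pow])

end Vale.Agent.P202.CZ
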