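import Vale.Agent.P202.CharZero.ApproxMain

/-!
The approximation theorem for finitely generated rings of power series.
-/

namespace Vale.Agent.P202.CZ

open MvPowerSeries

universe u

/-- power series with coefficients in a subring as a range. -/
theorem coeffsIn_iff_mem_range {σ : Type*} {K : Type*} [Field K] {D : Subring K}
    {f : MvPowerSeries σ K} :
    CoeffsIn D f ↔ f ∈ (MvPowerSeries.map (σ := σ) D.subtype).range := by
  constructor
  · intro h
    have hg : ∃ g : MvPowerSeries σ D, ∀ a, coeff a g = ⟨coeff a f, h a⟩ :=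
      ⟨fun a => ⟨coeff a f, h a⟩, fun _ => rfl⟩
    obtain ⟨g, hg⟩ := hg
    refine ⟨g, ?_⟩
    ext a
    rw [coeff_map, hg]
    rfl
  · rintro ⟨g, rfl⟩ a
    rw [coeff_map]
    exact (coeff a g).2

theorem map_subtype_injective {σ : Type*} {K : Type*} [Field K] (D : Subring K) :
    Function.Injective (MvPowerSeries.map (σ := σ) D.subtype) := by
  intro f g h
  ext a
  have := congrArg (coeff a) h
  rw [coeff_map, coeff_map] at this
  exact this

/-- factorization of one homomorphism through the range of another one. -/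
theorem exists_lift_range {P A C : Type*} [CommRing P] [CommRing A] [CommRing C] (φ : P →+* A)
    (φz : P →+* C) (hker : ∀ p, φ p = 0 → φz p = 0) (S : Subring A) (hS : S ≤ φ.range) :
    ∃ Ψ : S →+* C, ∀ (b : S) (p : P), φ p = b → Ψ b = φz p := by
  have hker' : ∀ p ∈ RingHom.ker φ, φz p = 0 := fun p hp => hker p hp
  refine ⟨((Ideal.Quotient.lift (RingHom.ker φ) φz hker').comp
      (φ.quotientKerEquivRange.symm : φ.range →+* _)).comp (Subring.inclusion hS), ?_⟩
  intro b p hp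
  have h1 : φ.quotientKerEquivRange.symm (Subring.inclusion hS b) =
      Ideal.Quotient.mk (RingHom.ker φ) p := by
    rw [RingEquiv.symm_apply_eq]
    exact Subtype.ext hp.symm
  change Ideal.Quotient.lift (RingHom.ker φ) φz hker'
    (φ.quotientKerEquivRange.symm (Subring.inclusion hS b)) = _
  rw [h1, Ideal.Quotient.lift_mk]

theorem values_mem {K : Type*} [Field K] {σ : Type*} {D : Subring K} {J : Ideal (MvPowerSeries σ K)}
    (T : Set (MvPowerSeries σ K)) (Ψ : Subring.closure T →+* MvPowerSeries σ K)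
    (h : ∀ t (ht : t ∈ T), Ψ ⟨t, Subring.subset_closure ht⟩ ∈
        (MvPowerSeries.map (σ := σ) D.subtype).range ∧
      Ψ ⟨t, Subring.subset_closure ht⟩ - t ∈ J) (b : MvPowerSeries σ K)
    (hb : b ∈ Subring.closure T) :
    Ψ ⟨b, hb⟩ ∈ (MvPowerSeries.map (σ := σ) D.subtype).range ∧ Ψ ⟨b, hb⟩ - b ∈ J := by
  induction hb using Subring.closure_induction with
  | mem t ht => exact h t ht
  | zero =>
    have h1 : Ψ ⟨0, Subring.zero_mem _⟩ = 0 := map_zero Ψ
    rw [h1, sub_self]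
    exact ⟨Subring.zero_mem _, Ideal.zero_mem _⟩
  | one =>
    have h1 : Ψ ⟨1, Subring.one_mem _⟩ = 1 := map_one Ψ
    rw [h1, sub_self]
    exact ⟨Subring.one_mem _, Ideal.zero_mem _⟩
  | add b b' hb hb' ih ih' =>
    have h1 : Ψ ⟨b + b', Subring.add_mem _ hb hb'⟩ = Ψ ⟨b, hb⟩ + Ψ ⟨b', hb'⟩ :=
      map_add Ψ ⟨b, hb⟩ ⟨b', hb'⟩
    rw [h1]
    refine ⟨Subring.add_mem _ ih.1 ih'.1, ?_⟩
    have h2 : Ψ ⟨b, hb⟩ + Ψ ⟨b', hb'⟩ - (b + b') = (Ψ ⟨b, hb⟩ - b) + (Ψ ⟨b', hb'⟩ - b') := by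
      ring
    rw [h2]
    exact Ideal.add_mem _ ih.2 ih'.2
  | neg b hb ih =>
    have h1 : Ψ ⟨-b, Subring.neg_mem _ hb⟩ = - Ψ ⟨b, hb⟩ := map_neg Ψ ⟨b, hb⟩
    rw [h1]
    refine ⟨Subring.neg_mem _ ih.1, ?_⟩
    have h2 : - Ψ ⟨b, hb⟩ - -b = -(Ψ ⟨b, hb⟩ - b) := by ring
    rw [h2]
    exact neg_mem ih.2
  | mul b b' hb hb' ih ih' =>
    have h1 : Ψ ⟨b * b', Subring.mul_mem _ hb hb'⟩ = Ψ ⟨b, hb⟩ * Ψ ⟨b', hb'⟩ :=
      map_mul Ψ ⟨b, hb⟩ ⟨b', hb'⟩
    rw [h1]
    refine ⟨Subring.mul_mem _ ih.1 ih'.1, ?_⟩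
    have h2 : Ψ ⟨b, hb⟩ * Ψ ⟨b', hb'⟩ - b * b' =
        Ψ ⟨b, hb⟩ * (Ψ ⟨b', hb'⟩ - b') + b' * (Ψ ⟨b, hb⟩ - b) := by ring
    rw [h2]
    exact Ideal.add_mem _ (Ideal.mul_mem_left _ _ ih'.2) (Ideal.mul_mem_left _ _ ih.2)

/-- lifting to power series over the subring. -/
theorem exists_descend {K : Type*} [Field K] {σ : Type*} {D : Subring K} {S : Type*} [CommRing S]
    (Ψ : S →+* MvPowerSeries σ K)
    (h : ∀ b, Ψ b ∈ (MvPowerSeries.map (σ := σ) D.subtype).range) :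
    ∃ ψ : S →+* MvPowerSeries σ D, ∀ b, MvPowerSeries.map (σ := σ) D.subtype (ψ b) = Ψ b := by
  obtain ⟨ψ, hψ⟩ := exists_lift_range (MvPowerSeries.map (σ := σ) D.subtype)
    (RingHom.id (MvPowerSeries σ D)) (fun p hp => map_subtype_injective D (by
      rw [RingHom.id_apply, hp, map_zero]))
    (MvPowerSeries.map (σ := σ) D.subtype).range le_rfl
  refine ⟨ψ.comp (Ψ.codRestrict _ h), fun b => ?_⟩
  obtain ⟨p, hp⟩ := h b
  rw [RingHom.comp_apply, hψ _ p hp]
  exact hp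

theorem approx_ringHom_of {K : Type u} [Field K] {d : ℕ} (happ : Approx K d)
    (T : Finset (MvPowerSeries (Fin d) K)) (c : ℕ) :
    ∃ (s : Finset K) (ψ : Subring.closure (T : Set (MvPowerSeries (Fin d) K)) →+*
        MvPowerSeries (Fin d) (Subring.closure (s : Set K))),
      (∀ b, MvPowerSeries.map (Subring.closure (s : Set K)).subtype (ψ b) -
        (b : MvPowerSeries (Fin d) K) ∈ mm (Fin d) K ^ c) ∧
      ∀ (i : Fin d) (h : X i ∈ Subring.closure (T : Set (MvPowerSeries (Fin d) K))),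
        ψ ⟨X i, h⟩ = X i := by
  classical
  have hy : ∃ y : Fin T.card → MvPowerSeries (Fin d) K, (∀ i, y i ∈ T) ∧
      ∀ t (ht : t ∈ T), y (T.equivFin ⟨t, ht⟩) = t :=
    ⟨fun i => (T.equivFin.symm i : _), fun i => (T.equivFin.symm i).2, fun t ht => by simp⟩
  obtain ⟨y, -, hy2⟩ := hy
  obtain ⟨z, hz1, hz2, hz3⟩ := happ (Fin T.card) y c
  choose sz hsz using hz1
  have hzD : ∃ s : Finset K, ∀ i, CoeffsIn (Subring.closure (s : Set K)) (z i) := by
    refine ⟨Finset.univ.biUnion sz, ?_⟩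
    intro i a
    refine Subring.closure_mono ?_ (hsz i a)
    intro x hx
    rw [Finset.coe_biUnion]
    exact Set.mem_biUnion (Finset.mem_coe.2 (Finset.mem_univ i)) hx
  obtain ⟨s, hzD⟩ := hzD
  obtain ⟨Ψ, hΨ⟩ := exists_lift_range
    (MvPolynomial.aeval (R := MvPolynomial (Fin d) K) y).toRingHom
    (MvPolynomial.aeval (R := MvPolynomial (Fin d) K) z).toRingHom (fun p hp => hz3 p hp)
    (Subring.closure (T : Set (MvPowerSeries (Fin d) K))) (by
      rw [Subring.closure_le]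
      intro t ht
      refine ⟨MvPolynomial.X (T.equivFin ⟨t, ht⟩), ?_⟩
      change MvPolynomial.aeval y (MvPolynomial.X (T.equivFin ⟨t, ht⟩)) = t
      rw [MvPolynomial.aeval_X, hy2])
  have hgen : ∀ t (ht : t ∈ (T : Set (MvPowerSeries (Fin d) K))),
      Ψ ⟨t, Subring.subset_closure ht⟩ = z (T.equivFin ⟨t, ht⟩) := by
    intro t ht
    rw [hΨ _ (MvPolynomial.X (T.equivFin ⟨t, ht⟩)) ?_]
    · change MvPolynomial.aeval z (MvPolynomial.X (T.equivFin ⟨t, ht⟩)) = _
      rw [MvPolynomial.aeval_X]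
    · change MvPolynomial.aeval y (MvPolynomial.X (T.equivFin ⟨t, ht⟩)) = t
      rw [MvPolynomial.aeval_X, hy2]
  have hmem := values_mem (D := Subring.closure (s : Set K)) (J := mm (Fin d) K ^ c) _ Ψ (by
    intro t ht
    rw [hgen t ht]
    refine ⟨coeffsIn_iff_mem_range.1 (hzD _), ?_⟩
    have h2 := hz2 (T.equivFin ⟨t, ht⟩)
    rwa [hy2 t ht] at h2)
  obtain ⟨ψ, hψ⟩ := exists_descend Ψ (fun b => (hmem b.1 b.2).1)
  refine ⟨s, ψ, ?_, ?_⟩
  · intro b
    rw [hψ]
    exact (hmem b.1 b.2).2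
  · intro i h
    apply map_subtype_injective
    rw [hψ, map_X, hΨ _ (MvPolynomial.C (MvPolynomial.X i)) ?_]
    · change MvPolynomial.aeval z (MvPolynomial.C (MvPolynomial.X i)) = _
      rw [MvPolynomial.aeval_C]
      exact MvPolynomial.coe_X i
    · change MvPolynomial.aeval y (MvPolynomial.C (MvPolynomial.X i)) = _
      rw [MvPolynomial.aeval_C]
      exact MvPolynomial.coe_X i

/-- D7: the approximation theorem for finitely generated rings of power series. -/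
theorem approx_ringHom {K : Type u} [Field K] [CharZero K] {d : ℕ}
    (T : Finset (MvPowerSeries (Fin d) K)) (c : ℕ) :
    ∃ (s : Finset K) (ψ : Subring.closure (T : Set (MvPowerSeries (Fin d) K)) →+*
        MvPowerSeries (Fin d) (Subring.closure (s : Set K))),
      (∀ b, MvPowerSeries.map (Subring.closure (s : Set K)).subtype (ψ b) -
        (b : MvPowerSeries (Fin d) K) ∈ mm (Fin d) K ^ c) ∧
      ∀ (i : Fin d) (h : X i ∈ Subring.closure (T : Set (MvPowerSeries (Fin d) K))),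
        ψ ⟨X i, h⟩ = X i :=
  approx_ringHom_of (approx d) T c

end Vale.Agent.P202.CZ
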