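import Mathlib

/-!
P202, characteristic zero: task D6
-/

namespace Vale.Agent.P202.CZ

universe u

theorem charPQuot_isJacobsonRing_int : IsJacobsonRing ℤ := by
  rw [isJacobsonRing_iff_prime_eq]
  intro P hP
  by_cases h0 : P = ⊥
  · subst h0
    rw [eq_bot_iff]
    intro x hx
    rw [Ideal.mem_bot]
    by_contra hx0
    obtain ⟨p, hp1, hp2⟩ := Nat.exists_infinite_primes (x.natAbs + 1)
    have hmax : (Ideal.span {(p : ℤ)}).IsMaximal := by
      have hprime : (Ideal.span {(p : ℤ)}).IsPrime := by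
        rw [Ideal.span_singleton_prime (by exact_mod_cast hp2.ne_zero)]
        exact Nat.prime_iff_prime_int.1 hp2
      exact hprime.isMaximal (by
        rw [Ne, Ideal.span_singleton_eq_bot]
        exact_mod_cast hp2.ne_zero)
    rw [Ideal.mem_jacobson_bot] at hx
    have hx' : x ∈ (⊥ : Ideal ℤ).jacobson := by
      rw [Ideal.mem_jacobson_bot]; exact hx
    have h1 : x ∈ Ideal.span {(p : ℤ)} := by
      have := Ideal.mem_sInf.1 hx' (I := Ideal.span {(p : ℤ)}) ⟨bot_le, hmax⟩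
      exact this
    rw [Ideal.mem_span_singleton] at h1
    have h2 : p ∣ x.natAbs := Int.natCast_dvd.1 h1
    have h3 := Nat.le_of_dvd (Int.natAbs_pos.2 hx0) h2
    omega
  · have := hP.isMaximal h0
    exact Ideal.jacobson_eq_self_of_isMaximal

/-- D6: finitely generated domains have residue fields of prime characteristic. -/
theorem exists_charP_quotient {D : Type u} [CommRing D] [Nontrivial D] [Algebra.FiniteType ℤ D] :
    ∃ (𝔐 : Ideal D) (_ : 𝔐.IsMaximal) (p : ℕ), p.Prime ∧ CharP (D ⧸ 𝔐) p ∧ Finite (D ⧸ 𝔐) := by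
  obtain ⟨𝔐, h𝔐⟩ := Ideal.exists_maximal D
  refine ⟨𝔐, h𝔐, ?_⟩
  let _ : Field (D ⧸ 𝔐) := Ideal.Quotient.field 𝔐
  have := charPQuot_isJacobsonRing_int
  have : Algebra.FiniteType ℤ (D ⧸ 𝔐) :=
    Algebra.FiniteType.of_surjective (Ideal.Quotient.mkₐ ℤ 𝔐) (Ideal.Quotient.mkₐ_surjective ℤ 𝔐)
  have : Module.Finite ℤ (D ⧸ 𝔐) := finite_of_finite_type_of_isJacobsonRing ℤ (D ⧸ 𝔐)
  obtain ⟨p, hp⟩ := CharP.exists (D ⧸ 𝔐)
  suffices hpp : p.Prime by
    refine ⟨p, hpp, hp, ?_⟩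
    have : NeZero p := ⟨hpp.ne_zero⟩
    let _ : Algebra (ZMod p) (D ⧸ 𝔐) := ZMod.algebra _ p
    have : IsScalarTower ℤ (ZMod p) (D ⧸ 𝔐) := IsScalarTower.of_algebraMap_eq' (RingHom.ext_int _ _)
    have : Module.Finite (ZMod p) (D ⧸ 𝔐) := Module.Finite.of_restrictScalars_finite ℤ (ZMod p) _
    exact Module.finite_of_finite (ZMod p)
  rcases CharP.char_is_prime_or_zero (D ⧸ 𝔐) p with h | h
  · exact h
  · exfalso
    subst h
    have : CharZero (D ⧸ 𝔐) := CharP.charP_to_charZero _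
    have : Algebra.IsIntegral ℤ (D ⧸ 𝔐) := inferInstance
    have hinj : Function.Injective (algebraMap ℤ (D ⧸ 𝔐)) := by
      intro a b hab
      simpa using hab
    have := isField_of_isIntegral_of_isField hinj (Field.toIsField (D ⧸ 𝔐))
    exact Int.not_isField this

end Vale.Agent.P202.CZ
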