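import Mathlib

/-!
Models of finite free extensions over finitely generated rings of power series.
-/

namespace Vale.Agent.P202.CZ

open MvPowerSeries

universe u

/-- A finite free extension `E → S` of algebras over a finitely generated ring `B` of power
series over `K`. -/
structure Model (K : Type u) [Field K] (d r j c l : ℕ) where
  T : Finset (MvPowerSeries (Fin d) K)
  hT : ∀ i, (X i : MvPowerSeries (Fin d) K) ∈
    Subring.closure (T : Set (MvPowerSeries (Fin d) K))
  E : Type u
  S : Type u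
  [crE : CommRing E]
  [crS : CommRing S]
  [algE : Algebra (Subring.closure (T : Set (MvPowerSeries (Fin d) K))) E]
  [algS : Algebra E S]
  [fin : Module.Finite (Subring.closure (T : Set (MvPowerSeries (Fin d) K))) E]
  t : ℕ
  v : Module.Basis (Fin t) E S
  e : Fin r → E
  he : LinearIndependent (Subring.closure (T : Set (MvPowerSeries (Fin d) K))) e
  J : Ideal E
  hJ : ∀ z : E, ∃ b : Subring.closure (T : Set (MvPowerSeries (Fin d) K)),
    z - algebraMap _ E b ∈ J
  hJx : ∀ i, algebraMap _ E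
    (⟨X i, hT i⟩ : Subring.closure (T : Set (MvPowerSeries (Fin d) K))) ∈ J
  εE : E →+* K
  hεE : ∀ b : Subring.closure (T : Set (MvPowerSeries (Fin d) K)),
    εE (algebraMap _ E b) = constantCoeff (b : MvPowerSeries (Fin d) K)
  hεJ : ∀ z ∈ J, εE z = 0
  s : ℕ
  hJs : J ^ (s + 1) ≤ Ideal.span (Set.range fun i => algebraMap _ E
    (⟨X i, hT i⟩ : Subring.closure (T : Set (MvPowerSeries (Fin d) K)))) * J ^ s
  n : Ideal S
  hn : ∀ z : S, ∃ b : Subring.closure (T : Set (MvPowerSeries (Fin d) K)),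
    z - algebraMap E S (algebraMap _ E b) ∈ n
  hJn : J.map (algebraMap E S) ≤ n
  εS : S →+* K
  hεS : ∀ z : E, εS (algebraMap E S z) = εE z
  hεn : ∀ z ∈ n, εS z = 0
  M : ℕ
  hnM : n ^ M ≤ Ideal.span (Set.range fun i => algebraMap E S (algebraMap _ E
    (⟨X i, hT i⟩ : Subring.closure (T : Set (MvPowerSeries (Fin d) K)))))
  y : Fin d → S
  hy : ∀ i, y i ∈ n
  hc : Ideal.span (Set.range fun i => algebraMap E S (algebraMap _ E
    (⟨X i, hT i⟩ : Subring.closure (T : Set (MvPowerSeries (Fin d) K))))) ^ c ≤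
      Ideal.span (Set.range y) ^ j
  b : Fin l → S
  hb1 : ∀ z : S, ∃ β : Fin l → Subring.closure (T : Set (MvPowerSeries (Fin d) K)),
      z - ∑ q, algebraMap E S (algebraMap _ E (β q)) * b q ∈ Ideal.span (Set.range y) ^ j
  hb2 : ∀ i q, ∃ β : Fin l → Subring.closure (T : Set (MvPowerSeries (Fin d) K)),
      (∀ q', ∃ a : K, (β q' : MvPowerSeries (Fin d) K) = C a) ∧
      algebraMap E S (algebraMap _ E
        (⟨X i, hT i⟩ : Subring.closure (T : Set (MvPowerSeries (Fin d) K)))) * b q -
        ∑ q', algebraMap E S (algebraMap _ E (β q')) * b q' ∈ Ideal.span (Set.range y) ^ j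

end Vale.Agent.P202.CZ
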