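import Vale.Agent.P202.CharZero.Specialize
import Vale.Agent.P202.CharZero.ApproxHom
import Vale.Agent.P202.CharZero.CharPQuot
import Vale.Agent.P202.CharZero.ModelDef
import Vale.Agent.P202.CharZero.MM

/-!
From a model over a finitely generated ring of power series to the inequality.
-/

namespace Vale.Agent.P202.CZ

open MvPowerSeries IsLocalRing

universe u

lemma finiteType_closure {K : Type*} [Field K] (s : Finset K) :
    Algebra.FiniteType ℤ (Subring.closure (s : Set K)) := by
  have h1 : Algebra.FiniteType ℤ (Algebra.adjoin ℤ (s : Set K)) := by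
    rw [← Subalgebra.fg_iff_finiteType]
    exact ⟨s, rfl⟩
  rw [Algebra.adjoin_int] at h1
  exact h1

theorem le_of_model' (Hp : CharPLech.{u}) {K : Type u} [Field K] [CharZero K] {d r j c l : ℕ}
    (hd : 0 < d) (hj : 0 < j) (Mo : Model K d r j c l) : r * tc d j ≤ l := by
  obtain ⟨T, hT, E, S, t, v, e, he, J, hJ, hJx, εE, hεE, hεJ, s, hJs, n, hn, hJn, εS, hεS, hεn,
    M, hnM, y, hy, hc, b, hb1, hb2⟩ := Mo
  obtain ⟨s0, ψ, hψ, hψX⟩ := approx_ringHom T (max c 1)
  have hconst : ∀ b : Subring.closure (T : Set (MvPowerSeries (Fin d) K)),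
      constantCoeff (b : MvPowerSeries (Fin d) K) =
        ((constantCoeff (ψ b) : Subring.closure (s0 : Set K)) : K) := by
    intro b
    have h1 := hψ b
    have h2 : mm (Fin d) K ^ (max c 1) ≤ mm (Fin d) K :=
      Ideal.pow_le_self (by omega)
    have h3 := mem_mm_iff.mp (h2 h1)
    rw [map_sub, sub_eq_zero, MvPowerSeries.constantCoeff_map] at h3
    exact h3.symm
  have := finiteType_closure s0
  obtain ⟨𝔐, h𝔐, p, hp, hchar, hfinq⟩ := exists_charP_quotient (D := Subring.closure (s0 : Set K))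
  obtain ⟨k, _, _, _, π, -⟩ : ∃ (k : Type u) (_ : Field k) (_ : CharP k p) (_ : Finite k)
      (_ : Subring.closure (s0 : Set K) →+* k), True :=
    ⟨Subring.closure (s0 : Set K) ⧸ 𝔐, Ideal.Quotient.field 𝔐, hchar, hfinq,
      Ideal.Quotient.mk 𝔐, trivial⟩
  clear hchar hfinq
  generalize hD : Subring.closure (s0 : Set K) = D at *
  let θ : Subring.closure (T : Set (MvPowerSeries (Fin d) K)) →+* MvPowerSeries (Fin d) k :=
    (MvPowerSeries.map π).comp ψ
  have hεEmem : ∀ z, εE z ∈ D := by
    intro z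
    obtain ⟨b, hb⟩ := hJ z
    have h1 := hεJ _ hb
    rw [map_sub, sub_eq_zero] at h1
    rw [h1, hεE, hconst]
    exact Subtype.coe_prop _
  have hεSmem : ∀ z, εS z ∈ D := by
    intro z
    obtain ⟨b, hb⟩ := hn z
    have h1 := hεn _ hb
    rw [map_sub, sub_eq_zero] at h1
    rw [h1, hεS]
    exact hεEmem _
  have hdom : IsDomain (MvPowerSeries (Fin d) K) := NoZeroDivisors.to_isDomain _
  have hS1 : ∀ z : E, (π.comp (εS.codRestrict _ hεSmem)) (algebraMap E S z) =
      (π.comp (εE.codRestrict _ hεEmem)) z := by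
    intro z
    simp only [RingHom.comp_apply]
    congr 1
    exact Subtype.ext (hεS z)
  have hS2 : ∀ z ∈ n, (π.comp (εS.codRestrict _ hεSmem)) z = 0 := by
    intro z hz
    have : εS.codRestrict _ hεSmem z = 0 := Subtype.ext (hεn z hz)
    rw [RingHom.comp_apply, this, map_zero]
  have hE2 : ∀ z ∈ J, (π.comp (εE.codRestrict _ hεEmem)) z = 0 := by
    intro z hz
    have : εE.codRestrict _ hεEmem z = 0 := Subtype.ext (hεJ z hz)
    rw [RingHom.comp_apply, this, map_zero]
  have hE1 : ∀ b, (π.comp (εE.codRestrict _ hεEmem)) (algebraMap _ E b) =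
      constantCoeff (θ b) := by
    intro b
    simp only [θ, RingHom.comp_apply, MvPowerSeries.constantCoeff_map]
    congr 1
    apply Subtype.ext
    change εE _ = _
    rw [hεE, hconst]
  have hθX : ∀ i, θ ⟨X i, hT i⟩ = X i := by
    intro i
    simp only [θ, RingHom.comp_apply, hψX, MvPowerSeries.map_X]
  have key := @specialize Hp p hp k _ _ _ d hd
    (Subring.closure (T : Set (MvPowerSeries (Fin d) K))) _ _ (fun i => ⟨X i, hT i⟩) θ hθX
    E S _ _ _ _ _ t v r e he J hJ hJx (π.comp (εE.codRestrict _ hεEmem)) hE1 hE2 s hJs n hn hJn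
    (π.comp (εS.codRestrict _ hεSmem)) hS1 hS2 M hnM y hy j c hj hc l b hb1
  refine key ?_
  · intro i q
    obtain ⟨β, hβ, hβ'⟩ := hb2 i q
    refine ⟨β, fun q' => ?_, hβ'⟩
    obtain ⟨a, ha⟩ := hβ q'
    rw [mem_mm_pow_iff]
    intro D hD
    by_cases hD0 : D = 0
    · subst hD0
      rw [map_sub, coeff_zero_eq_constantCoeff_apply, coeff_zero_eq_constantCoeff_apply,
        constantCoeff_C, sub_self]
    · classical
      have h1 := hψ (β q')
      rw [mem_mm_pow_iff] at h1
      have h2 := h1 D (lt_of_lt_of_le hD (le_max_left _ _))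
      rw [map_sub, ha, coeff_C, if_neg hD0, sub_zero, coeff_map] at h2
      have h3 : coeff D (ψ (β q')) = 0 := Subtype.ext h2
      rw [map_sub, coeff_C, if_neg hD0, sub_zero]
      simp only [θ, RingHom.comp_apply, coeff_map, h3, map_zero]

end Vale.Agent.P202.CZ
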