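import Vale.Agent.P202.CharZero.ModelEx
import Vale.Agent.P202.CharZero.OfModel
import Vale.Agent.P202.CharZero.CoeffField
import Vale.Agent.P202.CharZero.FreeModel
import Vale.Agent.P202.RedMax

/-!
The equal characteristic zero case for complete rings of the same dimension.
-/

set_option linter.unusedSectionVars false

namespace Vale.Agent.P202.CZ

open MvPowerSeries IsLocalRing Filter Topology

universe u

/-- the maximal number of linearly independent elements of a finite module. -/
lemma exists_max_linearIndependent {L M : Type*} [CommRing L] [Nontrivial L] [AddCommGroup M]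
    [Module L M] [Module.Finite L M] :
    ∃ r : ℕ, (∃ e : Fin r → M, LinearIndependent L e) ∧
      ∀ e : Fin (r + 1) → M, ¬ LinearIndependent L e := by
  classical
  obtain ⟨s, hs⟩ := (Module.Finite.fg_top : (⊤ : Submodule L M).FG)
  have hbound : ∀ (n : ℕ) (e : Fin n → M), LinearIndependent L e → n ≤ s.card := by
    intro n e he
    have := linearIndependent_le_span' e he (s : Set M) (by rw [hs]; exact fun _ _ => trivial)
    simpa using this
  have hex : ∃ r : ℕ, ∀ e : Fin (r + 1) → M, ¬ LinearIndependent L e := by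
    refine ⟨s.card, fun e he => ?_⟩
    have := hbound _ e he
    omega
  refine ⟨Nat.find hex, ?_, Nat.find_spec hex⟩
  rcases Nat.eq_zero_or_pos (Nat.find hex) with h | h
  · rw [h]
    exact ⟨Fin.elim0, linearIndependent_empty_type⟩
  · obtain ⟨m, hm⟩ : ∃ m, Nat.find hex = m + 1 := ⟨Nat.find hex - 1, by omega⟩
    have h1 := Nat.find_min hex (m := m) (by omega)
    push Not at h1
    rw [hm]
    exact h1

/-- a spanning family of `S / I` over a coefficient field. -/
lemma exists_span_family {K S : Type*} [Field K] [CommRing S] [IsLocalRing S] (σ : K →+* S)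
    (hK : ∀ z : S, ∃ a : K, z - σ a ∈ maximalIdeal S) (I : Ideal S) {m : ℕ}
    (hm : ell I = m) :
    ∃ (l : ℕ) (b : Fin l → S), l ≤ m ∧
      ∀ z : S, ∃ a : Fin l → K, z - ∑ q, σ (a q) * b q ∈ I := by
  let _ : Algebra K S := σ.toAlgebra
  have h1 : Module.length K (S ⧸ I) ≤ Module.length S (S ⧸ I) := by
    refine length_le_of_residue (A := K) (R := S) hK ?_
    rw [Ideal.map_le_iff_le_comap]
    intro a ha
    have : a = 0 := by
      by_contra h0
      exact (mem_maximalIdeal a).mp ha (IsUnit.mk0 a h0)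
    rw [this]
    exact Ideal.zero_mem _
  have h2 : Module.length S (S ⧸ I) = m := hm
  rw [h2] at h1
  have h3 : Module.length K (S ⧸ I) ≠ ⊤ := ne_top_of_le_ne_top (ENat.natCast_ne_top m) h1
  have hfin : Module.Finite K (S ⧸ I) := by
    have := Module.length_ne_top_iff.mp h3
    have := (isFiniteLength_iff_isNoetherian_isArtinian.mp this).1
    infer_instance
  have h4 : (Module.finrank K (S ⧸ I) : ℕ∞) ≤ m := by
    rw [← Module.length_eq_finrank]
    exact h1
  let B := Module.finBasis K (S ⧸ I)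
  choose b hb using fun q => Ideal.Quotient.mk_surjective (I := I) (B q)
  refine ⟨Module.finrank K (S ⧸ I), b, by exact_mod_cast h4, fun z => ?_⟩
  refine ⟨fun q => B.repr (Ideal.Quotient.mk I z) q, ?_⟩
  rw [← Ideal.Quotient.eq_zero_iff_mem, map_sub, map_sum, sub_eq_zero]
  conv_lhs => rw [← B.sum_repr (Ideal.Quotient.mk I z)]
  refine Finset.sum_congr rfl fun q _ => ?_
  rw [map_mul, hb, Algebra.smul_def]
  rfl

lemma length_quot_pow_le {L E : Type*} [CommRing L] [CommRing E] [Algebra L E] (m : Ideal L)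
    (J : Ideal E) (h : m.map (algebraMap L E) ≤ J) (N : ℕ) :
    Module.length L (E ⧸ J ^ N) ≤ Module.length L (E ⧸ (m ^ N • (⊤ : Submodule L E))) := by
  have h1 : (m ^ N • (⊤ : Submodule L E)) ≤
      LinearMap.ker (Ideal.Quotient.mkₐ L (J ^ N)).toLinearMap := by
    rw [Submodule.smul_le]
    intro g hg z _
    rw [LinearMap.mem_ker, Algebra.smul_def]
    refine Ideal.Quotient.eq_zero_iff_mem.mpr ?_
    refine (J ^ N).mul_mem_right _ ?_
    refine Ideal.pow_right_mono h N ?_
    rw [← Ideal.map_pow]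
    exact Ideal.mem_map_of_mem _ hg
  refine Module.length_le_of_surjective
    (Submodule.liftQ _ (Ideal.Quotient.mkₐ L (J ^ N)).toLinearMap h1) ?_
  intro z
  obtain ⟨z, rfl⟩ := Ideal.Quotient.mk_surjective z
  exact ⟨Submodule.Quotient.mk z, rfl⟩

theorem complete_growth (Hp : CharPLech.{u}) {R S : Type u}
    [CommRing R] [IsLocalRing R] [IsNoetherianRing R] [IsAdicComplete (maximalIdeal R) R]
    [CommRing S] [IsLocalRing S] [IsNoetherianRing S] [IsAdicComplete (maximalIdeal S) S]
    [Algebra R S] [IsLocalHom (algebraMap R S)] [Module.Flat R S] [Algebra ℚ R]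
    {d : ℕ} (hd : 0 < d) (hR : ringKrullDim R = d) (hS : ringKrullDim S = d) :
    ∃ c B : ℕ, ∀ N : ℕ, ell (maximalIdeal R ^ N) ≤
      ell (maximalIdeal S ^ (N + c)) + (B : ℕ∞) * ((N : ℕ∞) + 1) ^ (d - 1) := by
  classical
  have hmS : ∀ z ∈ maximalIdeal R, algebraMap R S z ∈ maximalIdeal S := by
    intro z hz
    exact (mem_maximalIdeal _).mpr fun h =>
      (mem_maximalIdeal _).mp hz (isUnit_of_map_unit (algebraMap R S) z h)
  have hchR : CharZero (ResidueField R) := algebraRat.charZero _
  have hchS : CharZero (ResidueField S) :=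
    charZero_of_injective_algebraMap (R := ResidueField R) (RingHom.injective _)
  have hinfR : Infinite (ResidueField R) := inferInstance
  have hinfS : Infinite (ResidueField S) := inferInstance
  obtain ⟨σR, σS, hσR, hσS, hRS⟩ := exists_coefficient_fields (R := R) (S := S)
  obtain ⟨x, hx, s, hs⟩ := exists_reduction_max (A := R) d hR
  obtain ⟨φ, hφC, hφX⟩ := exists_powerSeries_hom (maximalIdeal S) σS
    (fun i => algebraMap R S (x i)) (fun i => hmS _ (hx i))
  let _ : Algebra (MvPowerSeries (Fin d) (ResidueField S)) S := φ.toAlgebra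
  have hkS : ∀ z : S, ∃ a : ResidueField S, z - σS a ∈ maximalIdeal S := by
    intro z
    refine ⟨residue S z, ?_⟩
    rw [← residue_eq_zero_iff, map_sub, hσS, sub_self]
  have hkR : ∀ z : R, ∃ a : ResidueField R, z - σR a ∈ maximalIdeal R := by
    intro z
    refine ⟨residue R z, ?_⟩
    rw [← residue_eq_zero_iff, map_sub, hσR, sub_self]
  have hC : ∀ a, algebraMap (MvPowerSeries (Fin d) (ResidueField S)) S (C a) = σS a := hφC
  have hX : ∀ i, algebraMap (MvPowerSeries (Fin d) (ResidueField S)) S (X i) =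
      algebraMap R S (x i) := hφX
  -- the closed fibre
  obtain ⟨M0, hM0⟩ := exists_pow_le_of_ell_ne_top
    (ell_fibre_ne_top (R := R) (S := S) (by rw [hR, hS]))
  have hxspan : (Ideal.span (Set.range x)).map (algebraMap R S) =
      Ideal.span (Set.range fun i =>
        algebraMap (MvPowerSeries (Fin d) (ResidueField S)) S (X i)) := by
    rw [Ideal.map_span, ← Set.range_comp]
    congr 2
    funext i
    exact (hX i).symm
  have hM : maximalIdeal S ^ (M0 * (s + 1)) ≤ Ideal.span (Set.range fun i =>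
      algebraMap (MvPowerSeries (Fin d) (ResidueField S)) S (X i)) := by
    rw [pow_mul, ← hxspan]
    refine (Ideal.pow_right_mono hM0 _).trans ?_
    rw [← Ideal.map_pow]
    exact Ideal.map_mono (hs.trans Ideal.mul_le_left)
  have hfin : Module.Finite (MvPowerSeries (Fin d) (ResidueField S)) S :=
    finite_over_powerSeries (by simpa only [hC] using hkS)
      (fun i => by rw [hX]; exact hmS _ (hx i)) hM
  obtain ⟨E, t, v, J, hfinE, hJ, hJ1, hJx, hJs, hJmap, hlen⟩ :=
    exists_free_model σR σS (ResidueField.map (algebraMap R S)) hRS hkR hkS hC x hx hX hs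
  have hdom : IsDomain (MvPowerSeries (Fin d) (ResidueField S)) := NoZeroDivisors.to_isDomain _
  obtain ⟨r, ⟨e, he⟩, hr⟩ := exists_max_linearIndependent
    (L := MvPowerSeries (Fin d) (ResidueField S)) (M := E)
  obtain ⟨B, hB⟩ := upper_growth hd hr
  -- the reduction of the maximal ideal of `S`
  obtain ⟨y, hy, u, hu⟩ := exists_reduction_max (A := S) d hS
  have hred : IsRed (Ideal.span (Set.range y)) (maximalIdeal S) := by
    refine ⟨?_, u, hu⟩
    rw [Ideal.span_le]
    rintro _ ⟨i, rfl⟩
    exact hy i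
  obtain ⟨a, ha⟩ := hred.exists_pow_le
  refine ⟨a, B, fun N => ?_⟩
  -- upper bound
  have h1 : ell (maximalIdeal R ^ N) ≤ (r : ℕ∞) * (tc d N : ℕ∞) +
      (B : ℕ∞) * ((N : ℕ∞) + 1) ^ (d - 1) := by
    refine (hlen N).trans (le_trans ?_ (hB N))
    refine length_quot_pow_le _ _ ?_ N
    rw [mm, Ideal.map_span, Ideal.span_le]
    rintro _ ⟨_, ⟨i, rfl⟩, rfl⟩
    exact hJx i
  refine h1.trans ?_
  refine add_le_add_left ?_ _
  rcases Nat.eq_zero_or_pos N with rfl | hN
  · have : tc d 0 = 0 := by
      have : tri (Fin d) 0 = ∅ := by ext u; simp [mem_tri]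
      rw [tc, this, Finset.card_empty]
    rw [this]
    simp
  -- lower bound
  have hle : maximalIdeal S ^ (N + a) ≤ Ideal.span (Set.range y) ^ N := ha N
  have hne : ell (Ideal.span (Set.range y) ^ N) ≠ ⊤ := ell_ne_top_of_pow_le hle
  obtain ⟨m, hm⟩ := ENat.ne_top_iff_exists.mp hne
  obtain ⟨l, b, hlm, hb⟩ := exists_span_family σS hkS (Ideal.span (Set.range y) ^ N) hm.symm
  obtain ⟨Mo⟩ := exists_model (K := ResidueField S) (E := E) (S := S) v e he J hJ hJ1 hJx hJs
    (maximalIdeal S) (by
      intro z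
      obtain ⟨a, ha⟩ := hkS z
      refine ⟨a, ?_⟩
      rw [← hC] at ha
      exact ha)
    (fun h => (Ideal.ne_top_iff_one _).mp (maximalIdeal.isMaximal S).ne_top h)
    (by
      rw [hJmap, Ideal.map_le_iff_le_comap]
      exact hmS) (M := M0 * (s + 1)) hM y hy (j := N) (c := N + a)
    ((Ideal.pow_right_mono (by
      rw [Ideal.span_le]
      rintro _ ⟨i, rfl⟩
      change algebraMap (MvPowerSeries (Fin d) (ResidueField S)) S (X i) ∈ _
      rw [hX]
      exact hmS _ (hx i)) _).trans hle) b
    (by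
      intro z
      obtain ⟨a, ha⟩ := hb z
      refine ⟨a, ?_⟩
      simp only [← hC] at ha
      exact ha)
  have h3 := le_of_model' Hp hd hN Mo
  calc (r : ℕ∞) * (tc d N : ℕ∞) = ((r * tc d N : ℕ) : ℕ∞) := by push_cast; rfl
    _ ≤ (l : ℕ∞) := by exact_mod_cast h3
    _ ≤ (m : ℕ∞) := by exact_mod_cast hlm
    _ = ell (Ideal.span (Set.range y) ^ N) := hm
    _ ≤ ell (maximalIdeal S ^ (N + a)) := ell_mono hle

/-- the conclusion for complete rings. -/
theorem complete_char_zero (Hp : CharPLech.{u}) {R S : Type u}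
    [CommRing R] [IsLocalRing R] [IsNoetherianRing R] [IsAdicComplete (maximalIdeal R) R]
    [CommRing S] [IsLocalRing S] [IsNoetherianRing S] [IsAdicComplete (maximalIdeal S) S]
    [Algebra R S] [IsLocalHom (algebraMap R S)] [Module.Flat R S] [Algebra ℚ R]
    {d : ℕ} (hd : 0 < d) (hR : ringKrullDim R = d) (hS : ringKrullDim S = d) (eR eS : ℕ)
    (heR : Tendsto (hsSeq R d) atTop (𝓝 (eR : ℝ)))
    (heS : Tendsto (hsSeq S d) atTop (𝓝 (eS : ℝ))) : eR ≤ eS := by
  obtain ⟨c, B, h⟩ := complete_growth Hp hd hR hS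
  have key : (eR : ℝ) ≤ (1 : ℕ) * (eS : ℝ) := by
    refine le_of_growth (d := d) hd 1 c (d.factorial * B)
      (fun N => (Module.length R (R ⧸ maximalIdeal R ^ N)).toNat)
      (fun N => (Module.length S (S ⧸ maximalIdeal S ^ N)).toNat)
      (fun N => growth_toNat d 1 c (d.factorial * B) N ?_) eR eS heR heS
    rw [Nat.cast_one, one_mul]
    calc (d.factorial : ℕ∞) * ell (maximalIdeal R ^ N) ≤ (d.factorial : ℕ∞) *
          (ell (maximalIdeal S ^ (N + c)) + (B : ℕ∞) * ((N : ℕ∞) + 1) ^ (d - 1)) := by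
          gcongr
          exact h N
      _ = _ := by
          rw [mul_add]
          push_cast
          ring
  rw [Nat.cast_one, one_mul] at key
  exact_mod_cast key

end Vale.Agent.P202.CZ
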