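import Vale.Agent.P202.CharZero.CZDefs
import Vale.Agent.P202.LocFinal
import Vale.Agent.P202.DimOne

/-!
From complete rings of the same dimension to all flat local maps, in equal characteristic zero.
-/

namespace Vale.Agent.P202.CZ

open Ideal IsLocalRing Filter Topology

universe u

/-- The inequality for complete rings of the same dimension containing the rationals. -/
def CompleteCZ : Prop :=
  ∀ {R S : Type u} [CommRing R] [IsLocalRing R] [IsNoetherianRing R]
    [IsAdicComplete (maximalIdeal R) R]
    [CommRing S] [IsLocalRing S] [IsNoetherianRing S] [IsAdicComplete (maximalIdeal S) S]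
    [Algebra R S] [IsLocalHom (algebraMap R S)] [Module.Flat R S] [Algebra ℚ R]
    {d : ℕ} (_ : 0 < d) (_ : ringKrullDim R = d) (_ : ringKrullDim S = d) (eR eS : ℕ)
    (_ : Tendsto (hsSeq R d) atTop (𝓝 (eR : ℝ)))
    (_ : Tendsto (hsSeq S d) atTop (𝓝 (eS : ℝ))), eR ≤ eS

/-- Completion of a flat local homomorphism, with the map from the first ring. -/
theorem exists_completion_hom {R S : Type u} [CommRing R] [IsLocalRing R] [IsNoetherianRing R]
    [CommRing S] [IsLocalRing S] [IsNoetherianRing S] [Algebra R S]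
    [IsLocalHom (algebraMap R S)] [Module.Flat R S] :
    ∃ (R' S' : Type u) (_ : CommRing R') (_ : IsLocalRing R') (_ : IsNoetherianRing R')
      (_ : CommRing S') (_ : IsLocalRing S') (_ : IsNoetherianRing S') (_ : Algebra R' S')
      (_ : IsLocalHom (algebraMap R' S')) (_ : Module.Flat R' S')
      (_ : IsAdicComplete (maximalIdeal R') R') (_ : IsAdicComplete (maximalIdeal S') S')
      (_ : R →+* R'),
      (∀ j, Module.length R' (R' ⧸ maximalIdeal R' ^ j) =
        Module.length R (R ⧸ maximalIdeal R ^ j)) ∧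
      (∀ j, Module.length S' (S' ⧸ maximalIdeal S' ^ j) =
        Module.length S (S ⧸ maximalIdeal S ^ j)) ∧
      ringKrullDim R' = ringKrullDim R ∧ ringKrullDim S' = ringKrullDim S := by
  have nR : IsNoetherianRing (AdicCompletion (maximalIdeal R) R) :=
    isNoetherianRing_adicCompletion _
  have nS : IsNoetherianRing (AdicCompletion (maximalIdeal S) S) :=
    isNoetherianRing_adicCompletion _
  have hRS : (maximalIdeal R).map (algebraMap R S) ≤ maximalIdeal S :=
    (((IsLocalRing.local_hom_TFAE (algebraMap R S)).out 0 2) :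
      IsLocalHom (algebraMap R S) ↔ _).mp inferInstance
  obtain ⟨Φ, hΦ⟩ := exists_complHom (algebraMap R S) hRS
  let algR'S' : Algebra (AdicCompletion (maximalIdeal R) R) (AdicCompletion (maximalIdeal S) S) :=
    Φ.toAlgebra
  have st1 : IsScalarTower R (AdicCompletion (maximalIdeal R) R)
      (AdicCompletion (maximalIdeal S) S) := IsScalarTower.of_algebraMap_eq fun x => by
    rw [IsScalarTower.algebraMap_apply R S (AdicCompletion (maximalIdeal S) S)]
    exact (hΦ x).symm
  obtain ⟨loc, fl, hpack⟩ := completion_package (R := R) (S := S)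
    (R' := AdicCompletion (maximalIdeal R) R) (S' := AdicCompletion (maximalIdeal S) S)
    AdicCompletion.maximalIdeal_eq_map AdicCompletion.maximalIdeal_eq_map adicCompletion_dense
    (AdicCompletion.residueField_map_bijective R) (AdicCompletion.residueField_map_bijective S)
  exact ⟨_, _, inferInstance, inferInstance, nR, inferInstance, inferInstance, nS, algR'S',
    loc, fl, inferInstance, inferInstance, algebraMap R (AdicCompletion (maximalIdeal R) R),
    hpack.1, hpack.2.1, hpack.2.2.1, hpack.2.2.2.1⟩

/-- Induction on the difference of the dimensions. -/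
theorem lech_char_zero_aux (H : CompleteCZ.{u}) {d : ℕ} (hd : 0 < d) (n : ℕ) :
    ∀ {R S : Type u} [CommRing R] [IsLocalRing R] [IsNoetherianRing R]
    [CommRing S] [IsLocalRing S] [IsNoetherianRing S] [Algebra R S]
    [IsLocalHom (algebraMap R S)] [Module.Flat R S] [Algebra ℚ R]
    (_ : ringKrullDim R = d) (_ : ringKrullDim S = (d + n : ℕ)) (eR eS : ℕ)
    (_ : Tendsto (hsSeq R d) atTop (𝓝 (eR : ℝ)))
    (_ : Tendsto (hsSeq S (d + n)) atTop (𝓝 (eS : ℝ))),
    eR ≤ eS := by
  induction n with
  | zero =>
    intro R S _ _ _ _ _ _ _ _ _ _ hR hS eR eS heR heS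
    obtain ⟨R2, S2, _, _, _, _, _, _, _, _, _, _, _, g, hlR2, hlS2, hdR2, hdS2⟩ :=
      exists_completion_hom (R := R) (S := S)
    let _ : Algebra ℚ R2 := (g.comp (algebraMap ℚ R)).toAlgebra
    have heR2 : Tendsto (hsSeq R2 d) atTop (𝓝 (eR : ℝ)) := by
      have : hsSeq R2 d = hsSeq R d := by
        funext N
        simp only [hsSeq, hlR2]
      rw [this]; exact heR
    have heS2 : Tendsto (hsSeq S2 d) atTop (𝓝 (eS : ℝ)) := by
      have : hsSeq S2 d = hsSeq S (d + 0) := by
        funext N
        simp only [hsSeq, hlS2, add_zero]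
      rw [this]; exact heS
    exact H hd (hdR2.trans hR) (hdS2.trans (by simpa using hS)) eR eS heR2 heS2
  | succ n ih =>
    intro R S _ _ _ _ _ _ _ _ _ _ hR hS eR eS heR heS
    obtain ⟨R2, S2, _, _, _, _, _, _, _, _, _, _, _, g, hlR2, hlS2, hdR2, hdS2⟩ :=
      exists_completion_hom (R := R) (S := S)
    let _ : Algebra ℚ R2 := (g.comp (algebraMap ℚ R)).toAlgebra
    have hR2 : ringKrullDim R2 = d := hdR2.trans hR
    have hS2 : ringKrullDim S2 = (d + n : ℕ) + 1 := by
      rw [hdS2, hS]
      push_cast
      rw [add_assoc]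
    obtain ⟨Q, _, hmQ, hQ1, hQs⟩ := exists_prime_dim_one (R := R2) (S := S2) (d + n) hS2 (by
      rw [hR2, hS2]
      have : (d : WithBot ℕ∞) < ((d + n + 1 : ℕ) : WithBot ℕ∞) := by
        exact_mod_cast (by omega : d < d + n + 1)
      refine this.trans_le (le_of_eq ?_)
      push_cast
      rfl)
    have heR2 : Tendsto (hsSeq R2 d) atTop (𝓝 (eR : ℝ)) := by
      have : hsSeq R2 d = hsSeq R d := by
        funext N
        simp only [hsSeq, hlR2]
      rw [this]; exact heR
    have heS2 : Tendsto (hsSeq S2 (d + n + 1)) atTop (𝓝 (eS : ℝ)) := by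
      have : hsSeq S2 (d + n + 1) = hsSeq S (d + (n + 1)) := by
        funext N
        simp only [hsSeq, hlS2, add_assoc]
      rw [this]; exact heS
    have hflat : Module.Flat R2 (Localization.AtPrime Q) := Module.Flat.trans R2 S2 _
    have hloc : IsLocalHom (algebraMap R2 (Localization.AtPrime Q)) := by
      refine ⟨fun a ha => ?_⟩
      by_contra hna
      have h1 : algebraMap R2 S2 a ∈ Q :=
        hmQ (Ideal.mem_map_of_mem _ ((IsLocalRing.mem_maximalIdeal _).mpr hna))
      rw [IsScalarTower.algebraMap_apply R2 S2 (Localization.AtPrime Q),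
        IsLocalization.AtPrime.isUnit_to_map_iff (Localization.AtPrime Q) Q] at ha
      exact ha h1
    obtain ⟨eQ, heQ⟩ := exists_mult (A := Localization.AtPrime Q) (d := d + n) (by omega) hQs
    have h1 : eR ≤ eQ := ih (R := R2) (S := Localization.AtPrime Q) hR2 hQs eR eQ heR2 heQ
    have h2 : eQ ≤ eS := mult_localization Q hQ1 heQ heS2
    exact h1.trans h2

/-- The final statement in characteristic zero, from the complete case. -/
theorem lech_char_zero_of (H : CompleteCZ.{u}) {R S : Type u}
    [CommRing R] [IsLocalRing R] [IsNoetherianRing R]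
    [CommRing S] [IsLocalRing S] [IsNoetherianRing S]
    [Algebra R S] [IsLocalHom (algebraMap R S)] [Module.Flat R S] [Algebra ℚ R]
    {d s : ℕ} (hd : 0 < d) (hR : ringKrullDim R = d) (hS : ringKrullDim S = s) (eR eS : ℕ)
    (heR : Tendsto (hsSeq R d) atTop (𝓝 (eR : ℝ)))
    (heS : Tendsto (hsSeq S s) atTop (𝓝 (eS : ℝ))) : eR ≤ eS := by
  have hle : d ≤ s := by
    have h1 := Ideal.height_eq_height_add_of_liesOver_of_hasGoingDown (maximalIdeal R)
      (maximalIdeal S)
    have h2 : (maximalIdeal R).height ≤ (maximalIdeal S).height := by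
      rw [h1]; exact le_self_add
    have hR' := hR
    have hS' := hS
    rw [← IsLocalRing.maximalIdeal_height_eq_ringKrullDim] at hR' hS'
    have h3 : (maximalIdeal R).height = d := by exact_mod_cast hR'
    have h4 : (maximalIdeal S).height = s := by exact_mod_cast hS'
    rw [h3, h4] at h2
    exact_mod_cast h2
  obtain ⟨n, rfl⟩ := Nat.exists_eq_add_of_le hle
  exact lech_char_zero_aux H hd n hR hS eR eS heR heS

end Vale.Agent.P202.CZ
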