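import Vale.Agent.P202.CharZero.AADefs

/-!
Algebraic lemmas for the approximation theorem: clearing denominators.
-/

namespace Vale.Agent.P202.CZ

open Polynomial

universe u v w

/-- evaluation of polynomials over a polynomial ring. -/
noncomputable def ev {A : Type u} {B : Type v} [CommRing A] [CommRing B] [Algebra A B] {m : ℕ}
    (t : Fin m → B) (θ : B) : Polynomial (MvPolynomial (Fin m) A) →+* B :=
  Polynomial.eval₂RingHom (MvPolynomial.aeval (R := A) t).toRingHom θ

lemma ev_apply {A : Type u} {B : Type v} [CommRing A] [CommRing B] [Algebra A B] {m : ℕ}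
    (t : Fin m → B) (θ : B) (F : Polynomial (MvPolynomial (Fin m) A)) :
    ev t θ F = F.eval₂ (MvPolynomial.aeval (R := A) t).toRingHom θ := rfl

@[simp] lemma ev_C {A : Type u} {B : Type v} [CommRing A] [CommRing B] [Algebra A B] {m : ℕ}
    (t : Fin m → B) (θ : B) (Q : MvPolynomial (Fin m) A) :
    ev t θ (C Q) = MvPolynomial.aeval t Q := by
  simp [ev]

@[simp] lemma ev_X {A : Type u} {B : Type v} [CommRing A] [CommRing B] [Algebra A B] {m : ℕ}
    (t : Fin m → B) (θ : B) : ev (A := A) t θ X = θ := by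
  simp [ev]

/-- clearing denominators. -/
theorem exists_clear {A : Type u} [CommRing A] {m : ℕ} {ι : Type w}
    (Q : MvPolynomial (Fin m) A) (P : ι → Polynomial (MvPolynomial (Fin m) A))
    (F : MvPolynomial ι A) :
    ∃ (N : ℕ) (G : Polynomial (MvPolynomial (Fin m) A)),
      ∀ {B : Type v} [CommRing B] [Algebra A B] (t : Fin m → B) (θ : B) (y : ι → B),
        (∀ i, MvPolynomial.aeval t Q * y i = ev t θ (P i)) →
        (MvPolynomial.aeval t Q) ^ N * MvPolynomial.aeval y F = ev t θ G := by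
  induction F using MvPolynomial.induction_on with
  | C a =>
    refine ⟨0, C (MvPolynomial.C a), ?_⟩
    intro B _ _ t θ y _
    simp
  | add p q hp hq =>
    obtain ⟨N, G, hG⟩ := hp
    obtain ⟨N', G', hG'⟩ := hq
    refine ⟨N + N', C (Q ^ N') * G + C (Q ^ N) * G', ?_⟩
    intro B _ _ t θ y hy
    have h1 := hG t θ y hy
    have h2 := hG' t θ y hy
    simp only [map_add, map_mul, ev_C, map_pow, ← h1, ← h2]
    ring
  | mul_X p i hp =>
    obtain ⟨N, G, hG⟩ := hp
    refine ⟨N + 1, G * P i, ?_⟩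
    intro B _ _ t θ y hy
    have h1 := hG t θ y hy
    rw [map_mul, map_mul, ← h1, ← hy i, MvPolynomial.aeval_X]
    ring

/-- transfer of relations. -/
theorem relations_transfer {A : Type u} [CommRing A] {B : Type v} [CommRing B] [IsDomain B]
    [Algebra A B] {m : ℕ} {ι : Type w} (t : Fin m → B) (θ : B)
    (f : Polynomial (MvPolynomial (Fin m) A)) (Q : MvPolynomial (Fin m) A)
    (P : ι → Polynomial (MvPolynomial (Fin m) A)) (y : ι → B)
    (hker : ∀ F : Polynomial (MvPolynomial (Fin m) A), ev t θ F = 0 → f ∣ F)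
    (hy : ∀ i, MvPolynomial.aeval t Q * y i = ev t θ (P i))
    (t' : Fin m → B) (θ' : B) (y' : ι → B) (hf : ev t' θ' f = 0)
    (hQ' : MvPolynomial.aeval t' Q ≠ 0)
    (hy' : ∀ i, MvPolynomial.aeval t' Q * y' i = ev t' θ' (P i))
    (F : MvPolynomial ι A) (hF : MvPolynomial.aeval y F = 0) :
    MvPolynomial.aeval y' F = 0 := by
  obtain ⟨N, G, hG⟩ := exists_clear Q P F
  have h1 := hG t θ y hy
  rw [hF, mul_zero] at h1
  obtain ⟨H, hH⟩ := hker G h1.symm
  have h2 := hG t' θ' y' hy'
  rw [hH, map_mul, hf, zero_mul] at h2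
  exact (mul_eq_zero.mp h2).resolve_left (pow_ne_zero _ hQ')

/-- compatibility of evaluation with a pair of compatible ring homomorphisms. -/
theorem ev_map {A : Type u} [CommRing A] {B : Type v} [CommRing B] [Algebra A B] {m : ℕ}
    (σ : B →+* B) (σ₀ : A →+* A) (h : ∀ a, σ (algebraMap A B a) = algebraMap A B (σ₀ a))
    (t : Fin m → B) (θ : B) (F : Polynomial (MvPolynomial (Fin m) A)) :
    ev (σ ∘ t) (σ θ) (F.map (MvPolynomial.map σ₀)) = σ (ev t θ F) := by
  rw [ev_apply, ev_apply, Polynomial.eval₂_map, Polynomial.hom_eval₂]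
  congr 1
  ext a
  · simp [h]
  · simp

theorem aeval_map' {A : Type u} [CommRing A] {B : Type v} [CommRing B] [Algebra A B] {ι : Type w}
    (σ : B →+* B) (σ₀ : A →+* A) (h : ∀ a, σ (algebraMap A B a) = algebraMap A B (σ₀ a))
    (t : ι → B) (F : MvPolynomial ι A) :
    MvPolynomial.aeval (σ ∘ t) (MvPolynomial.map σ₀ F) = σ (MvPolynomial.aeval t F) := by
  rw [MvPolynomial.aeval_def, MvPolynomial.eval₂_map, MvPolynomial.aeval_def,
    MvPolynomial.hom_eval₂]
  congr 1
  ext a
  simp [h]

end Vale.Agent.P202.CZ
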