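import Vale.Agent.P202.CharZero.AADefs

/-!
Lemmas on power series whose coefficients lie in a finitely generated subring.
-/

namespace Vale.Agent.P202.CZ

section Root

open Polynomial

/-- the root used for `fgc_hensel` -/
lemma fgc_root {R : Type*} [CommRing R] (I : Ideal R) [HenselianRing R I] (d : ℕ) (b : R)
    (hb : b ∈ I) (c : ℕ → R) :
    ∃ w : R, w + 1 ∈ I ∧
      w ^ (d + 2) + w ^ (d + 1) + ∑ k ∈ Finset.range d, c k * b ^ (k + 1) * w ^ (d - k) = 0 := by
  classical
  set S : R[X] := ∑ k ∈ Finset.range d, C (c k * b ^ (k + 1)) * X ^ (d - k) with hS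
  set f : R[X] := X ^ (d + 2) + (X ^ (d + 1) + S) with hf
  have hdeg : (X ^ (d + 1) + S).degree < ((d + 2 : ℕ) : WithBot ℕ) := by
    refine (degree_add_le _ _).trans_lt (max_lt ?_ ?_)
    · refine (degree_X_pow_le _).trans_lt ?_
      exact_mod_cast Nat.lt_succ_self (d + 1)
    · refine (degree_sum_le _ _).trans_lt ?_
      rw [Finset.sup_lt_iff (by exact_mod_cast WithBot.bot_lt_coe _)]
      intro k _
      refine (degree_C_mul_X_pow_le _ _).trans_lt ?_
      exact_mod_cast lt_of_le_of_lt (Nat.sub_le d k) (by omega)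
  have hmonic : f.Monic := monic_X_pow_add hdeg
  have hSI : ∀ x : R, S.eval x ∈ I := by
    intro x
    rw [hS, eval_finsetSum]
    refine Ideal.sum_mem _ fun k _ => ?_
    rw [eval_mul, eval_C, pow_succ, ← mul_assoc]
    exact Ideal.mul_mem_right _ _ (Ideal.mul_mem_left _ _ hb)
  have hSI' : ∀ x : R, (derivative S).eval x ∈ I := by
    intro x
    rw [hS, derivative_sum, eval_finsetSum]
    refine Ideal.sum_mem _ fun k _ => ?_
    rw [derivative_C_mul, eval_mul, eval_C, pow_succ, ← mul_assoc]
    exact Ideal.mul_mem_right _ _ (Ideal.mul_mem_left _ _ hb)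
  have h0 : f.eval (-1) ∈ I := by
    rw [hf, eval_add, eval_add, eval_pow, eval_pow, eval_X, ← add_assoc]
    have : (-1 : R) ^ (d + 2) + (-1) ^ (d + 1) = 0 := by ring
    rw [this, zero_add]
    exact hSI _
  have h1 : IsUnit (Ideal.Quotient.mk I (f.derivative.eval (-1))) := by
    have e1 : f.derivative.eval (-1) = (-1) ^ (d + 1) + (derivative S).eval (-1) := by
      rw [hf, derivative_add, derivative_add, derivative_X_pow, derivative_X_pow, eval_add,
        eval_add, eval_mul, eval_mul, eval_pow, eval_pow, eval_X, ← add_assoc]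
      simp only [Nat.add_succ_sub_one, eval_natCast, map_natCast]
      push_cast
      ring
    rw [e1, map_add, Ideal.Quotient.eq_zero_iff_mem.mpr (hSI' (-1)), add_zero, map_pow, map_neg,
      map_one]
    exact (isUnit_one.neg).pow _
  obtain ⟨w, hw1, hw2⟩ := HenselianRing.is_henselian (I := I) f hmonic (-1) h0 h1
  refine ⟨w, by rwa [sub_neg_eq_add] at hw2, ?_⟩
  have h2 : f.eval w = 0 := hw1
  rw [hf, eval_add, eval_add, eval_pow, eval_pow, eval_X, hS, eval_finsetSum, ← add_assoc] at h2
  rw [← h2]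
  congr 1
  refine Finset.sum_congr rfl fun k _ => ?_
  rw [eval_mul, eval_C, eval_pow, eval_X]

end Root

open MvPowerSeries

variable {K : Type*} [Field K]

/-! ### Description by power series over a subring -/

lemma fgc_exists_lift {σ : Type*} {D : Subring K} {f : MvPowerSeries σ K} (h : CoeffsIn D f) :
    ∃ g : MvPowerSeries σ D, MvPowerSeries.map D.subtype g = f := by
  refine ⟨(fun a => ⟨coeff a f, h a⟩ : MvPowerSeries σ D), ?_⟩
  ext a
  exact (coeff_map _ _ _).trans rfl

lemma fgc_coeffsIn_map {σ : Type*} {D : Subring K} (g : MvPowerSeries σ D) :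
    CoeffsIn D (MvPowerSeries.map D.subtype g) := by
  intro a
  rw [coeff_map]
  exact (coeff a g).2

lemma fgc_coeffsIn_mono {σ : Type*} {D D' : Subring K} (hD : D ≤ D') {f : MvPowerSeries σ K}
    (h : CoeffsIn D f) : CoeffsIn D' f := fun a => hD (h a)

lemma fgc_map_mem {σ : Type*} (s : Finset K)
    (g : MvPowerSeries σ (Subring.closure (s : Set K))) :
    MvPowerSeries.map (Subring.closure (s : Set K)).subtype g ∈ fgc σ K :=
  ⟨s, fgc_coeffsIn_map g⟩

/-- finitely many elements of `fgc` have coefficients in a common finitely generated subring -/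
lemma fgc_common {σ ι : Type*} [Finite ι] (f : ι → MvPowerSeries σ K) (hf : ∀ i, f i ∈ fgc σ K) :
    ∃ s : Finset K, ∀ i, CoeffsIn (Subring.closure (s : Set K)) (f i) := by
  classical
  have := Fintype.ofFinite ι
  choose s hs using hf
  refine ⟨Finset.univ.biUnion s, fun i => fgc_coeffsIn_mono (Subring.closure_mono ?_) (hs i)⟩
  exact_mod_cast Finset.subset_biUnion_of_mem s (Finset.mem_univ i)

/-- L4a: inverses. -/
theorem fgc_inv {σ : Type*} {u : MvPowerSeries σ K} (hu : u ∈ fgc σ K)
    (h0 : constantCoeff u ≠ 0) : ∃ v ∈ fgc σ K, u * v = 1 := by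
  classical
  obtain ⟨s, hs⟩ := hu
  set t : Finset K := insert (constantCoeff u)⁻¹ s with ht
  have hst : Subring.closure (s : Set K) ≤ Subring.closure (t : Set K) :=
    Subring.closure_mono (by rw [ht]; simp)
  obtain ⟨g, hg⟩ := fgc_exists_lift (fgc_coeffsIn_mono hst hs)
  have hinv : (constantCoeff u)⁻¹ ∈ Subring.closure (t : Set K) :=
    Subring.subset_closure (by rw [ht]; simp)
  have hgu : (Subring.closure (t : Set K)).subtype (constantCoeff g) = constantCoeff u := by
    rw [← hg, constantCoeff_map]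
  have hunit : IsUnit g := by
    rw [isUnit_iff_constantCoeff, isUnit_iff_exists_inv]
    refine ⟨⟨_, hinv⟩, Subtype.ext ?_⟩
    have : ((constantCoeff g : Subring.closure (t : Set K)) : K) = constantCoeff u := hgu
    rw [Subring.coe_mul, this]
    exact mul_inv_cancel₀ h0
  obtain ⟨w, hw⟩ := hunit.exists_right_inv
  refine ⟨MvPowerSeries.map (Subring.closure (t : Set K)).subtype w, fgc_map_mem t w, ?_⟩
  rw [← hg, ← map_mul, hw, map_one]

/-- power series without constant coefficient -/
lemma fgc_mem_span_X {σ R : Type*} [Finite σ] [CommRing R] (f : MvPowerSeries σ R)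
    (hf : constantCoeff f = 0) : f ∈ Ideal.span (Set.range (X : σ → MvPowerSeries σ R)) := by
  classical
  have := Fintype.ofFinite σ
  have hex : ∀ a : σ →₀ ℕ, ∃ o : Option σ, (o = none → a = 0) ∧ ∀ i, o = some i → a i ≠ 0 := by
    intro a
    by_cases ha : a = 0
    · exact ⟨none, fun _ => ha, fun i h => by simp at h⟩
    · obtain ⟨i, hi⟩ := Finsupp.ne_iff.mp ha
      exact ⟨some i, fun h => by simp at h, fun j hj => by
        rw [Option.some.injEq] at hj; subst hj; simpa using hi⟩
  choose o ho1 ho2 using hex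
  let g : σ → MvPowerSeries σ R := fun i b =>
    if o (b + Finsupp.single i 1) = some i then coeff (b + Finsupp.single i 1) f else 0
  have hg : ∀ i b, coeff b (g i) =
      if o (b + Finsupp.single i 1) = some i then coeff (b + Finsupp.single i 1) f else 0 :=
    fun i b => rfl
  have hfe : f = ∑ i, X i * g i := by
    ext a
    rw [map_sum]
    have h1 : ∀ i, coeff a (X i * g i) = if o a = some i then coeff a f else 0 := by
      intro i
      rw [X, coeff_monomial_mul, one_mul, hg]
      by_cases hi : Finsupp.single i 1 ≤ a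
      · rw [if_pos hi, tsub_add_cancel_of_le hi]
      · rw [if_neg hi, if_neg]
        intro h
        apply hi
        rw [Finsupp.single_le_iff]
        exact Nat.one_le_iff_ne_zero.mpr (ho2 a i h)
    simp only [h1]
    rcases h : o a with _ | j
    · have ha := ho1 a h
      subst ha
      simp only [reduceCtorEq, if_false, Finset.sum_const_zero]
      exact hf
    · rw [Finset.sum_eq_single j]
      · rw [if_pos rfl]
      · intro i _ hi
        rw [if_neg]
        intro h'
        exact hi (Option.some.inj h').symm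
      · intro h'
        exact absurd (Finset.mem_univ _) h'
  rw [hfe]
  exact Ideal.sum_mem _ fun i _ => Ideal.mul_mem_right _ _ (Ideal.subset_span ⟨i, rfl⟩)

lemma fgc_constantCoeff_of_mem {σ R : Type*} [CommRing R] {f : MvPowerSeries σ R}
    (hf : f ∈ Ideal.span (Set.range (X : σ → MvPowerSeries σ R))) : constantCoeff f = 0 := by
  have h : Ideal.span (Set.range (X : σ → MvPowerSeries σ R)) ≤
      RingHom.ker (constantCoeff (σ := σ) (R := R)) := by
    rw [Ideal.span_le]
    rintro _ ⟨i, rfl⟩
    simp [RingHom.mem_ker]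
  exact h hf

/-- L4b: the Henselian property. -/
theorem fgc_hensel {σ : Type*} [Finite σ] (d : ℕ) (β : MvPowerSeries σ K) (hβ : β ∈ fgc σ K)
    (hβ0 : constantCoeff β = 0) (c : ℕ → MvPowerSeries σ K) (hc : ∀ k, c k ∈ fgc σ K) :
    ∃ u ∈ fgc σ K, β + β * u + (β * u) ^ 2 * ∑ k ∈ Finset.range d, c k * (β * u) ^ k = 0 := by
  classical
  obtain ⟨s, hs⟩ := fgc_common (fun o : Option (Fin d) => o.elim β fun k => c k)
    (fun o => by rcases o with _ | k; exacts [hβ, hc k])
  set D := Subring.closure (s : Set K) with hD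
  obtain ⟨b, hb⟩ := fgc_exists_lift (hs none)
  choose γ hγ using fun k : Fin d => fgc_exists_lift (hs (some k))
  simp only [Option.elim_none, Option.elim_some] at hb hγ
  set e : ℕ → MvPowerSeries σ D := fun k => if h : k < d then γ ⟨k, h⟩ else 0 with he
  have hinj : Function.Injective D.subtype := Subtype.val_injective
  have hb0 : constantCoeff b = 0 := by
    apply hinj
    rw [← constantCoeff_map, hb, hβ0, map_zero]
  obtain ⟨w, hw1, hw2⟩ := fgc_root (Ideal.span (Set.range (X : σ → MvPowerSeries σ D))) d b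
    (fgc_mem_span_X b hb0) e
  have hwu : IsUnit w := by
    rw [isUnit_iff_constantCoeff]
    have h1 := fgc_constantCoeff_of_mem hw1
    rw [map_add, map_one, ← eq_neg_iff_add_eq_zero] at h1
    rw [h1]
    exact isUnit_one.neg
  obtain ⟨v, hv⟩ := hwu.exists_right_inv
  have key : b + b * v + (b * v) ^ 2 * ∑ k ∈ Finset.range d, e k * (b * v) ^ k = 0 := by
    have h1 : b * v ^ (d + 2) * (w ^ (d + 2) + w ^ (d + 1) +
        ∑ k ∈ Finset.range d, e k * b ^ (k + 1) * w ^ (d - k)) = 0 := by rw [hw2, mul_zero]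
    rw [← h1, mul_add, mul_add, Finset.mul_sum, Finset.mul_sum]
    have hvw : ∀ m : ℕ, v ^ m * w ^ m = 1 := by
      intro m
      rw [← mul_pow, mul_comm v w, hv, one_pow]
    congr 1
    · congr 1
      · rw [mul_assoc, hvw, mul_one]
      · rw [pow_succ v (d + 1), mul_comm (v ^ (d + 1)) v, mul_assoc, mul_assoc, hvw, mul_one]
    · refine Finset.sum_congr rfl fun k hk => ?_
      have hk' : k < d := Finset.mem_range.mp hk
      have h2 : v ^ (d + 2) = v ^ (k + 2) * v ^ (d - k) := by
        rw [← pow_add]; congr 1; omega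
      rw [h2]
      calc (b * v) ^ 2 * (e k * (b * v) ^ k) = b * v ^ (k + 2) * 1 * (e k * b ^ (k + 1)) := by ring
        _ = b * v ^ (k + 2) * (v ^ (d - k) * w ^ (d - k)) * (e k * b ^ (k + 1)) := by rw [hvw]
        _ = _ := by ring
  refine ⟨MvPowerSeries.map D.subtype v, fgc_map_mem s v, ?_⟩
  have h3 := congrArg (MvPowerSeries.map D.subtype) key
  simp only [map_add, map_mul, map_pow, map_sum, map_zero] at h3
  rw [hb] at h3
  rw [← h3]
  congr 2
  refine Finset.sum_congr rfl fun k hk => ?_
  have hk' : k < d := Finset.mem_range.mp hk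
  congr 1
  rw [he]
  simp only [hk', dif_pos]
  exact (hγ ⟨k, hk'⟩).symm

/-- L4c: polynomials. -/
theorem coe_mem_fgc {σ : Type*} (p : MvPolynomial σ K) : (p : MvPowerSeries σ K) ∈ fgc σ K := by
  classical
  refine ⟨p.support.image fun a => p.coeff a, fun a => ?_⟩
  rw [MvPolynomial.coeff_coe]
  by_cases ha : a ∈ p.support
  · exact Subring.subset_closure (Finset.mem_coe.mpr (Finset.mem_image_of_mem _ ha))
  · rw [MvPolynomial.notMem_support_iff.mp ha]
    exact Subring.zero_mem _

lemma fgc_coeff_toPS {n : ℕ} (p : Polynomial (MvPowerSeries (Fin n) K)) (k : ℕ)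
    (x : Fin n →₀ ℕ) : coeff (x.cons k) (toPS K n p) = coeff x (p.coeff k) := by
  rw [← coeff_coeff_finSuccEquiv]
  have : finSuccEquiv K n (toPS K n p) = (p : PowerSeries (MvPowerSeries (Fin n) K)) := by
    show finSuccEquiv K n ((finSuccEquiv K n).symm _) = _
    rw [AlgEquiv.apply_symm_apply]
    rfl
  rw [this, Polynomial.coeff_coe]

/-- L4d. -/
theorem toPS_mem_fgc {n : ℕ} (p : Polynomial (MvPowerSeries (Fin n) K))
    (hp : ∀ l, p.coeff l ∈ fgc (Fin n) K) : toPS K n p ∈ fgc (Fin (n + 1)) K := by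
  classical
  obtain ⟨s, hs⟩ := fgc_common (fun l : Fin (p.natDegree + 1) => p.coeff l) (fun l => hp l)
  refine ⟨s, fun a => ?_⟩
  rw [← Finsupp.cons_tail a, fgc_coeff_toPS]
  by_cases h : a 0 < p.natDegree + 1
  · exact hs ⟨a 0, h⟩ _
  · rw [Polynomial.coeff_eq_zero_of_natDegree_lt (by omega), map_zero]
    exact Subring.zero_mem _

theorem toPS_polyEval {n : ℕ} (p : MvPolynomial (Fin (n + 1)) K) :
    toPS K n (polyEval K n p) = (p : MvPowerSeries (Fin (n + 1)) K) := by
  have h : (toPS K n).comp (polyEval K n) = MvPolynomial.coeToMvPowerSeries.ringHom := by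
    refine MvPolynomial.ringHom_ext (fun r => ?_) (fun i => ?_)
    · simp [toPS, polyEval, MvPolynomial.finSuccEquiv_apply, AlgEquiv.symm_apply_eq,
        MvPowerSeries.algebraMap_apply']
    · refine Fin.cases ?_ (fun j => ?_) i
      · simp [toPS, polyEval, MvPolynomial.finSuccEquiv_X_zero, AlgEquiv.symm_apply_eq]
      · simp [toPS, polyEval, MvPolynomial.finSuccEquiv_X_succ, AlgEquiv.symm_apply_eq,
          MvPowerSeries.algebraMap_apply']
  exact RingHom.congr_fun h p

/-- L4e. -/
theorem toPS_mem_mm_pow {n : ℕ} (p : Polynomial (MvPowerSeries (Fin n) K)) (c : ℕ)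
    (hp : ∀ l, p.coeff l ∈ mm (Fin n) K ^ c) : toPS K n p ∈ mm (Fin (n + 1)) K ^ c := by
  have hmap : (mm (Fin n) K).map ((toPS K n).comp Polynomial.C) ≤ mm (Fin (n + 1)) K := by
    unfold mm
    rw [Ideal.map_span, Ideal.span_le]
    rintro _ ⟨_, ⟨j, rfl⟩, rfl⟩
    apply Ideal.subset_span
    refine ⟨j.succ, ?_⟩
    simp [toPS, AlgEquiv.eq_symm_apply]
  have hC : ∀ q ∈ mm (Fin n) K ^ c, toPS K n (Polynomial.C q) ∈ mm (Fin (n + 1)) K ^ c := by
    intro q hq
    have h1 := Ideal.mem_map_of_mem ((toPS K n).comp Polynomial.C) hq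
    rw [Ideal.map_pow] at h1
    exact Ideal.pow_right_mono hmap c h1
  rw [p.as_sum_range_C_mul_X_pow, map_sum]
  refine Ideal.sum_mem _ fun l _ => ?_
  rw [map_mul]
  exact Ideal.mul_mem_right _ _ (hC _ (hp l))

theorem approx_zero : Approx K 0 := by
  classical
  intro ι _ y c
  refine ⟨y, fun i => ⟨{coeff 0 (y i)}, fun a => ?_⟩, fun i => ?_, fun f hf => hf⟩
  · have : a = 0 := Subsingleton.elim _ _
    rw [this]
    exact Subring.subset_closure (by simp)
  · rw [sub_self]
    exact Submodule.zero_mem _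

end Vale.Agent.P202.CZ
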