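import Vale.Agent.P202.CharZero.AADefs
import Vale.Agent.P202.CharZero.Fgc

/-!
Linear change of coordinates in power series rings.
-/

namespace Vale.Agent.P202.CZ

open MvPowerSeries

section General

variable {R : Type*} [CommRing R] {n : ℕ}

/-- the linear forms `X i + lam i * X 0` -/
noncomputable def crdA (lam : Fin (n + 1) → R) : Fin (n + 1) → MvPowerSeries (Fin (n + 1)) R :=
  fun i => X i + C (lam i) * X 0

lemma crd_hasSubst (lam : Fin (n + 1) → R) : HasSubst (crdA lam) :=
  hasSubst_of_constantCoeff_zero fun i => by simp [crdA]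

/-- the substitution -/
noncomputable def crdS (lam : Fin (n + 1) → R) :
    MvPowerSeries (Fin (n + 1)) R →ₐ[R] MvPowerSeries (Fin (n + 1)) R :=
  substAlgHom (crd_hasSubst lam)

lemma crdS_X (lam : Fin (n + 1) → R) (i : Fin (n + 1)) : crdS lam (X i) = crdA lam i :=
  substAlgHom_X _ i

lemma crdS_apply (lam : Fin (n + 1) → R) (f : MvPowerSeries (Fin (n + 1)) R) :
    crdS lam f = subst (crdA lam) f := substAlgHom_apply _ f

lemma crdS_comp (lam mu : Fin (n + 1) → R) (h : ∀ i, mu i + lam i = 0) (h0 : mu 0 = 0)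
    (f : MvPowerSeries (Fin (n + 1)) R) : crdS mu (crdS lam f) = f := by
  have h1 : crdS mu (crdS lam f) = subst (fun s => subst (crdA mu) (crdA lam s)) f := by
    rw [crdS_apply, crdS_apply, subst_comp_subst_apply (crd_hasSubst lam) (crd_hasSubst mu)]
  have h2 : (fun s => subst (crdA mu) (crdA lam s)) =
      (X : Fin (n + 1) → MvPowerSeries (Fin (n + 1)) R) := by
    funext i
    have e1 : subst (crdA mu) (crdA lam i) = crdS mu (crdA lam i) := (crdS_apply _ _).symm
    have e2 : crdS mu (C (lam i)) = C (lam i) := by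
      rw [crdS_apply, subst_C]
    rw [e1]
    show crdS mu (X i + C (lam i) * X 0) = X i
    rw [map_add, map_mul, crdS_X, crdS_X, e2]
    unfold crdA
    rw [h0, map_zero, zero_mul, add_zero, add_assoc, ← add_mul, ← map_add, h i, map_zero,
      zero_mul, add_zero]
  rw [h1, h2, subst_self]
  rfl

/-- the substitution on polynomials -/
noncomputable def crdP (lam : Fin (n + 1) → R) :
    MvPolynomial (Fin (n + 1)) R →ₐ[R] MvPolynomial (Fin (n + 1)) R :=
  MvPolynomial.aeval fun i => MvPolynomial.X i + MvPolynomial.C (lam i) * MvPolynomial.X 0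

lemma crdP_comp (lam mu : Fin (n + 1) → R) (h : ∀ i, mu i + lam i = 0) (h0 : mu 0 = 0) :
    (crdP mu).comp (crdP lam) = AlgHom.id R _ := by
  refine MvPolynomial.algHom_ext fun i => ?_
  have e2 : ∀ r : R, crdP mu (MvPolynomial.C r) = MvPolynomial.C r := fun r =>
    (crdP mu).commutes r
  have e3 : ∀ (mu : Fin (n + 1) → R) (i : Fin (n + 1)), crdP mu (MvPolynomial.X i) =
      MvPolynomial.X i + MvPolynomial.C (mu i) * MvPolynomial.X 0 := by
    intro mu i
    unfold crdP
    rw [MvPolynomial.aeval_X]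
  rw [AlgHom.comp_apply, e3, map_add, map_mul, e2, e3, e3, h0, map_zero, zero_mul, add_zero,
    add_assoc, ← add_mul, ← map_add, h i, map_zero, zero_mul, add_zero]
  rfl

lemma crdS_coe (lam : Fin (n + 1) → R) (p : MvPolynomial (Fin (n + 1)) R) :
    crdS lam (p : MvPowerSeries (Fin (n + 1)) R) = (crdP lam p :) := by
  have h : ((crdS lam : MvPowerSeries (Fin (n + 1)) R →+* _)).comp
      MvPolynomial.coeToMvPowerSeries.ringHom =
      MvPolynomial.coeToMvPowerSeries.ringHom.comp
        (crdP lam : MvPolynomial (Fin (n + 1)) R →+* MvPolynomial (Fin (n + 1)) R) := by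
    refine MvPolynomial.ringHom_ext (fun r => ?_) (fun i => ?_)
    · simp [crdS_apply, crdP]
    · simp [crdS_X, crdP, crdA]
  exact RingHom.congr_fun h p

end General

variable {K : Type*} [Field K] {n : ℕ}

lemma crdS_fgc (lam : Fin (n + 1) → K) (f : MvPowerSeries (Fin (n + 1)) K)
    (hf : f ∈ fgc (Fin (n + 1)) K) : crdS lam f ∈ fgc (Fin (n + 1)) K := by
  classical
  obtain ⟨s, hs⟩ := hf
  set t : Finset K := s ∪ Finset.univ.image lam with ht
  have hst : Subring.closure (s : Set K) ≤ Subring.closure (t : Set K) :=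
    Subring.closure_mono (by rw [ht]; simp)
  have hlam : ∀ i, lam i ∈ Subring.closure (t : Set K) := fun i =>
    Subring.subset_closure (by rw [ht]; simp)
  obtain ⟨g, hg⟩ := fgc_exists_lift (fgc_coeffsIn_mono hst hs)
  have h1 : crdS lam f = MvPowerSeries.map (Subring.closure (t : Set K)).subtype
      (subst (crdA fun i => (⟨lam i, hlam i⟩ : Subring.closure (t : Set K))) g) := by
    rw [map_subst (crd_hasSubst _), hg, crdS_apply]
    congr 1
    funext i
    simp [crdA]
  rw [h1]
  exact fgc_map_mem t _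

lemma crdS_mm (lam : Fin (n + 1) → K) (c : ℕ) (f : MvPowerSeries (Fin (n + 1)) K)
    (hf : f ∈ mm (Fin (n + 1)) K ^ c) : crdS lam f ∈ mm (Fin (n + 1)) K ^ c := by
  have hmap : (mm (Fin (n + 1)) K).map
      (crdS lam : MvPowerSeries (Fin (n + 1)) K →+* MvPowerSeries (Fin (n + 1)) K) ≤
      mm (Fin (n + 1)) K := by
    unfold mm
    rw [Ideal.map_span, Ideal.span_le]
    rintro _ ⟨_, ⟨j, rfl⟩, rfl⟩
    show crdS lam (X j) ∈ _
    rw [crdS_X]
    exact Ideal.add_mem _ (Ideal.subset_span ⟨j, rfl⟩)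
      (Ideal.mul_mem_left _ _ (Ideal.subset_span ⟨0, rfl⟩))
  have h1 := Ideal.mem_map_of_mem
    (crdS lam : MvPowerSeries (Fin (n + 1)) K →+* MvPowerSeries (Fin (n + 1)) K) hf
  rw [Ideal.map_pow] at h1
  exact Ideal.pow_right_mono hmap c h1

lemma crd_deg {P : MvPolynomial (Fin (n + 1)) K} {m : ℕ} (hP : P.IsHomogeneous m)
    {d : Fin (n + 1) →₀ ℕ} (hd : P.coeff d ≠ 0) : ∑ i, d i = m := by
  have := hP hd
  rw [Finsupp.weight_apply, Finsupp.sum_fintype _ _ (by simp)] at this
  simpa using this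

lemma crd_eval_smul {P : MvPolynomial (Fin (n + 1)) K} {m : ℕ} (hP : P.IsHomogeneous m) (c : K)
    (x : Fin (n + 1) → K) :
    MvPolynomial.eval (fun i => c * x i) P = c ^ m * MvPolynomial.eval x P := by
  rw [MvPolynomial.eval_eq', MvPolynomial.eval_eq', Finset.mul_sum]
  refine Finset.sum_congr rfl fun d hd => ?_
  have h1 : ∑ i, d i = m := by
    exact crd_deg hP (MvPolynomial.mem_support_iff.mp hd)
  simp only [mul_pow, Finset.prod_mul_distrib, Finset.prod_pow_eq_pow_sum]
  rw [h1]
  ring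

lemma crd_eval_e0 {Q : MvPolynomial (Fin (n + 1)) K} {m : ℕ} (hQ : Q.IsHomogeneous m) :
    MvPolynomial.eval (fun i => if i = 0 then 1 else 0) Q = Q.coeff (Finsupp.single 0 m) := by
  classical
  rw [MvPolynomial.eval_eq']
  have hdeg : ∀ d ∈ Q.support, ∑ i, d i = m := by
    intro d hd
    exact crd_deg hQ (MvPolynomial.mem_support_iff.mp hd)
  rw [Finset.sum_eq_single (Finsupp.single 0 m)]
  · rw [Finset.prod_eq_one, mul_one]
    intro i _
    by_cases hi : i = 0
    · simp [hi]
    · simp [hi]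
  · intro d hd hne
    have : ∃ i, i ≠ 0 ∧ d i ≠ 0 := by
      by_contra hcon
      push Not at hcon
      apply hne
      ext i
      by_cases hi : i = 0
      · subst hi
        rw [← hdeg d hd, Finset.sum_eq_single 0]
        · simp
        · intro j _ hj; exact hcon j hj
        · simp
      · rw [hcon i hi, Finsupp.single_apply, if_neg (Ne.symm hi)]
    obtain ⟨i, hi, hdi⟩ := this
    rw [Finset.prod_eq_zero (Finset.mem_univ i), mul_zero]
    rw [if_neg hi, zero_pow hdi]
  · intro h
    rw [MvPolynomial.notMem_support_iff.mp h, zero_mul]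

/-- L2: linear change of coordinates. -/
theorem exists_coord_change [Infinite K] {n : ℕ} (g : MvPowerSeries (Fin (n + 1)) K)
    (hg : g ≠ 0) :
    ∃ (σ : MvPowerSeries (Fin (n + 1)) K ≃ₐ[K] MvPowerSeries (Fin (n + 1)) K)
      (σ₀ : MvPolynomial (Fin (n + 1)) K ≃ₐ[K] MvPolynomial (Fin (n + 1)) K),
      (∀ p : MvPolynomial (Fin (n + 1)) K, σ (p : MvPowerSeries (Fin (n + 1)) K) = (σ₀ p :)) ∧
      (∀ f ∈ fgc (Fin (n + 1)) K, σ f ∈ fgc (Fin (n + 1)) K) ∧
      (∀ f ∈ fgc (Fin (n + 1)) K, σ.symm f ∈ fgc (Fin (n + 1)) K) ∧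
      (∀ (c : ℕ), ∀ f ∈ mm (Fin (n + 1)) K ^ c, σ f ∈ mm (Fin (n + 1)) K ^ c) ∧
      (∀ (c : ℕ), ∀ f ∈ mm (Fin (n + 1)) K ^ c, σ.symm f ∈ mm (Fin (n + 1)) K ^ c) ∧
      RegX (σ g) := by
  classical
  have hord : (g.order.toNat : ℕ∞) = g.order := ne_zero_iff_order_finite.mp hg
  set m := g.order.toNat with hm
  obtain ⟨d₀, hd₀, hd₀m⟩ := exists_coeff_ne_zero_and_order hord
  have hdm : d₀.degree = m := by
    rw [← hord] at hd₀m
    exact_mod_cast hd₀m
  set P : MvPolynomial (Fin (n + 1)) K := truncTotal (m + 1) g with hP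
  have hPc : ∀ x, P.coeff x = if x.degree < m + 1 then coeff x g else 0 := fun x =>
    coeff_truncTotal_eq_ite g
  have hlow : ∀ x : Fin (n + 1) →₀ ℕ, x.degree < m → coeff x g = 0 := by
    intro x hx
    apply coeff_of_lt_order
    rw [← hord]
    exact_mod_cast hx
  have hP0 : P ≠ 0 := by
    intro h
    apply hd₀
    have := hPc d₀
    rw [h, hdm, if_pos (Nat.lt_succ_self m), MvPolynomial.coeff_zero] at this
    exact this.symm
  have hPh : P.IsHomogeneous m := by
    intro x hx
    rw [hPc] at hx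
    have h1 : x.degree < m + 1 := by
      by_contra h
      exact hx (if_neg h)
    rw [if_pos h1] at hx
    have h2 : ¬ x.degree < m := fun h => hx (hlow x h)
    have h3 : x.degree = m := by omega
    rw [← h3, Finsupp.degree_eq_weight_one]
    rfl
  obtain ⟨x, hx⟩ : ∃ x : Fin (n + 1) → K, MvPolynomial.eval x (MvPolynomial.X 0 * P) ≠ 0 := by
    by_contra hcon
    push Not at hcon
    have : MvPolynomial.X 0 * P = 0 := MvPolynomial.funext fun x => by rw [hcon x, map_zero]
    rcases mul_eq_zero.mp this with h | h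
    · exact MvPolynomial.X_ne_zero 0 h
    · exact hP0 h
  rw [map_mul, MvPolynomial.eval_X] at hx
  have hx0 : x 0 ≠ 0 := left_ne_zero_of_mul hx
  have hxP : MvPolynomial.eval x P ≠ 0 := right_ne_zero_of_mul hx
  set lam : Fin (n + 1) → K := fun i => if i = 0 then 0 else (x 0)⁻¹ * x i with hlam
  have hl0 : lam 0 = 0 := by simp [hlam]
  refine ⟨AlgEquiv.ofAlgHom (crdS lam) (crdS fun i => - lam i)
      (AlgHom.ext fun f => crdS_comp _ _ (fun i => by simp) hl0 f)
      (AlgHom.ext fun f => crdS_comp _ _ (fun i => by simp) (by simp [hl0]) f),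
    AlgEquiv.ofAlgHom (crdP lam) (crdP fun i => - lam i)
      (crdP_comp _ _ (fun i => by simp) hl0) (crdP_comp _ _ (fun i => by simp) (by simp [hl0])),
    fun p => crdS_coe lam p, fun f hf => crdS_fgc _ f hf, fun f hf => crdS_fgc _ f hf,
    fun c f hf => crdS_mm _ c f hf, fun c f hf => crdS_mm _ c f hf, ?_⟩
  show RegX (crdS lam g)
  -- the leading coefficient
  have hlead : (crdP lam P).coeff (Finsupp.single 0 m) ≠ 0 := by
    have hQ : (crdP lam P).IsHomogeneous m := by
      have := hPh.aeval (n := 1) (fun i => MvPolynomial.X i + MvPolynomial.C (lam i) *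
        MvPolynomial.X 0 : Fin (n + 1) → MvPolynomial (Fin (n + 1)) K) (fun i => by
          refine (MvPolynomial.isHomogeneous_X _ _).add ?_
          simpa using (MvPolynomial.isHomogeneous_C (Fin (n + 1)) (lam i)).mul
            (MvPolynomial.isHomogeneous_X K (0 : Fin (n + 1))))
      rwa [one_mul] at this
    rw [← crd_eval_e0 hQ]
    have e1 : MvPolynomial.eval (fun i : Fin (n + 1) => if i = 0 then (1 : K) else 0)
        (crdP lam P) = MvPolynomial.eval (fun i => (x 0)⁻¹ * x i) P := by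
      have h1 : ∀ p : MvPolynomial (Fin (n + 1)) K,
          MvPolynomial.eval (fun i : Fin (n + 1) => if i = 0 then (1 : K) else 0) (crdP lam p) =
          MvPolynomial.eval (fun i => (x 0)⁻¹ * x i) p := by
        intro p
        have h2 : ((MvPolynomial.eval (fun i : Fin (n + 1) => if i = 0 then (1 : K) else 0))).comp
            (crdP lam : MvPolynomial (Fin (n + 1)) K →+* MvPolynomial (Fin (n + 1)) K) =
            MvPolynomial.eval (fun i => (x 0)⁻¹ * x i) := by
          refine MvPolynomial.ringHom_ext (fun r => ?_) (fun i => ?_)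
          · simp [crdP]
          · by_cases hi : i = 0
            · subst hi
              simp [crdP, hlam, hx0]
            · simp [crdP, hlam, hi]
        exact RingHom.congr_fun h2 p
      exact h1 P
    rw [e1, crd_eval_smul hPh]
    exact mul_ne_zero (pow_ne_zero _ (inv_ne_zero hx0)) hxP
  -- the remainder
  set r : MvPowerSeries (Fin (n + 1)) K := g - (P : MvPowerSeries (Fin (n + 1)) K) with hr
  have hrord : ((m + 1 : ℕ) : ℕ∞) ≤ r.order := by
    apply nat_le_order
    intro d hd
    rw [hr, map_sub, MvPolynomial.coeff_coe, hPc, if_pos hd, sub_self]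
  have hrs : ((m + 1 : ℕ) : ℕ∞) ≤ (crdS lam r).order := by
    rw [crdS_apply]
    refine le_trans ?_ (le_order_subst (crd_hasSubst lam) r)
    calc ((m + 1 : ℕ) : ℕ∞) = 1 * ((m + 1 : ℕ) : ℕ∞) := (one_mul _).symm
      _ ≤ (⨅ i, (crdA lam i).order) * r.order := by
        refine mul_le_mul' (le_iInf fun i => ?_) hrord
        rw [one_le_order_iff_constCoeff_eq_zero]
        simp [crdA]
  have hg' : crdS lam g = (crdP lam P : MvPowerSeries (Fin (n + 1)) K) + crdS lam r := by
    rw [← crdS_coe, ← map_add, hr, add_sub_cancel]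
  unfold RegX
  intro h
  have h1 := congrArg (PowerSeries.coeff m) h
  rw [PowerSeries.coeff_map, ← coeff_zero_eq_constantCoeff_apply, coeff_coeff_finSuccEquiv,
    map_zero, hg', map_add, MvPolynomial.coeff_coe] at h1
  have h2 : (Finsupp.cons m (0 : Fin n →₀ ℕ)) = Finsupp.single 0 m := by
    ext i
    refine Fin.cases ?_ (fun j => ?_) i
    · simp
    · simp
  rw [h2] at h1
  have h3 : coeff (Finsupp.single 0 m) (crdS lam r) = 0 := by
    apply coeff_of_lt_order
    refine lt_of_lt_of_le ?_ hrs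
    rw [Finsupp.degree_single]
    exact_mod_cast Nat.lt_succ_self m
  rw [h3, add_zero] at h1
  exact hlead h1

end Vale.Agent.P202.CZ
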