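import Mathlib

/-!
Primitive element data for a finitely generated extension of a unique factorization domain.
-/

namespace Vale.Agent.P202.CZ

open Polynomial

/-- Clearing denominators in an `adjoin`. -/
theorem clear_denom_adjoin {E L₀ F : Type*} [CommRing E] [IsDomain E] [Field L₀] [Algebra E L₀]
    [IsFractionRing E L₀] [Field F] [Algebra L₀ F] [Algebra E F] [IsScalarTower E L₀ F]
    (s : Set F) (x : F) (hx : x ∈ Algebra.adjoin L₀ s) :
    ∃ e : E, e ≠ 0 ∧ algebraMap E F e * x ∈ Algebra.adjoin E s := by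
  induction hx using Algebra.adjoin_induction with
  | mem x hx =>
    exact ⟨1, one_ne_zero, by rw [map_one, one_mul]; exact Algebra.subset_adjoin hx⟩
  | algebraMap r =>
    obtain ⟨a, b, hb, rfl⟩ := IsFractionRing.div_surjective (A := E) r
    have hb0 : b ≠ 0 := nonZeroDivisors.ne_zero hb
    refine ⟨b, hb0, ?_⟩
    have hb1 : algebraMap E L₀ b ≠ 0 :=
      (map_ne_zero_iff _ (IsFractionRing.injective E L₀)).mpr hb0
    have : algebraMap E F b * algebraMap L₀ F (algebraMap E L₀ a / algebraMap E L₀ b)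
        = algebraMap E F a := by
      rw [IsScalarTower.algebraMap_apply E L₀ F b, IsScalarTower.algebraMap_apply E L₀ F a,
        ← map_mul, mul_div_cancel₀ _ hb1]
    rw [this]
    exact Subalgebra.algebraMap_mem _ a
  | add x y _ _ hx hy =>
    obtain ⟨e₁, h₁, m₁⟩ := hx
    obtain ⟨e₂, h₂, m₂⟩ := hy
    refine ⟨e₁ * e₂, mul_ne_zero h₁ h₂, ?_⟩
    have : algebraMap E F (e₁ * e₂) * (x + y) =
        algebraMap E F e₂ * (algebraMap E F e₁ * x) +
          algebraMap E F e₁ * (algebraMap E F e₂ * y) := by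
      rw [map_mul]; ring
    rw [this]
    exact add_mem (mul_mem (Subalgebra.algebraMap_mem _ _) m₁)
      (mul_mem (Subalgebra.algebraMap_mem _ _) m₂)
  | mul x y _ _ hx hy =>
    obtain ⟨e₁, h₁, m₁⟩ := hx
    obtain ⟨e₂, h₂, m₂⟩ := hy
    refine ⟨e₁ * e₂, mul_ne_zero h₁ h₂, ?_⟩
    have : algebraMap E F (e₁ * e₂) * (x * y) =
        (algebraMap E F e₁ * x) * (algebraMap E F e₂ * y) := by
      rw [map_mul]; ring
    rw [this]
    exact mul_mem m₁ m₂

/-- The primitive element theorem over an integral domain, with denominators cleared. -/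
theorem primitive_aux {E B : Type*} [CommRing E] [IsDomain E] [CharZero E] [CommRing B]
    [IsDomain B] [Algebra E B] [FaithfulSMul E B] {ι : Type*} [Finite ι] (y : ι → B)
    (hy : ∀ i, IsAlgebraic E (y i)) :
    ∃ θ : B, IsIntegral E θ ∧ ∃ Q : E, Q ≠ 0 ∧ ∃ P : ι → E[X],
      ∀ i, algebraMap E B Q * y i = aeval θ (P i) := by
  classical
  let L₀ := FractionRing E
  let F := FractionRing B
  let _ : Algebra L₀ F := FractionRing.liftAlgebra E F
  have : IsScalarTower E L₀ F := FractionRing.isScalarTower_liftAlgebra E F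
  have : CharZero L₀ := charZero_of_injective_algebraMap (IsFractionRing.injective E L₀)
  have hBF : Function.Injective (algebraMap B F) := IsFractionRing.injective B F
  let y' : ι → F := fun i => algebraMap B F (y i)
  have hy' : ∀ i, IsAlgebraic L₀ (y' i) := fun i =>
    ((hy i).algebraMap (A := F)).extendScalars (IsFractionRing.injective E L₀)
  let s : Set F := Set.range y'
  have : Finite s := Set.finite_range y'
  let L : IntermediateField L₀ F := IntermediateField.adjoin L₀ s
  have hfd : FiniteDimensional L₀ L :=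
    IntermediateField.finiteDimensional_adjoin (by
      rintro x ⟨i, rfl⟩
      exact (hy' i).isIntegral)
  obtain ⟨α, hα⟩ := Field.exists_primitive_element L₀ L
  have hLs : (L.toSubalgebra : Subalgebra L₀ F) = Algebra.adjoin L₀ s := by
    apply IntermediateField.adjoin_toSubalgebra_of_isAlgebraic
    rintro x ⟨i, rfl⟩
    exact hy' i
  have hL : IntermediateField.adjoin L₀ {(α : F)} = L := by
    have h1 := congrArg (IntermediateField.map L.val) hα
    rw [IntermediateField.adjoin_map, Set.image_singleton, ← AlgHom.fieldRange_eq_map,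
      IntermediateField.fieldRange_val] at h1
    exact h1
  -- a multiple of alpha in B
  have hαL : (α : F) ∈ Algebra.adjoin L₀ s := by
    rw [← hLs]; exact α.2
  obtain ⟨e, he, hemem⟩ := clear_denom_adjoin (E := E) s (α : F) hαL
  have hsub : ∀ x ∈ Algebra.adjoin E s, ∃ b : B, algebraMap B F b = x := by
    intro x hx
    induction hx using Algebra.adjoin_induction with
    | mem x hx => obtain ⟨i, rfl⟩ := hx; exact ⟨y i, rfl⟩
    | algebraMap r => exact ⟨algebraMap E B r, (IsScalarTower.algebraMap_apply E B F r).symm⟩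
    | add x y _ _ hx hy =>
      obtain ⟨a, rfl⟩ := hx; obtain ⟨b, rfl⟩ := hy; exact ⟨a + b, map_add _ _ _⟩
    | mul x y _ _ hx hy =>
      obtain ⟨a, rfl⟩ := hx; obtain ⟨b, rfl⟩ := hy; exact ⟨a * b, map_mul _ _ _⟩
  obtain ⟨c, hc⟩ := hsub _ hemem
  have hαalg : IsAlgebraic L₀ (α : F) := by
    have h := Algebra.IsAlgebraic.isAlgebraic (R := L₀) α
    exact h.algebraMap (A := F)
  have hcalg : IsAlgebraic E c := by
    rw [← isAlgebraic_algebraMap_iff hBF, hc]
    rw [IsFractionRing.isAlgebraic_iff E L₀ F]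
    exact (IsAlgebraic.mul (by
      rw [IsScalarTower.algebraMap_apply E L₀ F]; exact isAlgebraic_algebraMap _) hαalg)
  obtain ⟨e', he', hint⟩ := hcalg.exists_integral_multiple
  set θ : B := e' • c with hθ
  have hθF : algebraMap B F θ = algebraMap E F (e' * e) * (α : F) := by
    rw [hθ, Algebra.smul_def, map_mul, hc, ← IsScalarTower.algebraMap_apply E B F, map_mul]
    ring
  have hee : algebraMap E F (e' * e) ≠ 0 := by
    rw [IsScalarTower.algebraMap_apply E L₀ F]
    exact (_root_.map_ne_zero _).mpr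
      ((map_ne_zero_iff _ (IsFractionRing.injective E L₀)).mpr (mul_ne_zero he' he))
  have hαθ : (α : F) ∈ IntermediateField.adjoin L₀ {algebraMap B F θ} := by
    have h1 : (α : F) = (algebraMap L₀ F (algebraMap E L₀ (e' * e)))⁻¹ * algebraMap B F θ := by
      rw [hθF, ← IsScalarTower.algebraMap_apply E L₀ F, inv_mul_cancel_left₀ hee]
    rw [h1]
    refine mul_mem (inv_mem (IntermediateField.algebraMap_mem _ _)) ?_
    exact IntermediateField.mem_adjoin_simple_self _ _
  have hθalg : IsAlgebraic L₀ (algebraMap B F θ) := by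
    rw [hθF]
    exact (IsAlgebraic.mul (by
      rw [IsScalarTower.algebraMap_apply E L₀ F]; exact isAlgebraic_algebraMap _) hαalg)
  have hyθ : ∀ i, y' i ∈ Algebra.adjoin L₀ {algebraMap B F θ} := by
    intro i
    rw [← IntermediateField.adjoin_simple_toSubalgebra_of_isAlgebraic hθalg]
    have h1 : y' i ∈ L := IntermediateField.subset_adjoin _ _ ⟨i, rfl⟩
    rw [← hL] at h1
    exact (IntermediateField.adjoin_simple_le_iff.mpr hαθ) h1
  have hQP : ∀ i, ∃ Q : E, Q ≠ 0 ∧ ∃ P : E[X], algebraMap E B Q * y i = aeval θ P := by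
    intro i
    obtain ⟨Q, hQ, hm⟩ := clear_denom_adjoin (E := E) _ _ (hyθ i)
    rw [Algebra.adjoin_singleton_eq_range_aeval] at hm
    obtain ⟨P, hP⟩ := hm
    refine ⟨Q, hQ, P, hBF ?_⟩
    rw [map_mul, ← IsScalarTower.algebraMap_apply E B F, ← aeval_algebraMap_apply]
    exact hP.symm
  choose Q hQ P hP using hQP
  cases nonempty_fintype ι
  refine ⟨θ, hint, ∏ i, Q i, Finset.prod_ne_zero_iff.mpr fun i _ => hQ i,
    fun i => C (∏ k ∈ Finset.univ.erase i, Q k) * P i, fun i => ?_⟩
  rw [map_mul, aeval_C, ← hP i, ← Finset.mul_prod_erase Finset.univ Q (Finset.mem_univ i),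
    map_mul]
  ring

/-- L1: primitive element data. -/
theorem exists_primitive_data {A B : Type*} [CommRing A] [IsDomain A]
    [UniqueFactorizationMonoid A] [CommRing B] [IsDomain B] [CharZero B] [Algebra A B]
    (hinj : Function.Injective (algebraMap A B)) {ι : Type} [Finite ι] (y : ι → B) :
    ∃ (m : ℕ) (t : Fin m → B) (θ : B) (f : Polynomial (MvPolynomial (Fin m) A))
      (Q : MvPolynomial (Fin m) A) (P : ι → Polynomial (MvPolynomial (Fin m) A)),
      f.Monic ∧
      (∀ F : Polynomial (MvPolynomial (Fin m) A),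
        F.eval₂ (MvPolynomial.aeval (R := A) t).toRingHom θ = 0 ↔ f ∣ F) ∧
      (Polynomial.derivative f).eval₂ (MvPolynomial.aeval (R := A) t).toRingHom θ ≠ 0 ∧
      MvPolynomial.aeval t Q ≠ 0 ∧
      ∀ i, MvPolynomial.aeval t Q * y i =
        (P i).eval₂ (MvPolynomial.aeval (R := A) t).toRingHom θ := by
  classical
  have : FaithfulSMul A B := (faithfulSMul_iff_algebraMap_injective A B).mpr hinj
  obtain ⟨s, hs⟩ := (AlgebraicIndependent.matroid A B).exists_isBasis (Set.range y)
    (by simp [AlgebraicIndependent.matroid_e])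
  obtain ⟨hind, hsub, halg⟩ := AlgebraicIndependent.matroid_isBasis_iff.mp hs
  have hfin : Finite s := (Set.finite_range y).subset hsub
  let m := Nat.card s
  let eqv : Fin m ≃ s := (Finite.equivFin s).symm
  let t : Fin m → B := fun k => (eqv k : B)
  have hrange : Set.range t = s := by
    ext x
    constructor
    · rintro ⟨k, rfl⟩; exact (eqv k).2
    · intro hx
      exact ⟨eqv.symm ⟨x, hx⟩, by simp [t]⟩
  have htind : AlgebraicIndependent A t := by
    have h1 : AlgebraicIndependent A ((↑) : s → B) := hind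
    exact h1.comp eqv eqv.injective
  let E := MvPolynomial (Fin m) A
  let φ : E →ₐ[A] B := MvPolynomial.aeval t
  have hφ : Function.Injective φ := htind
  let _ : Algebra E B := φ.toRingHom.toAlgebra
  have hmap : algebraMap E B = φ.toRingHom := rfl
  have hfaith : FaithfulSMul E B := (faithfulSMul_iff_algebraMap_injective E B).mpr hφ
  have hcharE : CharZero E := by
    refine ⟨fun a b hab => ?_⟩
    have h1 := congrArg (algebraMap E B) hab
    rw [map_natCast, map_natCast] at h1
    exact Nat.cast_injective h1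
  have hyalg : ∀ i, IsAlgebraic E (y i) := by
    intro i
    have h1 := halg (y i) ⟨i, rfl⟩
    let g : E →+* Algebra.adjoin A s :=
      (φ.toRingHom).codRestrict (Algebra.adjoin A s) (fun x => by
        have : φ x ∈ φ.range := ⟨x, rfl⟩
        rw [← Algebra.adjoin_range_eq_range_aeval, hrange] at this
        exact this)
    refine h1.of_ringHom_of_comp_eq g (RingHom.id B) ?_ Function.injective_id rfl
    rintro ⟨x, hx⟩
    rw [← hrange, Algebra.adjoin_range_eq_range_aeval] at hx
    obtain ⟨z, hz⟩ := hx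
    exact ⟨z, Subtype.ext hz⟩
  obtain ⟨θ, hint, Q, hQ, P, hP⟩ := primitive_aux (E := E) y hyalg
  have hdvd : ∀ F : E[X], F.eval₂ φ.toRingHom θ = 0 ↔ minpoly E θ ∣ F := fun F =>
    minpoly.isIntegrallyClosed_dvd_iff hint F
  refine ⟨m, t, θ, minpoly E θ, Q, P, minpoly.monic hint, hdvd, ?_, ?_, hP⟩
  · intro h0
    have h1 := (hdvd _).mp h0
    have hpos : 0 < (minpoly E θ).natDegree := minpoly.natDegree_pos hint
    refine (minpoly.monic hint).not_dvd_of_natDegree_lt ?_
      (Polynomial.natDegree_derivative_lt hpos.ne') h1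
    intro hd
    exact hpos.ne' (Polynomial.derivative_eq_zero.mp hd)
  · exact (map_ne_zero_iff φ hφ).mpr hQ

end Vale.Agent.P202.CZ
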