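import Vale.Agent.P202.CharZero.ApproxReg
import Vale.Agent.P202.CharZero.Coord
import Vale.Agent.P202.CharZero.PrimData

/-!
The approximation theorem.
-/

namespace Vale.Agent.P202.CZ

open MvPowerSeries

variable {K : Type*} [Field K]

lemma exists_notMem_pow {σ : Type*} [Finite σ] {f : MvPowerSeries σ K} (hf : f ≠ 0) :
    ∃ c, f ∉ mm σ K ^ c := by
  by_contra h
  push Not at h
  apply hf
  ext d
  exact (mem_mm_pow_iff.mp (h (d.degree + 1))) d (by omega)

instance psIsDomain {σ : Type*} : IsDomain (MvPowerSeries σ K) :=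
  NoZeroDivisors.to_isDomain _

theorem approx_succ [CharZero K] {n : ℕ} (h : Approx K n) : Approx K (n + 1) := by
  intro ι _ y c0
  have : CharZero (MvPowerSeries (Fin (n + 1)) K) := by
    exact algebraRat.charZero _
  have hinj : Function.Injective (algebraMap (MvPolynomial (Fin (n + 1)) K)
      (MvPowerSeries (Fin (n + 1)) K)) := MvPolynomial.coe_injective _ _
  obtain ⟨m, t, θ, f, Q, P, hfm, hker, hδ, hQ, hy⟩ := exists_primitive_data hinj y
  obtain ⟨c1, hc1⟩ := exists_notMem_pow hQ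
  set c := max c0 c1 with hc
  have hg : (ev t θ (Polynomial.derivative f)) ^ 2 * MvPolynomial.aeval t Q ≠ 0 :=
    mul_ne_zero (pow_ne_zero _ hδ) hQ
  obtain ⟨σ, σ₀, hσ, hσf, hσf', hσm, hσm', hreg⟩ := exists_coord_change _ hg
  set σr : MvPowerSeries (Fin (n + 1)) K →+* MvPowerSeries (Fin (n + 1)) K :=
    σ.toRingEquiv.toRingHom with hσr
  set σ₀r : MvPolynomial (Fin (n + 1)) K →+* MvPolynomial (Fin (n + 1)) K :=
    σ₀.toRingEquiv.toRingHom with hσ₀r
  have hcomp : ∀ a, σr
      (algebraMap (MvPolynomial (Fin (n + 1)) K) (MvPowerSeries (Fin (n + 1)) K) a) =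
      algebraMap (MvPolynomial (Fin (n + 1)) K) (MvPowerSeries (Fin (n + 1)) K)
        (σ₀r a) := fun a => hσ a
  have hev := ev_map (m := m) σr σ₀r hcomp
  have hae := aeval_map' (ι := Fin m) σr σ₀r hcomp
  have hf0 : ev t θ f = 0 := (hker f).mpr dvd_rfl
  obtain ⟨t', θ', y', ht'm, hθ'm, hy'm, ht'c, hθ'c, hy'c, hf', hy'⟩ :=
    approx_reg h (f.map (MvPolynomial.map σ₀r)) (MvPolynomial.map σ₀r Q)
      (fun i => (P i).map (MvPolynomial.map σ₀r)) (σr ∘ t) (σr θ) (fun i => σr (y i))
      (by rw [hev, hf0, map_zero])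
      (by
        intro i
        rw [hae, hev, ← map_mul, hy i]
        rfl)
      (by
        rw [Polynomial.derivative_map, hev, hae, ← map_pow, ← map_mul]
        exact hreg) c
  have hsymm : ∀ x, σr (σ.symm x) = x := fun x => σ.apply_symm_apply x
  have hinjσ : Function.Injective σr := σ.injective
  set t'' : Fin m → MvPowerSeries (Fin (n + 1)) K := fun j => σ.symm (t' j) with ht''
  have hcompt : σr ∘ t'' = t' := by
    funext j
    exact hsymm _
  have hmem : ∀ {k : ℕ} {a b : MvPowerSeries (Fin (n + 1)) K},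
      a - σr b ∈ mm (Fin (n + 1)) K ^ k → σ.symm a - b ∈ mm (Fin (n + 1)) K ^ k := by
    intro k a b hab
    have h1 := hσm' k _ hab
    rw [map_sub] at h1
    have h2 : σ.symm (σr b) = b := σ.symm_apply_apply b
    rwa [h2] at h1
  have hcc0 : mm (Fin (n + 1)) K ^ c ≤ mm (Fin (n + 1)) K ^ c0 :=
    Ideal.pow_le_pow_right (le_max_left _ _)
  have hcc1 : mm (Fin (n + 1)) K ^ c ≤ mm (Fin (n + 1)) K ^ c1 :=
    Ideal.pow_le_pow_right (le_max_right _ _)
  refine ⟨fun i => σ.symm (y' i), fun i => hσf' _ (hy'm i), fun i => hcc0 (hmem (hy'c i)), ?_⟩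
  intro F hF
  have hev'' : ∀ G, ev t'' (σ.symm θ') G = 0 ↔ ev t' θ' (G.map (MvPolynomial.map σ₀r)) = 0 := by
    intro G
    have h1 := hev t'' (σ.symm θ') G
    rw [hcompt, hsymm] at h1
    rw [h1]
    exact (map_eq_zero_iff σr hinjσ).symm
  refine relations_transfer t θ f Q P y (fun G hG => (hker G).mp hG) hy t'' (σ.symm θ')
    (fun i => σ.symm (y' i)) ((hev'' f).mpr hf') ?_ ?_ F hF
  · intro h0
    apply hc1
    have hclose : MvPolynomial.aeval t'' Q - MvPolynomial.aeval t Q ∈
        mm (Fin (n + 1)) K ^ c := by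
      rw [← Ideal.Quotient.eq, MvPolynomial.aeval_def, MvPolynomial.aeval_def,
        MvPolynomial.hom_eval₂, MvPolynomial.hom_eval₂]
      congr 1
      funext j
      exact Ideal.Quotient.eq.mpr (hmem (ht'c j))
    rw [h0, zero_sub] at hclose
    exact hcc1 ((Ideal.neg_mem_iff _).mp hclose)
  · intro i
    apply hinjσ
    rw [map_mul, hsymm, ← hae, ← hev, hcompt, hsymm]
    exact hy' i

theorem approx [CharZero K] (n : ℕ) : Approx K n := by
  induction n with
  | zero => exact approx_zero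
  | succ n ih => exact approx_succ ih

end Vale.Agent.P202.CZ
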