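import Mathlib

/-!
Taylor expansion with coefficients in a subring.
-/

namespace Vale.Agent.P202.CZ

open Polynomial

lemma eval_mem_subring {B : Type*} [CommRing B] (F0 : Subring B) (p : B[X])
    (hp : ∀ l, p.coeff l ∈ F0) {θ : B} (hθ : θ ∈ F0) : p.eval θ ∈ F0 := by
  rw [Polynomial.eval_eq_sum_range]
  exact Subring.sum_mem _ fun i _ => Subring.mul_mem _ (hp i) (Subring.pow_mem _ hθ _)

lemma taylor_coeff_mem {B : Type*} [CommRing B] (F0 : Subring B) (p : B[X])
    (hp : ∀ l, p.coeff l ∈ F0) {θ : B} (hθ : θ ∈ F0) (k : ℕ) :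
    (Polynomial.taylor θ p).coeff k ∈ F0 := by
  rw [Polynomial.taylor_coeff]
  refine eval_mem_subring F0 _ (fun l => ?_) hθ
  rw [Polynomial.hasseDeriv_coeff]
  exact Subring.mul_mem _ (natCast_mem _ _) (hp _)

theorem eval_add_expand {B : Type*} [CommRing B] (p : B[X]) (θ h : B) :
    p.eval (θ + h) = p.eval θ + p.derivative.eval θ * h +
      h ^ 2 * ∑ k ∈ Finset.range (p.natDegree + 1), (Polynomial.taylor θ p).coeff (k + 2) * h ^ k := by
  have h1 : p.eval (θ + h) = (Polynomial.taylor θ p).eval h := by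
    rw [Polynomial.taylor_eval, add_comm]
  rw [h1, Polynomial.eval_eq_sum_range' (n := p.natDegree + 3)
    (by rw [Polynomial.natDegree_taylor]; omega), Finset.sum_range_succ', Finset.sum_range_succ',
    Polynomial.taylor_coeff_zero, Polynomial.taylor_coeff_one, Finset.mul_sum]
  have h2 : ∀ k ∈ Finset.range (p.natDegree + 1),
      (Polynomial.taylor θ p).coeff (k + 1 + 1) * h ^ (k + 1 + 1) =
      h ^ 2 * ((Polynomial.taylor θ p).coeff (k + 2) * h ^ k) := by
    intro k _
    ring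
  rw [Finset.sum_congr rfl h2]
  ring

theorem eval_add_diff {B : Type*} [CommRing B] (F0 : Subring B) (p : B[X])
    (hp : ∀ l, p.coeff l ∈ F0) {θ h : B} (hθ : θ ∈ F0) (hh : h ∈ F0) :
    ∃ κ ∈ F0, p.eval (θ + h) = p.eval θ + h * κ := by
  refine ⟨p.derivative.eval θ + h * ∑ k ∈ Finset.range (p.natDegree + 1),
    (Polynomial.taylor θ p).coeff (k + 2) * h ^ k, ?_, ?_⟩
  · refine Subring.add_mem _ ?_ (Subring.mul_mem _ hh (Subring.sum_mem _ fun i _ =>
      Subring.mul_mem _ (taylor_coeff_mem F0 p hp hθ _) (Subring.pow_mem _ hh _)))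
    rw [← Polynomial.taylor_coeff_one]
    exact taylor_coeff_mem F0 p hp hθ _
  · rw [eval_add_expand]
    ring

end Vale.Agent.P202.CZ
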