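import Vale.Agent.P202.CharZero.AADefs

/-!
The Weierstrass step of the approximation theorem: polynomial division with universal
coefficients.
-/

namespace Vale.Agent.P202.CZ

variable {K : Type*} [Field K]

section generic

open Polynomial

variable {R S : Type*} [CommRing R] [CommRing S] {r : ℕ}

/-- The polynomial of degree `< r` with the given coefficients. -/
noncomputable def wsZ (y : Fin r → R) : R[X] := ∑ l : Fin r, C (y l) * X ^ (l : ℕ)

/-- The monic polynomial of degree `r` with the given lower coefficients. -/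
noncomputable def wsA (y : Fin r → R) : R[X] := X ^ r + wsZ y

theorem wsZ_map (f : R →+* S) (y : Fin r → R) : (wsZ y).map f = wsZ (fun l => f (y l)) := by
  simp [wsZ, Polynomial.map_sum]

theorem wsA_map (f : R →+* S) (y : Fin r → R) : (wsA y).map f = wsA (fun l => f (y l)) := by
  simp [wsA, wsZ_map]

theorem wsZ_degree (y : Fin r → R) : (wsZ y).degree < r := degree_sum_fin_lt y

theorem wsA_monic (y : Fin r → R) : (wsA y).Monic := monic_X_pow_add (wsZ_degree y)

theorem wsA_natDegree [Nontrivial R] (y : Fin r → R) : (wsA y).natDegree = r :=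
  natDegree_eq_of_degree_eq_some (by
    unfold wsA
    rw [degree_add_eq_left_of_degree_lt (by rw [degree_X_pow]; exact wsZ_degree y),
      degree_X_pow])

theorem wsZ_coeff (y : Fin r → R) (l : ℕ) :
    (wsZ y).coeff l = if h : l < r then y ⟨l, h⟩ else 0 := by
  classical
  unfold wsZ
  rw [finsetSum_coeff]
  simp only [coeff_C_mul_X_pow]
  split_ifs with h
  · rw [Finset.sum_eq_single (⟨l, h⟩ : Fin r)]
    · simp
    · intro b _ hb
      rw [if_neg]
      intro h'
      exact hb (Fin.ext h'.symm)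
    · intro h'
      exact absurd (Finset.mem_univ _) h'
  · refine Finset.sum_eq_zero fun b _ => ?_
    rw [if_neg]
    intro h'
    exact h (by rw [h']; exact b.2)

theorem wsZ_of_degree {p : R[X]} (h : p.degree < r) : wsZ (fun l : Fin r => p.coeff l) = p := by
  ext l
  rw [wsZ_coeff]
  split_ifs with hl
  · rfl
  · exact (coeff_eq_zero_of_degree_lt (h.trans_le (by exact_mod_cast not_lt.1 hl))).symm

theorem wsA_of_monic {p : R[X]} (hp : p.Monic) (h : p.natDegree = r) :
    wsA (fun l : Fin r => p.coeff l) = p := by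
  unfold wsA
  conv_rhs => rw [hp.as_sum, h]
  congr 1
  unfold wsZ
  exact Fin.sum_univ_eq_sum_range (fun l => C (p.coeff l) * X ^ l) r

end generic

section step

variable {n : ℕ} {ι : Type}

/-- polynomials in `n + 1` variables as polynomials over the universal ring. -/
noncomputable def wsU (K : Type*) [Field K] (n : ℕ) (ι : Type) :
    MvPolynomial (Fin (n + 1)) K →+* Polynomial (MvPolynomial ι (MvPolynomial (Fin n) K)) :=
  (Polynomial.mapRingHom (MvPolynomial.C (σ := ι) (R := MvPolynomial (Fin n) K))).comp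
    (MvPolynomial.finSuccEquiv K n).toRingHom

theorem wsU_map (y : ι → MvPowerSeries (Fin n) K) :
    (Polynomial.mapRingHom (MvPolynomial.aeval (R := MvPolynomial (Fin n) K) y).toRingHom).comp
      (wsU K n ι) = polyEval K n := by
  unfold wsU polyEval
  rw [← RingHom.comp_assoc, Polynomial.mapRingHom_comp]
  congr 2
  refine RingHom.ext fun p => ?_
  change MvPolynomial.aeval (R := MvPolynomial (Fin n) K) y (MvPolynomial.C p) = _
  rw [MvPolynomial.aeval_C]

/-- evaluation of the universal polynomial at a point -/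
theorem wsU_eval {I : Type} (y : ι → MvPowerSeries (Fin n) K)
    (ZZ : I → Polynomial (MvPolynomial ι (MvPolynomial (Fin n) K)))
    (φ : MvPolynomial I (MvPolynomial (Fin (n + 1)) K)) :
    (MvPolynomial.eval₂ (wsU K n ι) ZZ φ).map
        (MvPolynomial.aeval (R := MvPolynomial (Fin n) K) y).toRingHom =
      MvPolynomial.eval₂ (polyEval K n)
        (fun i => (ZZ i).map (MvPolynomial.aeval (R := MvPolynomial (Fin n) K) y).toRingHom) φ := by
  have h := MvPolynomial.eval₂_comp_left (Polynomial.mapRingHom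
    (MvPolynomial.aeval (R := MvPolynomial (Fin n) K) y).toRingHom) (wsU K n ι) ZZ φ
  rw [wsU_map] at h
  exact h

/-- The universal monic polynomial. -/
noncomputable def wsAA (K : Type*) [Field K] (n r : ℕ) (I : Type) :
    Polynomial (MvPolynomial (Fin r ⊕ I × Fin r) (MvPolynomial (Fin n) K)) :=
  wsA fun l => MvPolynomial.X (Sum.inl l)

/-- The universal polynomials of small degree. -/
noncomputable def wsZZ (K : Type*) [Field K] (n r : ℕ) {I : Type} (i : I) :
    Polynomial (MvPolynomial (Fin r ⊕ I × Fin r) (MvPolynomial (Fin n) K)) :=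
  wsZ fun l => MvPolynomial.X (Sum.inr (i, l))

theorem wsAA_map {r : ℕ} {I : Type} (y : Fin r ⊕ I × Fin r → MvPowerSeries (Fin n) K) :
    (wsAA K n r I).map (MvPolynomial.aeval (R := MvPolynomial (Fin n) K) y).toRingHom =
      wsA fun l => y (Sum.inl l) := by
  unfold wsAA
  rw [wsA_map]
  congr 1
  funext l
  exact MvPolynomial.aeval_X y (Sum.inl l)

theorem wsZZ_map {r : ℕ} {I : Type} (y : Fin r ⊕ I × Fin r → MvPowerSeries (Fin n) K) (i : I) :
    (wsZZ K n r i).map (MvPolynomial.aeval (R := MvPolynomial (Fin n) K) y).toRingHom =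
      wsZ fun l => y (Sum.inr (i, l)) := by
  unfold wsZZ
  rw [wsZ_map]
  congr 1
  funext l
  exact MvPolynomial.aeval_X y (Sum.inr (i, l))

theorem wsAA_monic (n r : ℕ) (I : Type) : (wsAA K n r I).Monic := wsA_monic _

theorem ws_key {r : ℕ} {I : Type} (y : Fin r ⊕ I × Fin r → MvPowerSeries (Fin n) K)
    (φ : MvPolynomial I (MvPolynomial (Fin (n + 1)) K)) :
    (wsA fun l => y (Sum.inl l)) ∣
        MvPolynomial.eval₂ (polyEval K n) (fun i => wsZ fun l => y (Sum.inr (i, l))) φ ↔
      ∀ k, MvPolynomial.aeval y ((MvPolynomial.eval₂ (wsU K n _) (wsZZ K n r) φ %ₘ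
        wsAA K n r I).coeff k) = 0 := by
  rw [← Polynomial.modByMonic_eq_zero_iff_dvd (wsA_monic _), ← wsAA_map y]
  have h1 : (fun i => wsZ fun l => y (Sum.inr (i, l))) =
      fun i => (wsZZ K n r i).map
        (MvPolynomial.aeval (R := MvPolynomial (Fin n) K) y).toRingHom :=
    funext fun i => (wsZZ_map y i).symm
  rw [h1, ← wsU_eval, ← Polynomial.map_modByMonic _ (wsAA_monic n r I),
    Polynomial.ext_iff]
  simp only [Polynomial.coeff_map, Polynomial.coeff_zero]
  rfl

end step

/-- L3: the Weierstrass step. -/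
theorem weierstrass_step {n : ℕ} (h : Approx K n) {I : Type} [Finite I] (r : ℕ)
    (abar : Polynomial (MvPowerSeries (Fin n) K)) (ha : abar.Monic) (har : abar.natDegree = r)
    (zbar : I → Polynomial (MvPowerSeries (Fin n) K)) (hz : ∀ i, (zbar i).degree < r)
    (Φ : Set (MvPolynomial I (MvPolynomial (Fin (n + 1)) K)))
    (hΦ : ∀ φ ∈ Φ, abar ∣ MvPolynomial.eval₂ (polyEval K n) zbar φ) (c : ℕ) :
    ∃ (a : Polynomial (MvPowerSeries (Fin n) K)) (z : I → Polynomial (MvPowerSeries (Fin n) K)),
      a.Monic ∧ a.natDegree = r ∧ (∀ l, a.coeff l ∈ fgc (Fin n) K) ∧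
      (∀ l, a.coeff l - abar.coeff l ∈ mm (Fin n) K ^ c) ∧
      (∀ i, (z i).degree < r) ∧ (∀ i l, (z i).coeff l ∈ fgc (Fin n) K) ∧
      (∀ i l, (z i).coeff l - (zbar i).coeff l ∈ mm (Fin n) K ^ c) ∧
      ∀ φ ∈ Φ, a ∣ MvPolynomial.eval₂ (polyEval K n) z φ := by
  obtain ⟨ybar, hl, hr⟩ : ∃ ybar : Fin r ⊕ I × Fin r → MvPowerSeries (Fin n) K,
      (∀ l : Fin r, ybar (Sum.inl l) = abar.coeff (l : ℕ)) ∧
      ∀ (i : I) (l : Fin r), ybar (Sum.inr (i, l)) = (zbar i).coeff (l : ℕ) :=
    ⟨Sum.elim (fun l => abar.coeff (l : ℕ)) (fun p => (zbar p.1).coeff (p.2 : ℕ)),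
      fun _ => rfl, fun _ _ => rfl⟩
  have e1 : (wsA fun l : Fin r => ybar (Sum.inl l)) = abar := by
    simp only [hl]
    exact wsA_of_monic ha har
  have e2 : ∀ i, (wsZ fun l : Fin r => ybar (Sum.inr (i, l))) = zbar i := by
    intro i
    simp only [hr]
    exact wsZ_of_degree (hz i)
  obtain ⟨y, hy1, hy2, hy3⟩ := h (Fin r ⊕ I × Fin r) ybar c
  refine ⟨wsA fun l => y (Sum.inl l), fun i => wsZ fun l => y (Sum.inr (i, l)), wsA_monic _,
    wsA_natDegree _, ?_, ?_, fun i => wsZ_degree _, ?_, ?_, ?_⟩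
  · intro l
    unfold wsA
    rw [Polynomial.coeff_add, Polynomial.coeff_X_pow, wsZ_coeff]
    refine Subring.add_mem _ ?_ ?_
    · split_ifs
      · exact Subring.one_mem _
      · exact Subring.zero_mem _
    · split_ifs
      · exact hy1 _
      · exact Subring.zero_mem _
  · intro l
    rw [← e1]
    unfold wsA
    rw [Polynomial.coeff_add, Polynomial.coeff_add, add_sub_add_left_eq_sub, wsZ_coeff, wsZ_coeff]
    split_ifs
    · exact hy2 _
    · rw [sub_zero]
      exact Ideal.zero_mem _
  · intro i l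
    rw [wsZ_coeff]
    split_ifs
    · exact hy1 _
    · exact Subring.zero_mem _
  · intro i l
    rw [← e2 i, wsZ_coeff, wsZ_coeff]
    split_ifs
    · exact hy2 _
    · rw [sub_zero]
      exact Ideal.zero_mem _
  · intro φ hφ
    refine (ws_key y φ).2 fun k => hy3 _ ?_
    refine (ws_key ybar φ).1 ?_ k
    rw [e1, funext e2]
    exact hΦ φ hφ

end Vale.Agent.P202.CZ
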