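import Vale.Agent.P202.CharZero.WData
import Vale.Agent.P202.CharZero.WStep
import Vale.Agent.P202.CharZero.TaylorSub
import Vale.Agent.P202.CharZero.ApproxFin

/-!
The induction step of the approximation theorem in the regular case.
-/

namespace Vale.Agent.P202.CZ

open MvPowerSeries

variable {K : Type*} [Field K] {n : ℕ}

lemma constantCoeff_toPS (p : Polynomial (MvPowerSeries (Fin n) K)) :
    constantCoeff (toPS K n p) = constantCoeff (p.coeff 0) := by
  have h := MvPowerSeries.coeff_coeff_finSuccEquiv (R := K) (n := n) (toPS K n p) (k := 0) (x := 0)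
  rw [toPS_apply, Polynomial.coeff_coe] at h
  rw [← coeff_zero_eq_constantCoeff_apply, ← coeff_zero_eq_constantCoeff_apply, h]
  congr 2
  ext i
  refine Fin.cases ?_ (fun j => ?_) i <;> simp

lemma aeval_mem_fgc {I τ : Type*} (t : I → MvPowerSeries τ K)
    (ht : ∀ i, t i ∈ fgc τ K) (q : MvPolynomial I (MvPolynomial τ K)) :
    MvPolynomial.aeval t q ∈ fgc τ K := by
  rw [MvPolynomial.aeval_def]
  refine MvPolynomial.eval₂_mem (fun i _ => ?_) ht
  exact coe_mem_fgc _

lemma toPS_eval₂ {I : Type*} (w : I → Polynomial (MvPowerSeries (Fin n) K))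
    (φ : MvPolynomial I (MvPolynomial (Fin (n + 1)) K)) :
    toPS K n (MvPolynomial.eval₂ (polyEval K n) w φ) =
      MvPolynomial.aeval (fun i => toPS K n (w i)) φ := by
  rw [MvPolynomial.hom_eval₂, MvPolynomial.aeval_def]
  congr 1
  exact RingHom.ext fun a => toPS_polyEval a

lemma coeff_polyEval_mem (p : MvPolynomial (Fin (n + 1)) K) (k : ℕ) :
    (polyEval K n p).coeff k ∈ fgc (Fin n) K := by
  have : (polyEval K n p).coeff k =
      (((MvPolynomial.finSuccEquiv K n p).coeff k : MvPolynomial (Fin n) K) :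
        MvPowerSeries (Fin n) K) := by
    simp [polyEval]
    rfl
  rw [this]
  exact coe_mem_fgc _

lemma coeff_eval₂_mem {I : Type*} (w : I → Polynomial (MvPowerSeries (Fin n) K))
    (hw : ∀ i l, (w i).coeff l ∈ fgc (Fin n) K)
    (φ : MvPolynomial I (MvPolynomial (Fin (n + 1)) K)) (l : ℕ) :
    (MvPolynomial.eval₂ (polyEval K n) w φ).coeff l ∈ fgc (Fin n) K := by
  have h1 : MvPolynomial.eval₂ (polyEval K n) w φ ∈
      Polynomial.lifts (fgc (Fin n) K).subtype := by
    refine MvPolynomial.eval₂_mem (fun i _ => ?_) (fun i => ?_)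
    · rw [Polynomial.lifts_iff_coeff_lifts]
      intro k
      exact ⟨⟨_, coeff_polyEval_mem _ k⟩, rfl⟩
    · rw [Polynomial.lifts_iff_coeff_lifts]
      intro k
      exact ⟨⟨_, hw i k⟩, rfl⟩
  rw [Polynomial.lifts_iff_coeff_lifts] at h1
  obtain ⟨⟨x, hx⟩, hx'⟩ := h1 l
  rw [← hx']
  exact hx

lemma aeval_sub_dvd {A B : Type*} [CommRing A] [CommRing B] [Algebra A B] {I : Type*}
    (z z' : I → B) (a : B) (h : ∀ i, a ∣ z i - z' i) (φ : MvPolynomial I A) :
    a ∣ MvPolynomial.aeval z φ - MvPolynomial.aeval z' φ := by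
  rw [← Ideal.mem_span_singleton, ← Ideal.Quotient.eq]
  have h1 : ∀ i, Ideal.Quotient.mk (Ideal.span {a}) (z i) =
      Ideal.Quotient.mk (Ideal.span {a}) (z' i) := by
    intro i
    rw [Ideal.Quotient.eq, Ideal.mem_span_singleton]
    exact h i
  rw [MvPolynomial.aeval_def, MvPolynomial.aeval_def, MvPolynomial.hom_eval₂,
    MvPolynomial.hom_eval₂]
  congr 1
  funext i
  exact h1 i

/-- the polynomial in `t`, `θ` as a polynomial in all the unknowns. -/
noncomputable def Th {A : Type*} [CommRing A] (m : ℕ) (ι : Type*) :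
    Polynomial (MvPolynomial (Fin m) A) →+* MvPolynomial (Fin m ⊕ Option ι) A :=
  Polynomial.eval₂RingHom (MvPolynomial.rename Sum.inl).toRingHom
    (MvPolynomial.X (Sum.inr none))

lemma aeval_Th {A B : Type*} [CommRing A] [CommRing B] [Algebra A B] {m : ℕ} {ι : Type*}
    (z : Fin m ⊕ Option ι → B) (F : Polynomial (MvPolynomial (Fin m) A)) :
    MvPolynomial.aeval z (Th m ι F) = ev (z ∘ Sum.inl) (z (Sum.inr none)) F := by
  rw [ev_apply, Th, Polynomial.coe_eval₂RingHom]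
  have := Polynomial.hom_eval₂ F (MvPolynomial.rename (R := A) (Sum.inl : Fin m → Fin m ⊕ Option ι)).toRingHom
    (MvPolynomial.aeval (R := A) z).toRingHom (MvPolynomial.X (Sum.inr none))
  simp only [AlgHom.toRingHom_eq_coe, RingHom.coe_coe, MvPolynomial.aeval_X] at this ⊢
  rw [this]
  congr 1
  ext a
  · simp
  · simp

lemma mod_vars_eq {I : Type*} (w w' : I → Polynomial (MvPowerSeries (Fin n) K))
    (h : ∀ i, (w i).map (MvPowerSeries.constantCoeff (σ := Fin n) (R := K)) =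
      (w' i).map (MvPowerSeries.constantCoeff (σ := Fin n) (R := K)))
    (φ : MvPolynomial I (MvPolynomial (Fin (n + 1)) K)) :
    (MvPolynomial.eval₂ (polyEval K n) w φ).map
      (MvPowerSeries.constantCoeff (σ := Fin n) (R := K)) =
    (MvPolynomial.eval₂ (polyEval K n) w' φ).map
      (MvPowerSeries.constantCoeff (σ := Fin n) (R := K)) := by
  rw [← Polynomial.coe_mapRingHom, MvPolynomial.hom_eval₂, MvPolynomial.hom_eval₂]
  congr 1
  funext i
  exact h i

/-- constant coefficients of the two units agree. -/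
lemma unit_compare {a a' q q' F F' : Polynomial (MvPowerSeries (Fin n) K)}
    (ha : a.map (MvPowerSeries.constantCoeff (σ := Fin n) (R := K)) =
      Polynomial.X ^ a.natDegree)
    (ha' : a'.map (MvPowerSeries.constantCoeff (σ := Fin n) (R := K)) =
      Polynomial.X ^ a.natDegree)
    (hF : F = a * q) (hF' : F' = a' * q')
    (h : F.map (MvPowerSeries.constantCoeff (σ := Fin n) (R := K)) =
      F'.map (MvPowerSeries.constantCoeff (σ := Fin n) (R := K))) :
    constantCoeff (toPS K n q) = constantCoeff (toPS K n q') := by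
  rw [hF, hF', Polynomial.map_mul, Polynomial.map_mul, ha, ha'] at h
  have h1 := mul_left_cancel₀ (pow_ne_zero _ Polynomial.X_ne_zero) h
  have h2 := congrArg (fun p => Polynomial.coeff p 0) h1
  simp only [Polynomial.coeff_map] at h2
  rw [constantCoeff_toPS, constantCoeff_toPS]
  exact h2

theorem approx_reg (h : Approx K n) {m : ℕ} {ι : Type} [Finite ι]
    (f : Polynomial (MvPolynomial (Fin m) (MvPolynomial (Fin (n + 1)) K)))
    (Q : MvPolynomial (Fin m) (MvPolynomial (Fin (n + 1)) K))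
    (P : ι → Polynomial (MvPolynomial (Fin m) (MvPolynomial (Fin (n + 1)) K)))
    (t : Fin m → MvPowerSeries (Fin (n + 1)) K) (θ : MvPowerSeries (Fin (n + 1)) K)
    (y : ι → MvPowerSeries (Fin (n + 1)) K)
    (hf : ev t θ f = 0) (hy : ∀ i, MvPolynomial.aeval t Q * y i = ev t θ (P i))
    (hreg : RegX ((ev t θ (Polynomial.derivative f)) ^ 2 * MvPolynomial.aeval t Q)) (c : ℕ) :
    ∃ (t' : Fin m → MvPowerSeries (Fin (n + 1)) K) (θ' : MvPowerSeries (Fin (n + 1)) K)
      (y' : ι → MvPowerSeries (Fin (n + 1)) K),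
      (∀ j, t' j ∈ fgc (Fin (n + 1)) K) ∧ θ' ∈ fgc (Fin (n + 1)) K ∧
      (∀ i, y' i ∈ fgc (Fin (n + 1)) K) ∧
      (∀ j, t' j - t j ∈ mm (Fin (n + 1)) K ^ c) ∧ θ' - θ ∈ mm (Fin (n + 1)) K ^ c ∧
      (∀ i, y' i - y i ∈ mm (Fin (n + 1)) K ^ c) ∧
      ev t' θ' f = 0 ∧ ∀ i, MvPolynomial.aeval t' Q * y' i = ev t' θ' (P i) := by
  classical
  set X0 : MvPowerSeries (Fin (n + 1)) K := X 0 with hX0
  have hX0mm : X0 ^ (c + 1) ∈ mm (Fin (n + 1)) K ^ (c + 1) :=
    Ideal.pow_mem_pow (Ideal.subset_span (Set.mem_range_self 0)) _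
  set δ := ev t θ (Polynomial.derivative f) with hδ
  set Qb := MvPolynomial.aeval t Q with hQb
  set g := δ ^ 2 * Qb * X0 ^ (c + 1) with hgdef
  have hgreg : RegX g := by
    rw [RegX, hgdef, map_mul, map_mul, map_pow, map_pow, hX0, finSuccEquiv_X_zero,
      PowerSeries.map_X]
    exact mul_ne_zero hreg (pow_ne_zero _ PowerSeries.X_ne_zero)
  let z : Fin m ⊕ Option ι → MvPowerSeries (Fin (n + 1)) K :=
    Sum.elim t (fun o => o.elim θ y)
  obtain ⟨a, ε, w, v, ham, hamap, hε, hg, hw, hz⟩ := exists_weierstrass g hgreg z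
  -- the polynomials
  let φf := Th (A := MvPolynomial (Fin (n + 1)) K) m ι f
  let G1 := Th (A := MvPolynomial (Fin (n + 1)) K) m ι (Polynomial.derivative f) ^ 2 *
    Th m ι (Polynomial.C Q)
  let φG := G1 * MvPolynomial.C (MvPolynomial.X 0 ^ (c + 1))
  let φP : ι → MvPolynomial (Fin m ⊕ Option ι) (MvPolynomial (Fin (n + 1)) K) := fun i =>
    Th m ι (P i) - Th m ι (Polynomial.C Q) * MvPolynomial.X (Sum.inr (some i))
  have hφf : ∀ z' : Fin m ⊕ Option ι → MvPowerSeries (Fin (n + 1)) K,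
      MvPolynomial.aeval z' φf = ev (z' ∘ Sum.inl) (z' (Sum.inr none)) f :=
    fun z' => aeval_Th z' f
  have hG1 : ∀ z' : Fin m ⊕ Option ι → MvPowerSeries (Fin (n + 1)) K,
      MvPolynomial.aeval z' G1 =
        (ev (z' ∘ Sum.inl) (z' (Sum.inr none)) (Polynomial.derivative f)) ^ 2 *
          MvPolynomial.aeval (z' ∘ Sum.inl) Q := by
    intro z'
    simp only [G1, map_mul, map_pow, aeval_Th, ev_C]
  have hφG : ∀ z' : Fin m ⊕ Option ι → MvPowerSeries (Fin (n + 1)) K,
      MvPolynomial.aeval z' φG = MvPolynomial.aeval z' G1 * X0 ^ (c + 1) := by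
    intro z'
    simp only [φG, map_mul]
    congr 1
    rw [MvPolynomial.aeval_C]
    change ((MvPolynomial.X 0 ^ (c + 1) : MvPolynomial (Fin (n + 1)) K) :
      MvPowerSeries (Fin (n + 1)) K) = _
    rw [MvPolynomial.coe_pow, MvPolynomial.coe_X]
  have hφP : ∀ (z' : Fin m ⊕ Option ι → MvPowerSeries (Fin (n + 1)) K) (i : ι),
      MvPolynomial.aeval z' (φP i) = ev (z' ∘ Sum.inl) (z' (Sum.inr none)) (P i) -
        MvPolynomial.aeval (z' ∘ Sum.inl) Q * z' (Sum.inr (some i)) := by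
    intro z' i
    simp only [φP, map_sub, map_mul, aeval_Th, ev_C, MvPolynomial.aeval_X]
  have hzt : z ∘ Sum.inl = t := rfl
  have hzθ : z (Sum.inr none) = θ := rfl
  let Φ : Set (MvPolynomial (Fin m ⊕ Option ι) (MvPolynomial (Fin (n + 1)) K)) :=
    {φf, φG} ∪ Set.range φP
  have hzw : ∀ i, toPS K n a ∣ z i - toPS K n (w i) := by
    intro i
    rw [hz i, add_sub_cancel_left]
    exact Dvd.intro _ rfl
  have hzΦ : ∀ φ ∈ Φ, toPS K n a ∣ MvPolynomial.aeval z φ := by
    rintro φ ((rfl | rfl) | ⟨i, rfl⟩)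
    · rw [hφf, hzt, hzθ, hf]
      exact dvd_zero _
    · rw [hφG, hG1, hzt, hzθ, ← hδ, ← hQb, ← hgdef, hg]
      exact Dvd.intro _ rfl
    · rw [hφP, hzt, hzθ, ← hy i]
      have : z (Sum.inr (some i)) = y i := rfl
      rw [this, sub_self]
      exact dvd_zero _
  have hΦ : ∀ φ ∈ Φ, a ∣ MvPolynomial.eval₂ (polyEval K n) w φ := by
    intro φ hφ
    refine dvd_of_toPS_dvd ham hamap ?_
    rw [toPS_eval₂]
    have h1 := aeval_sub_dvd z (fun i => toPS K n (w i)) (toPS K n a) hzw φ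
    exact (dvd_sub_right (hzΦ φ hφ)).mp h1
  obtain ⟨a', w', ham', hadeg', hacoef', haclose, hwdeg', hwcoef', hwclose, hdvd'⟩ :=
    weierstrass_step h a.natDegree a ham rfl w hw Φ hΦ (c + 1)
  -- the approximate point
  set z' : Fin m ⊕ Option ι → MvPowerSeries (Fin (n + 1)) K := fun i => toPS K n (w' i) with hz'
  have hz'mem : ∀ i, z' i ∈ fgc (Fin (n + 1)) K := fun i => toPS_mem_fgc _ (hwcoef' i)
  have hquot : ∀ φ ∈ Φ, ∃ q : Polynomial (MvPowerSeries (Fin n) K),
      MvPolynomial.eval₂ (polyEval K n) w' φ = a' * q ∧ toPS K n q ∈ fgc (Fin (n + 1)) K := by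
    intro φ hφ
    obtain ⟨q, hq, hq'⟩ := exists_quotient_fgc ham' hacoef'
      (coeff_eval₂_mem w' hwcoef' φ) (hdvd' φ hφ)
    exact ⟨q, hq, toPS_mem_fgc q hq'⟩
  have hquot' : ∀ φ ∈ Φ, ∃ q ∈ fgc (Fin (n + 1)) K,
      MvPolynomial.aeval z' φ = toPS K n a' * q := by
    intro φ hφ
    obtain ⟨q, hq, hq'⟩ := hquot φ hφ
    refine ⟨_, hq', ?_⟩
    rw [hz', ← toPS_eval₂, hq, map_mul]
  have hle : mm (Fin n) K ^ (c + 1) ≤ mm (Fin n) K := Ideal.pow_le_self (by omega)
  have hwmap : ∀ i, (w i).map (MvPowerSeries.constantCoeff (σ := Fin n) (R := K)) =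
      (w' i).map (MvPowerSeries.constantCoeff (σ := Fin n) (R := K)) := by
    intro i
    ext l
    rw [Polynomial.coeff_map, Polynomial.coeff_map]
    have := mem_mm_iff.mp (hle (hwclose i l))
    rw [map_sub, sub_eq_zero] at this
    exact this.symm
  have hamap' : a'.map (MvPowerSeries.constantCoeff (σ := Fin n) (R := K)) =
      Polynomial.X ^ a.natDegree := by
    rw [← hamap]
    ext l
    rw [Polynomial.coeff_map, Polynomial.coeff_map]
    have := mem_mm_iff.mp (hle (haclose l))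
    rwa [map_sub, sub_eq_zero] at this
  have hφGmem : φG ∈ Φ := Or.inl (Or.inr rfl)
  have hφfmem : φf ∈ Φ := Or.inl (Or.inl rfl)
  have ha0 : toPS K n a ≠ 0 := by
    intro h0
    exact ham.ne_zero (toPS_injective (by rw [h0, map_zero]))
  -- the unit
  obtain ⟨q0, hq0, hu⟩ := hquot φG hφGmem
  obtain ⟨qb, hqb⟩ := hΦ φG hφGmem
  have hconst : constantCoeff (toPS K n q0) ≠ 0 := by
    rw [← unit_compare hamap hamap' hqb hq0 (mod_vars_eq w w' hwmap φG)]
    obtain ⟨κ, hκ⟩ := aeval_sub_dvd z (fun i => toPS K n (w i)) (toPS K n a) hzw G1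
    have h1 : toPS K n a * toPS K n qb = toPS K n a * (ε - κ * X0 ^ (c + 1)) := by
      rw [← map_mul, ← hqb, toPS_eval₂, hφG]
      have h2 : MvPolynomial.aeval (fun i => toPS K n (w i)) G1 =
          δ ^ 2 * Qb - toPS K n a * κ := by
        rw [← hκ, hG1 z, hzt, hzθ]
        ring
      rw [h2, sub_mul, ← hgdef, hg]
      ring
    rw [mul_left_cancel₀ ha0 h1, map_sub, map_mul, map_pow, hX0, constantCoeff_X, zero_pow
      (by omega), mul_zero, sub_zero]
    exact (isUnit_iff_constantCoeff.mp hε).ne_zero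
  obtain ⟨u', hu', huu'⟩ := fgc_inv hu hconst
  set t' : Fin m → MvPowerSeries (Fin (n + 1)) K := z' ∘ Sum.inl with ht'
  set θ0 := z' (Sum.inr none) with hθ0
  set δ' := ev t' θ0 (Polynomial.derivative f) with hδ'
  set Q' := MvPolynomial.aeval t' Q with hQ'
  have ha' : toPS K n a' = δ' ^ 2 * Q' * X0 ^ (c + 1) * u' := by
    have h1 : MvPolynomial.aeval z' φG = toPS K n a' * toPS K n q0 := by
      rw [hz', ← toPS_eval₂, hq0, map_mul]
    rw [hφG, hG1] at h1
    calc toPS K n a' = toPS K n a' * toPS K n q0 * u' := by rw [mul_assoc, huu', mul_one]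
      _ = _ := by rw [← h1]
  obtain ⟨qf, hqfm, hqf⟩ := hquot' φf hφfmem
  choose qP hqPm hqP using fun i => hquot' (φP i) (Or.inr ⟨i, rfl⟩)
  have ht'mem : ∀ j, t' j ∈ fgc (Fin (n + 1)) K := fun j => hz'mem _
  have hθ0mem : θ0 ∈ fgc (Fin (n + 1)) K := hz'mem _
  have hQ'mem : Q' ∈ fgc (Fin (n + 1)) K := aeval_mem_fgc _ ht'mem _
  have hcoefmem : ∀ (F : Polynomial (MvPolynomial (Fin m) (MvPolynomial (Fin (n + 1)) K)))
      (l : ℕ), (F.map (MvPolynomial.aeval (R := MvPolynomial (Fin (n + 1)) K) t').toRingHom).coeff l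
        ∈ fgc (Fin (n + 1)) K := by
    intro F l
    rw [Polynomial.coeff_map]
    exact aeval_mem_fgc _ ht'mem _
  have hevmap : ∀ (F : Polynomial (MvPolynomial (Fin m) (MvPolynomial (Fin (n + 1)) K)))
      (x : MvPowerSeries (Fin (n + 1)) K), ev t' x F =
      (F.map (MvPolynomial.aeval (R := MvPolynomial (Fin (n + 1)) K) t').toRingHom).eval x := by
    intro F x
    rw [ev_apply, Polynomial.eval_map]
  have hδ'mem : δ' ∈ fgc (Fin (n + 1)) K := by
    rw [hδ', hevmap]
    exact eval_mem_subring _ _ (hcoefmem _) hθ0mem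
  have hX0mem : X0 ∈ fgc (Fin (n + 1)) K := by
    have := coe_mem_fgc (K := K) (MvPolynomial.X (0 : Fin (n + 1)))
    rwa [MvPolynomial.coe_X] at this
  set β := Q' * X0 ^ (c + 1) * (u' * qf) with hβ
  have hβmem : β ∈ fgc (Fin (n + 1)) K :=
    Subring.mul_mem _ (Subring.mul_mem _ hQ'mem (Subring.pow_mem _ hX0mem _))
      (Subring.mul_mem _ hu' hqfm)
  have hβ0 : constantCoeff β = 0 := by
    rw [hβ, map_mul, map_mul, map_pow, hX0, constantCoeff_X, zero_pow (by omega), mul_zero,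
      zero_mul]
  set p := f.map (MvPolynomial.aeval (R := MvPolynomial (Fin (n + 1)) K) t').toRingHom with hp
  obtain ⟨u1, hu1, hroot⟩ := fgc_hensel (p.natDegree + 1) β hβmem hβ0
    (fun k => (Polynomial.taylor θ0 p).coeff (k + 2) * δ' ^ k)
    (fun k => Subring.mul_mem _ (taylor_coeff_mem _ _ (hcoefmem f) hθ0mem _)
      (Subring.pow_mem _ hδ'mem _))
  set η := δ' * (β * u1) with hη
  have hηmem : η ∈ fgc (Fin (n + 1)) K :=
    Subring.mul_mem _ hδ'mem (Subring.mul_mem _ hβmem hu1)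
  have hf0 : ev t' θ0 f = δ' ^ 2 * β := by
    have h1 := hφf z'
    rw [hqf, ha'] at h1
    rw [← h1, hβ]
    ring
  have hfroot : ev t' (θ0 + η) f = 0 := by
    rw [hevmap, ← hp, eval_add_expand]
    have e1 : p.eval θ0 = δ' ^ 2 * β := by rw [← hf0, hevmap]
    have e2 : p.derivative.eval θ0 = δ' := by
      rw [hδ', hevmap, hp, Polynomial.derivative_map]
    have e3 : ∑ k ∈ Finset.range (p.natDegree + 1),
        (Polynomial.taylor θ0 p).coeff (k + 2) * η ^ k =
        ∑ k ∈ Finset.range (p.natDegree + 1),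
        (Polynomial.taylor θ0 p).coeff (k + 2) * δ' ^ k * (β * u1) ^ k := by
      refine Finset.sum_congr rfl fun k _ => ?_
      rw [hη, mul_pow]
      ring
    rw [e1, e2, e3, hη]
    calc _ = δ' ^ 2 * (β + β * u1 + (β * u1) ^ 2 * ∑ k ∈ Finset.range (p.natDegree + 1),
        (Polynomial.taylor θ0 p).coeff (k + 2) * δ' ^ k * (β * u1) ^ k) := by ring
      _ = 0 := by rw [hroot, mul_zero]
  have hdiff : ∀ i, ∃ κ ∈ fgc (Fin (n + 1)) K, ev t' (θ0 + η) (P i) = ev t' θ0 (P i) + η * κ := by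
    intro i
    obtain ⟨κ, hκ, hκ'⟩ := eval_add_diff _ _ (hcoefmem (P i)) hθ0mem hηmem
    exact ⟨κ, hκ, by rw [hevmap, hevmap, hκ']⟩
  choose κ hκmem hκ using hdiff
  have hmmle : mm (Fin (n + 1)) K ^ (c + 1) ≤ mm (Fin (n + 1)) K ^ c :=
    Ideal.pow_le_pow_right (by omega)
  have hamm : toPS K n a ∈ mm (Fin (n + 1)) K ^ (c + 1) := by
    obtain ⟨ε', hε'⟩ := hε.exists_right_inv
    have : toPS K n a = g * ε' := by rw [hg, mul_assoc, hε', mul_one]
    rw [this, hgdef]
    exact Ideal.mul_mem_right _ _ (Ideal.mul_mem_left _ _ hX0mm)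
  have hclose : ∀ i, z' i - z i ∈ mm (Fin (n + 1)) K ^ (c + 1) := by
    intro i
    rw [hz i, hz']
    have : toPS K n (w' i) - (toPS K n (w i) + toPS K n a * v i) =
        toPS K n (w' i - w i) - toPS K n a * v i := by
      rw [map_sub]
      ring
    simp only [this]
    refine Ideal.sub_mem _ (toPS_mem_mm_pow _ _ fun l => ?_) (Ideal.mul_mem_right _ _ hamm)
    rw [Polynomial.coeff_sub]
    exact hwclose i l
  have hηmm : η ∈ mm (Fin (n + 1)) K ^ (c + 1) := by
    rw [hη, hβ]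
    have : δ' * (Q' * X0 ^ (c + 1) * (u' * qf) * u1) =
        δ' * Q' * (u' * qf) * u1 * X0 ^ (c + 1) := by ring
    rw [this]
    exact Ideal.mul_mem_left _ _ hX0mm
  refine ⟨t', θ0 + η, fun i => z' (Sum.inr (some i)) + X0 ^ (c + 1) *
    (δ' ^ 2 * u' * qP i + δ' * u' * qf * u1 * κ i), ht'mem, Subring.add_mem _ hθ0mem hηmem,
    fun i => ?_, fun j => ?_, ?_, fun i => ?_, hfroot, fun i => ?_⟩
  · refine Subring.add_mem _ (hz'mem _) (Subring.mul_mem _ (Subring.pow_mem _ hX0mem _)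
      (Subring.add_mem _ ?_ ?_))
    · exact Subring.mul_mem _ (Subring.mul_mem _ (Subring.pow_mem _ hδ'mem _) hu') (hqPm i)
    · exact Subring.mul_mem _ (Subring.mul_mem _ (Subring.mul_mem _ (Subring.mul_mem _ hδ'mem hu')
        hqfm) hu1) (hκmem i)
  · exact hmmle (hclose (Sum.inl j))
  · have := Ideal.add_mem _ (hclose (Sum.inr none)) hηmm
    rw [hzθ, ← hθ0] at this
    have e : θ0 + η - θ = θ0 - θ + η := by ring
    rw [e]
    exact hmmle this
  · have h1 := hclose (Sum.inr (some i))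
    have h2 : z (Sum.inr (some i)) = y i := rfl
    rw [h2] at h1
    have h3 := Ideal.add_mem _ h1 (Ideal.mul_mem_right
      (δ' ^ 2 * u' * qP i + δ' * u' * qf * u1 * κ i) _ hX0mm)
    have e : z' (Sum.inr (some i)) + X0 ^ (c + 1) *
        (δ' ^ 2 * u' * qP i + δ' * u' * qf * u1 * κ i) - y i =
        z' (Sum.inr (some i)) - y i + X0 ^ (c + 1) *
        (δ' ^ 2 * u' * qP i + δ' * u' * qf * u1 * κ i) := by ring
    rw [e]
    exact hmmle h3
  · have h1 := hφP z' i
    rw [hqP, ha'] at h1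
    have h2 : ev t' θ0 (P i) = Q' * z' (Sum.inr (some i)) +
        δ' ^ 2 * Q' * X0 ^ (c + 1) * u' * qP i := by
      rw [h1]
      ring
    rw [hκ i, h2, hη, hβ]
    ring

end Vale.Agent.P202.CZ
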