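import Vale.Agent.P202.CharZero.AADefs
import Vale.Agent.P202.Assembly

/-!
Definitions for the reduction of the equal characteristic zero case to prime characteristic.
-/

namespace Vale.Agent.P202.CZ

open IsLocalRing Filter Topology

universe u

/-- Lech's inequality for flat local maps of rings of prime characteristic, of the same dimension,
with finite residue field of the base. -/
def CharPLech : Prop :=
  ∀ (p : ℕ) (_ : p.Prime) (R S : Type u) [CommRing R] [IsLocalRing R] [IsNoetherianRing R]
    [CommRing S] [IsLocalRing S] [IsNoetherianRing S] [Algebra R S]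
    [IsLocalHom (algebraMap R S)] [Module.Flat R S] [CharP R p] [Finite (ResidueField R)]
    (d : ℕ), 0 < d → ringKrullDim R = d → ringKrullDim S = d → ∀ eR eS : ℕ,
    Tendsto (hsSeq R d) atTop (𝓝 (eR : ℝ)) → Tendsto (hsSeq S d) atTop (𝓝 (eS : ℝ)) → eR ≤ eS

/-- number of monomials of degree less than `N` in `d` variables. -/
noncomputable abbrev tc (d N : ℕ) : ℕ := (tri (Fin d) N).card

end Vale.Agent.P202.CZ
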