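import Vale.Agent.P202.CharZero.CZDefs

/-!
Growth of finite modules over a power series ring over a field.
-/

namespace Vale.Agent.P202.CZ

open MvPowerSeries IsLocalRing

section Order

variable {σ : Type*} {k : Type*} [Field k]

/-- a power series without coefficients of degree `≤ N` is a combination of the variables with
coefficients without terms of degree `< N`. -/
lemma gps_mem_mm_pow_of_coeff [Finite σ] (N : ℕ) (f : MvPowerSeries σ k)
    (hf : ∀ u : σ →₀ ℕ, u.degree < N → coeff u f = 0) : f ∈ mm σ k ^ N := by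
  classical
  have := Fintype.ofFinite σ
  induction N generalizing f with
  | zero => simp
  | succ N ih =>
    have hex : ∀ a : σ →₀ ℕ, ∃ o : Option σ, (o = none → a = 0) ∧ ∀ i, o = some i → a i ≠ 0 := by
      intro a
      by_cases ha : a = 0
      · exact ⟨none, fun _ => ha, fun i h => by simp at h⟩
      · obtain ⟨i, hi⟩ := Finsupp.ne_iff.mp ha
        exact ⟨some i, fun h => by simp at h, fun j hj => by
          rw [Option.some.injEq] at hj; subst hj; simpa using hi⟩
    choose o ho1 ho2 using hex
    let g : σ → MvPowerSeries σ k := fun i b =>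
      if o (b + Finsupp.single i 1) = some i then coeff (b + Finsupp.single i 1) f else 0
    have hg : ∀ i b, coeff b (g i) =
        if o (b + Finsupp.single i 1) = some i then coeff (b + Finsupp.single i 1) f else 0 :=
      fun i b => rfl
    have hfe : f = ∑ i, X i * g i := by
      ext a
      rw [map_sum]
      have h1 : ∀ i, coeff a (X i * g i) = if o a = some i then coeff a f else 0 := by
        intro i
        rw [X, coeff_monomial_mul, one_mul, hg]
        by_cases hi : Finsupp.single i 1 ≤ a
        · rw [if_pos hi, tsub_add_cancel_of_le hi]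
        · rw [if_neg hi, if_neg]
          intro h
          apply hi
          rw [Finsupp.single_le_iff]
          exact Nat.one_le_iff_ne_zero.mpr (ho2 a i h)
      simp only [h1]
      rcases h : o a with _ | j
      · have ha := ho1 a h
        subst ha
        simp only [reduceCtorEq, if_false, Finset.sum_const_zero]
        exact hf 0 (by simp)
      · rw [Finset.sum_eq_single j]
        · rw [if_pos rfl]
        · intro i _ hi
          rw [if_neg]
          intro h'
          exact hi (Option.some.inj h').symm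
        · intro h'
          exact absurd (Finset.mem_univ _) h'
    rw [hfe, pow_succ']
    refine Ideal.sum_mem _ fun i _ => Ideal.mul_mem_mul (Ideal.subset_span ⟨i, rfl⟩) ?_
    refine ih (g i) fun u hu => ?_
    rw [hg]
    split_ifs
    · refine hf _ ?_
      rw [map_add, Finsupp.degree_single]
      omega
    · rfl

/-- the power series of order at least `N` -/
noncomputable def gpsI (σ : Type*) (k : Type*) [Field k] (N : ℕ) : Ideal (MvPowerSeries σ k) where
  carrier := {f | (N : ℕ∞) ≤ f.order}
  add_mem' := by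
    intro f g hf hg
    exact le_trans (le_min hf hg) min_order_le_add
  zero_mem' := by simp
  smul_mem' := by
    intro c f hf
    exact le_trans (le_trans hf le_add_self) (le_order_mul (f := c) (g := f))

lemma gps_mem_I {N : ℕ} {f : MvPowerSeries σ k} : f ∈ gpsI σ k N ↔ (N : ℕ∞) ≤ f.order := Iff.rfl

lemma gps_mm_pow_le (N : ℕ) : mm σ k ^ N ≤ gpsI σ k N := by
  induction N with
  | zero =>
    intro f _
    rw [gps_mem_I]
    simp
  | succ N ih =>
    rw [pow_succ, Ideal.mul_le]
    intro f hf g hg
    have h1 : (1 : ℕ∞) ≤ g.order := by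
      rw [one_le_order_iff_constCoeff_eq_zero]
      have h : mm σ k ≤ RingHom.ker (constantCoeff (σ := σ) (R := k)) := by
        rw [mm, Ideal.span_le]
        rintro _ ⟨i, rfl⟩
        simp [RingHom.mem_ker]
      exact h hg
    have h2 : (N : ℕ∞) ≤ f.order := ih hf
    rw [gps_mem_I, Nat.cast_add, Nat.cast_one]
    exact (add_le_add h2 h1).trans le_order_mul

lemma gps_mem_mm_pow [Finite σ] {N : ℕ} {f : MvPowerSeries σ k} :
    f ∈ mm σ k ^ N ↔ (N : ℕ∞) ≤ f.order := by
  constructor
  · intro h
    exact gps_mm_pow_le N h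
  · intro h
    refine gps_mem_mm_pow_of_coeff N f fun u hu => coeff_of_lt_order (lt_of_lt_of_le ?_ h)
    exact_mod_cast hu

lemma gps_mem_mm_pow' [Finite σ] {N : ℕ} {f : MvPowerSeries σ k} :
    f ∈ mm σ k ^ N ↔ ∀ u : σ →₀ ℕ, u.degree < N → coeff u f = 0 := by
  constructor
  · intro h u hu
    refine coeff_of_lt_order (lt_of_lt_of_le ?_ (gps_mem_mm_pow.mp h))
    exact_mod_cast hu
  · exact gps_mem_mm_pow_of_coeff N f

end Order

section

variable {k : Type*} [Field k] {R : Type*} [CommRing R] [Algebra k R]

/-- restricting scalars does not decrease the length. -/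
lemma gps_length_le_restrict (M : Type*) [AddCommGroup M] [Module R M] [Module k M]
    [IsScalarTower k R M] : Module.length R M ≤ Module.length k M := by
  rw [← WithBot.coe_le_coe, Module.coe_length, Module.coe_length]
  exact Order.krullDim_le_of_strictMono (Submodule.restrictScalars k)
    (Submodule.restrictScalarsEmbedding k R M).strictMono

/-- over a local ring with coefficient field the length is the dimension -/
lemma gps_length_le_of_residue [IsLocalRing R]
    (hres : ∀ z : R, ∃ a : k, z - algebraMap k R a ∈ maximalIdeal R) (n : ℕ) :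
    ∀ (M : Type*) [AddCommGroup M] [Module R M] [Module k M] [IsScalarTower k R M],
    Module.length R M = n → Module.length k M ≤ n := by
  induction n with
  | zero =>
    intro M _ _ _ _ h
    rw [Nat.cast_zero, Module.length_eq_zero_iff] at h
    rw [Module.length_eq_zero_iff.mpr h]
    simp
  | succ n ih =>
    intro M _ _ _ _ h
    have hfin : Module.length R M ≠ ⊤ := by rw [h]; exact ENat.natCast_ne_top _
    have hfl := Module.length_ne_top_iff.mp hfin
    rw [isFiniteLength_iff_isNoetherian_isArtinian] at hfl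
    obtain ⟨_, _⟩ := hfl
    have hnt : Nontrivial M := by
      rw [← Module.length_pos_iff (R := R), h]
      exact_mod_cast Nat.succ_pos n
    obtain ⟨N, hN, _⟩ := (eq_bot_or_exists_atom_le (⊤ : Submodule R M)).resolve_left
      (by simp)
    have hs : IsSimpleModule R N := isSimpleModule_iff_isAtom.mpr hN
    have h1 : Module.length R N = 1 := Module.length_eq_one_iff.mpr hs
    have hsum : Module.length R M = Module.length R N + Module.length R (M ⧸ N) :=
      Module.length_eq_add_of_exact N.subtype N.mkQ N.injective_subtype N.mkQ_surjective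
        (LinearMap.exact_subtype_mkQ N)
    have hq : Module.length R (M ⧸ N) = n := by
      rw [h1, h, Nat.cast_add, Nat.cast_one, add_comm] at hsum
      exact (ENat.add_right_injective_of_ne_top (by simp : (1 : ℕ∞) ≠ ⊤) hsum).symm
    have h2 := ih (M ⧸ N) hq
    have h3 : Module.length k N ≤ 1 := by
      have : Nontrivial N := by
        rw [← Module.length_pos_iff (R := R), h1]
        exact one_pos
      obtain ⟨v, hv0⟩ := exists_ne (0 : N)
      have hkill : ∀ z ∈ maximalIdeal R, z • v = 0 := by
        intro z hz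
        by_contra hzv
        have ht : Submodule.span R {z • v} = ⊤ :=
          (eq_bot_or_eq_top _).resolve_left (by simpa using hzv)
        have hv : v ∈ Submodule.span R {z • v} := ht ▸ Submodule.mem_top
        obtain ⟨c, hc⟩ := Submodule.mem_span_singleton.mp hv
        have : (1 - c * z) • v = 0 := by
          rw [sub_smul, one_smul, mul_smul, hc, sub_self]
        have hu : IsUnit (1 - c * z) := by
          by_contra hu
          have : (1 : R) ∈ maximalIdeal R := by
            have := Ideal.add_mem _ ((mem_maximalIdeal _).mpr hu) (Ideal.mul_mem_left _ c hz)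
            rwa [sub_add_cancel] at this
          exact (Ideal.ne_top_iff_one _).mp (IsLocalRing.maximalIdeal.isMaximal R).ne_top this
        exact hv0 ((hu.smul_eq_zero).mp this)
      have hsurj : Function.Surjective (LinearMap.toSpanSingleton k N v) := by
        intro w
        have ht : Submodule.span R {v} = ⊤ :=
          (eq_bot_or_eq_top _).resolve_left (by simpa using hv0)
        have hw : w ∈ Submodule.span R {v} := ht ▸ Submodule.mem_top
        obtain ⟨z, hz⟩ := Submodule.mem_span_singleton.mp hw
        obtain ⟨a, ha⟩ := hres z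
        refine ⟨a, ?_⟩
        have := hkill _ ha
        rw [sub_smul, sub_eq_zero, algebraMap_smul, hz] at this
        rw [LinearMap.toSpanSingleton_apply, this]
      refine (Module.length_le_of_surjective _ hsurj).trans ?_
      rw [Module.length_eq_finrank]
      simp
    have hsumk : Module.length k M = Module.length k N + Module.length k (M ⧸ N) :=
      Module.length_eq_add_of_exact (N.subtype.restrictScalars k) (N.mkQ.restrictScalars k)
        N.injective_subtype N.mkQ_surjective (LinearMap.exact_subtype_mkQ N)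
    rw [hsumk, Nat.cast_add, Nat.cast_one, add_comm]
    exact add_le_add h2 h3

lemma gps_length_eq [IsLocalRing R]
    (hres : ∀ z : R, ∃ a : k, z - algebraMap k R a ∈ maximalIdeal R)
    (M : Type*) [AddCommGroup M] [Module R M] [Module k M] [IsScalarTower k R M] :
    Module.length R M = Module.length k M := by
  refine le_antisymm (gps_length_le_restrict M) ?_
  by_cases h : Module.length R M = ⊤
  · rw [h]; exact le_top
  · obtain ⟨n, hn⟩ := ENat.ne_top_iff_exists.mp h
    rw [← hn]
    exact gps_length_le_of_residue hres n M hn.symm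

end

section Len

variable {k : Type*} [Field k] {d : ℕ}

/-- the truncation map -/
noncomputable def gpsT (k : Type*) [Field k] (d N : ℕ) :
    MvPowerSeries (Fin d) k →ₗ[k] (tri (Fin d) N → k) :=
  LinearMap.pi fun u => coeff (R := k) u.1

lemma gpsT_apply (N : ℕ) (f : MvPowerSeries (Fin d) k) (u : tri (Fin d) N) :
    gpsT k d N f u = coeff u.1 f := rfl

lemma gpsT_surjective (N : ℕ) : Function.Surjective (gpsT k d N) := by
  classical
  intro g
  refine ⟨fun u => if h : u ∈ tri (Fin d) N then g ⟨u, h⟩ else 0, ?_⟩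
  ext u
  change (if h : u.1 ∈ tri (Fin d) N then g ⟨u.1, h⟩ else 0) = g u
  rw [dif_pos u.2]

lemma gpsT_ker (N : ℕ) :
    LinearMap.ker (gpsT k d N) = (mm (Fin d) k ^ N).restrictScalars k := by
  ext f
  rw [LinearMap.mem_ker, Submodule.restrictScalars_mem, gps_mem_mm_pow']
  constructor
  · intro h u hu
    have := congrFun h ⟨u, mem_tri.mpr hu⟩
    exact this
  · intro h
    ext u
    exact h u.1 (mem_tri.mp u.2)

lemma gps_residue (z : MvPowerSeries (Fin d) k) :
    ∃ a : k, z - algebraMap k (MvPowerSeries (Fin d) k) a ∈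
      maximalIdeal (MvPowerSeries (Fin d) k) := by
  refine ⟨constantCoeff z, ?_⟩
  rw [mem_maximalIdeal, mem_nonunits_iff, isUnit_iff_constantCoeff, map_sub]
  have : constantCoeff (algebraMap k (MvPowerSeries (Fin d) k) (constantCoeff z)) =
      constantCoeff z := by
    rw [MvPowerSeries.algebraMap_apply]
    simp
  rw [this, sub_self]
  simp

lemma gps_length_quot (N : ℕ) :
    Module.length (MvPowerSeries (Fin d) k) (MvPowerSeries (Fin d) k ⧸ mm (Fin d) k ^ N) =
      (tc d N : ℕ∞) := by
  rw [gps_length_eq (k := k) gps_residue]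
  have e1 : (MvPowerSeries (Fin d) k ⧸ (LinearMap.ker (gpsT k d N))) ≃ₗ[k] (tri (Fin d) N → k) :=
    (gpsT k d N).quotKerEquivOfSurjective (gpsT_surjective N)
  have e2 : (MvPowerSeries (Fin d) k ⧸ (LinearMap.ker (gpsT k d N))) ≃ₗ[k]
      (MvPowerSeries (Fin d) k ⧸ (mm (Fin d) k ^ N).restrictScalars k) :=
    Submodule.quotEquivOfEq _ _ (gpsT_ker N)
  have e3 := (Submodule.Quotient.restrictScalarsEquiv k (mm (Fin d) k ^ N))
  rw [← e3.length_eq, ← e2.length_eq, e1.length_eq, Module.length_eq_finrank,
    Module.finrank_fintype_fun_eq_card, Fintype.card_coe]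

/-- the number of monomials of degree in `[N - a, N)` -/
lemma gps_tc_le (hd : 0 < d) (a N : ℕ) : tc d N ≤ tc d (N - a) + a * N ^ (d - 1) := by
  classical
  obtain ⟨d, rfl⟩ : ∃ m, d = m + 1 := ⟨d - 1, by omega⟩
  rw [Nat.add_sub_cancel]
  have hsub : tri (Fin (d + 1)) (N - a) ⊆ tri (Fin (d + 1)) N := by
    intro u hu
    rw [mem_tri] at hu ⊢
    omega
  change (tri (Fin (d + 1)) N).card ≤ (tri (Fin (d + 1)) (N - a)).card + a * N ^ d
  rw [← Finset.card_sdiff_add_card_eq_card hsub, add_comm]
  refine Nat.add_le_add_left ?_ _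
  have hinj : (tri (Fin (d + 1)) N \ tri (Fin (d + 1)) (N - a)).card ≤
      ((Finset.range a) ×ˢ (Fintype.piFinset fun _ : Fin d => Finset.range N)).card := by
    refine Finset.card_le_card_of_injOn (fun u => (u.degree - (N - a), fun i : Fin d => u i.succ))
      ?_ ?_
    · intro u hu
      rw [Finset.mem_coe, Finset.mem_sdiff, mem_tri, mem_tri] at hu
      rw [Finset.mem_coe, Finset.mem_product, Finset.mem_range, Fintype.mem_piFinset]
      refine ⟨by dsimp only; omega, fun i => ?_⟩
      rw [Finset.mem_range]
      exact lt_of_le_of_lt (Finsupp.le_degree _ u) hu.1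
    · intro u hu v hv huv
      rw [Finset.mem_coe, Finset.mem_sdiff, mem_tri, mem_tri] at hu hv
      rw [Prod.mk.injEq] at huv
      obtain ⟨h1, h2⟩ := huv
      have hdeg : u.degree = v.degree := by omega
      have h3 : ∀ i : Fin d, u i.succ = v i.succ := fun i => congrFun h2 i
      rw [Finsupp.degree_eq_sum, Finsupp.degree_eq_sum, Fin.sum_univ_succ, Fin.sum_univ_succ,
        Finset.sum_congr rfl fun i _ => h3 i] at hdeg
      ext i
      refine Fin.cases ?_ h3 i
      omega
  refine hinj.trans (le_of_eq ?_)
  rw [Finset.card_product, Finset.card_range, Fintype.card_piFinset]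
  simp

/-- the length of the quotient by a nonzero element -/
lemma gps_length_quot_sup (hd : 0 < d) {δ : MvPowerSeries (Fin d) k} (hδ : δ ≠ 0) :
    ∃ a : ℕ, ∀ N : ℕ, Module.length (MvPowerSeries (Fin d) k)
      (MvPowerSeries (Fin d) k ⧸ (Ideal.span {δ} ⊔ mm (Fin d) k ^ N)) ≤
        ((a * N ^ (d - 1) : ℕ) : ℕ∞) := by
  have ho : δ.order ≠ ⊤ := by rwa [Ne, order_eq_top_iff]
  obtain ⟨a, ha⟩ := ENat.ne_top_iff_exists.mp ho
  refine ⟨a, fun N => ?_⟩
  -- exact sequence
  let R := MvPowerSeries (Fin d) k
  let f0 : R →ₗ[R] (R ⧸ mm (Fin d) k ^ N) :=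
    (Submodule.mkQ (mm (Fin d) k ^ N)).comp (LinearMap.mulLeft R δ)
  have hker : LinearMap.ker f0 = mm (Fin d) k ^ (N - a) := by
    ext g
    rw [LinearMap.mem_ker]
    change Submodule.Quotient.mk (δ * g) = 0 ↔ _
    rw [Submodule.Quotient.mk_eq_zero, gps_mem_mm_pow, gps_mem_mm_pow, order_mul, ← ha]
    by_cases hg : g = 0
    · subst hg
      simp
    · have hg' : g.order ≠ ⊤ := by rwa [Ne, order_eq_top_iff]
      obtain ⟨b, hb⟩ := ENat.ne_top_iff_exists.mp hg'
      rw [← hb]
      norm_cast
      omega
  let f : (R ⧸ mm (Fin d) k ^ (N - a)) →ₗ[R] (R ⧸ mm (Fin d) k ^ N) :=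
    Submodule.liftQ _ f0 hker.ge
  have hf : Function.Injective f := by
    rw [← LinearMap.ker_eq_bot]
    exact Submodule.ker_liftQ_eq_bot _ _ _ hker.le
  let g : (R ⧸ mm (Fin d) k ^ N) →ₗ[R] (R ⧸ (Ideal.span {δ} ⊔ mm (Fin d) k ^ N)) :=
    Submodule.factor le_sup_right
  have hg : Function.Surjective g := Submodule.factor_surjective _
  have hex : Function.Exact f g := by
    rw [LinearMap.exact_iff]
    ext x
    obtain ⟨x, rfl⟩ := Submodule.Quotient.mk_surjective _ x
    rw [LinearMap.mem_ker, LinearMap.mem_range]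
    change Submodule.Quotient.mk x = 0 ↔ _
    rw [Submodule.Quotient.mk_eq_zero]
    constructor
    · intro hx
      obtain ⟨y, hy, z, hz, rfl⟩ := Submodule.mem_sup.mp hx
      obtain ⟨c, rfl⟩ := Ideal.mem_span_singleton'.mp hy
      refine ⟨Submodule.Quotient.mk c, ?_⟩
      change Submodule.Quotient.mk (δ * c) = _
      rw [Submodule.Quotient.eq]
      have : δ * c - (c * δ + z) = - z := by ring
      rw [this]
      exact Submodule.neg_mem _ hz
    · rintro ⟨y, hy⟩
      obtain ⟨c, rfl⟩ := Submodule.Quotient.mk_surjective _ y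
      change Submodule.Quotient.mk (δ * c) = _ at hy
      rw [Submodule.Quotient.eq] at hy
      have : x = δ * c - (δ * c - x) := by ring
      rw [this]
      refine Submodule.sub_mem _ (Ideal.mem_sup_left ?_) (Ideal.mem_sup_right hy)
      exact Ideal.mul_mem_right _ _ (Ideal.mem_span_singleton_self δ)
  have hlen := Module.length_eq_add_of_exact f g hf hg hex
  rw [gps_length_quot, gps_length_quot] at hlen
  have h1 : (tc d N : ℕ∞) ≤ (tc d (N - a) : ℕ∞) + ((a * N ^ (d - 1) : ℕ) : ℕ∞) := by
    exact_mod_cast gps_tc_le hd a N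
  rw [hlen] at h1
  exact (ENat.add_le_add_iff_left (ENat.natCast_ne_top _)).mp h1

end Len

section Growth

lemma gps_len_range {R : Type*} [CommRing R] {ι : Type*} [Fintype ι] [DecidableEq ι] {M : Type*}
    [AddCommGroup M] [Module R M] (J : Ideal R) (F : (ι → R) →ₗ[R] M)
    (hF : ∀ (i : ι), ∀ c ∈ J, F ((Pi.single i c : ι → R)) = 0) :
    Module.length R (LinearMap.range F) ≤ (Fintype.card ι : ℕ∞) * Module.length R (R ⧸ J) := by
  classical
  let h : (ι → R) →ₗ[R] (ι → (R ⧸ J)) :=
    LinearMap.pi fun i => (Submodule.mkQ J).comp (LinearMap.proj i)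
  have hh : Function.Surjective h := by
    intro y
    choose x hx using fun i => Submodule.Quotient.mk_surjective _ (y i)
    exact ⟨x, funext hx⟩
  have hker : LinearMap.ker h ≤ LinearMap.ker F := by
    intro v hv
    rw [LinearMap.mem_ker] at hv ⊢
    rw [← LinearMap.sum_single_apply (φ := fun _ : ι => R) v, map_sum]
    refine Finset.sum_eq_zero fun i _ => ?_
    refine hF i _ ?_
    have := congrFun hv i
    change Submodule.Quotient.mk (v i) = 0 at this
    rwa [Submodule.Quotient.mk_eq_zero] at this
  have h1 : Module.length R (LinearMap.range F) = Module.length R ((ι → R) ⧸ LinearMap.ker F) :=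
    F.quotKerEquivRange.symm.length_eq
  have h2 : Module.length R ((ι → R) ⧸ LinearMap.ker h) = Module.length R (ι → (R ⧸ J)) :=
    (h.quotKerEquivOfSurjective hh).length_eq
  rw [h1]
  refine (Module.length_le_of_surjective (Submodule.factor hker)
    (Submodule.factor_surjective _)).trans ?_
  rw [h2, Module.length_pi, ENat.card_eq_coe_fintype_card]

/-- D2: lower bound for the growth of a module with `r` independent elements. -/
theorem lower_growth {k : Type*} [Field k] {d : ℕ} {M : Type*} [AddCommGroup M]
    [Module (MvPowerSeries (Fin d) k) M] [Module.Finite (MvPowerSeries (Fin d) k) M] {r : ℕ}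
    (e : Fin r → M) (he : LinearIndependent (MvPowerSeries (Fin d) k) e) :
    ∃ a : ℕ, ∀ N : ℕ, (r : ℕ∞) * (tc d N : ℕ∞) ≤
      Module.length (MvPowerSeries (Fin d) k)
        (M ⧸ (mm (Fin d) k ^ (N + a) • (⊤ : Submodule (MvPowerSeries (Fin d) k) M))) := by
  let R := MvPowerSeries (Fin d) k
  let f : (Fin r → R) →ₗ[R] M := Fintype.linearCombination R e
  have hf : Function.Injective f := by
    rw [← LinearMap.ker_eq_bot, LinearMap.ker_eq_bot']
    intro v hv
    rw [Fintype.linearCombination_apply] at hv
    exact funext (Fintype.linearIndependent_iff.mp he v hv)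
  obtain ⟨a, ha⟩ := Ideal.exists_pow_inf_eq_pow_smul (mm (Fin d) k) (LinearMap.range f)
  refine ⟨a, fun N => ?_⟩
  let P : Submodule R M := mm (Fin d) k ^ (N + a) • ⊤
  let g : (Fin r → R) →ₗ[R] (M ⧸ P) := P.mkQ.comp f
  let h : (Fin r → R) →ₗ[R] (Fin r → (R ⧸ mm (Fin d) k ^ N)) :=
    LinearMap.pi fun i => (Submodule.mkQ (mm (Fin d) k ^ N)).comp (LinearMap.proj i)
  have hh : Function.Surjective h := by
    intro y
    choose x hx using fun i => Submodule.Quotient.mk_surjective _ (y i)
    exact ⟨x, funext hx⟩
  have hker : LinearMap.ker g ≤ LinearMap.ker h := by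
    intro v hv
    rw [LinearMap.mem_ker] at hv
    change Submodule.Quotient.mk (f v) = 0 at hv
    rw [Submodule.Quotient.mk_eq_zero] at hv
    have h1 : f v ∈ P ⊓ LinearMap.range f := ⟨hv, ⟨v, rfl⟩⟩
    rw [ha (N + a) (by omega), Nat.add_sub_cancel] at h1
    have h2 : f v ∈ mm (Fin d) k ^ N • LinearMap.range f :=
      Submodule.smul_mono le_rfl inf_le_right h1
    rw [LinearMap.range_eq_map, ← Submodule.map_smul''] at h2
    obtain ⟨w, hw, hwv⟩ := h2
    have h3 : w = v := hf hwv
    subst h3
    rw [LinearMap.mem_ker]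
    funext i
    change Submodule.Quotient.mk (w i) = 0
    rw [Submodule.Quotient.mk_eq_zero]
    have h4 : (mm (Fin d) k ^ N • (⊤ : Submodule R (Fin r → R))) ≤
        Submodule.comap (LinearMap.proj (R := R) (φ := fun _ : Fin r => R) i)
          (mm (Fin d) k ^ N) := by
      rw [Submodule.smul_le]
      intro c hc x _
      exact Ideal.mul_mem_right _ _ hc
    exact h4 hw
  have hlen1 : Module.length R (Fin r → (R ⧸ mm (Fin d) k ^ N)) ≤
      Module.length R ((Fin r → R) ⧸ LinearMap.ker g) := by
    refine Module.length_le_of_surjective (Submodule.liftQ _ h hker) ?_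
    intro y
    obtain ⟨x, rfl⟩ := hh y
    exact ⟨Submodule.Quotient.mk x, rfl⟩
  have hlen2 : Module.length R ((Fin r → R) ⧸ LinearMap.ker g) ≤ Module.length R (M ⧸ P) := by
    refine Module.length_le_of_injective (Submodule.liftQ _ g le_rfl) ?_
    rw [← LinearMap.ker_eq_bot]
    exact Submodule.ker_liftQ_eq_bot _ _ _ le_rfl
  refine le_trans (le_of_eq ?_) (hlen1.trans hlen2)
  rw [Module.length_pi, gps_length_quot, ENat.card_eq_coe_fintype_card, Fintype.card_fin]

/-- D3: upper bound for the growth, `r` being the rank. -/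
theorem upper_growth {k : Type*} [Field k] {d : ℕ} (hd : 0 < d) {M : Type*} [AddCommGroup M]
    [Module (MvPowerSeries (Fin d) k) M] [Module.Finite (MvPowerSeries (Fin d) k) M] {r : ℕ}
    (hr : ∀ e : Fin (r + 1) → M, ¬ LinearIndependent (MvPowerSeries (Fin d) k) e) :
    ∃ B : ℕ, ∀ N : ℕ, Module.length (MvPowerSeries (Fin d) k)
        (M ⧸ (mm (Fin d) k ^ N • (⊤ : Submodule (MvPowerSeries (Fin d) k) M))) ≤
      (r : ℕ∞) * (tc d N : ℕ∞) + (B : ℕ∞) * ((N : ℕ∞) + 1) ^ (d - 1) := by
  classical
  let R := MvPowerSeries (Fin d) k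
  -- a maximal independent family
  let S : Set ℕ := {s | s ≤ r ∧ ∃ e : Fin s → M, LinearIndependent R e}
  have hS0 : 0 ∈ S := ⟨Nat.zero_le _, Fin.elim0, linearIndependent_empty_type⟩
  have hSfin : ∃ s ∈ S, ∀ t ∈ S, t ≤ s := by
    have hbdd : BddAbove S := ⟨r, fun t ht => ht.1⟩
    exact ⟨sSup S, Nat.sSup_mem ⟨0, hS0⟩ hbdd, fun t ht => le_csSup hbdd ht⟩
  obtain ⟨s, ⟨hsr, e, he⟩, hmax⟩ := hSfin
  let f : (Fin s → R) →ₗ[R] M := Fintype.linearCombination R e
  have hspan : LinearMap.range f = Submodule.span R (Set.range e) :=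
    Fintype.range_linearCombination R e
  -- every element is torsion modulo the span
  have htor : ∀ x : M, ∃ δ : R, δ ≠ 0 ∧ δ • x ∈ LinearMap.range f := by
    intro x
    by_contra hx
    push Not at hx
    have hli : LinearIndependent R (Fin.cons x e : Fin (s + 1) → M) := by
      rw [Fintype.linearIndependent_iff]
      intro c hc
      rw [Fin.sum_univ_succ] at hc
      simp only [Fin.cons_zero, Fin.cons_succ] at hc
      have h0 : c 0 = 0 := by
        by_contra h0
        apply hx (c 0) h0
        rw [eq_neg_of_add_eq_zero_left hc]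
        refine Submodule.neg_mem _ (Submodule.sum_mem _ fun i _ => Submodule.smul_mem _ _ ?_)
        rw [hspan]
        exact Submodule.subset_span ⟨i, rfl⟩
      rw [h0, zero_smul, zero_add] at hc
      have h1 := Fintype.linearIndependent_iff.mp he (fun i => c i.succ) hc
      intro i
      exact Fin.cases h0 h1 i
    by_cases hs : s = r
    · subst hs
      exact hr _ hli
    · have : s + 1 ∈ S := ⟨by omega, _, hli⟩
      have := hmax _ this
      omega
  obtain ⟨gen, hgen⟩ := (inferInstance : Module.Finite R M).fg_top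
  choose δ hδ0 hδ using htor
  let Δ : R := ∏ x ∈ gen, δ x
  have hΔ0 : Δ ≠ 0 := Finset.prod_ne_zero_iff.mpr fun x _ => hδ0 x
  have hΔ : ∀ x ∈ gen, Δ • x ∈ LinearMap.range f := by
    intro x hx
    have : Δ = (∏ y ∈ gen.erase x, δ y) * δ x := (Finset.prod_erase_mul _ _ hx).symm
    rw [this, mul_smul]
    exact Submodule.smul_mem _ _ (hδ x)
  obtain ⟨a, ha⟩ := gps_length_quot_sup (k := k) hd hΔ0
  refine ⟨gen.card * a, fun N => ?_⟩
  let P : Submodule R M := mm (Fin d) k ^ N • ⊤
  let Q : Submodule R M := P ⊔ LinearMap.range f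
  let g : (M ⧸ P) →ₗ[R] (M ⧸ Q) := Submodule.factor le_sup_left
  have hg : Function.Surjective g := Submodule.factor_surjective _
  have hlen := Module.length_eq_add_of_exact (LinearMap.ker g).subtype g
    (LinearMap.ker g).injective_subtype hg (by
      rw [LinearMap.exact_iff, Submodule.range_subtype])
  have hkg : LinearMap.ker g = LinearMap.range (P.mkQ.comp f) := by
    ext x
    obtain ⟨x, rfl⟩ := Submodule.Quotient.mk_surjective _ x
    rw [LinearMap.mem_ker]
    change Submodule.Quotient.mk x = 0 ↔ _
    rw [Submodule.Quotient.mk_eq_zero, LinearMap.mem_range]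
    constructor
    · intro hx
      obtain ⟨y, hy, z, ⟨v, rfl⟩, rfl⟩ := Submodule.mem_sup.mp hx
      refine ⟨v, ?_⟩
      change Submodule.Quotient.mk (f v) = _
      rw [Submodule.Quotient.eq, sub_add_eq_sub_sub_swap, sub_self, zero_sub]
      exact Submodule.neg_mem _ hy
    · rintro ⟨v, hv⟩
      change Submodule.Quotient.mk (f v) = _ at hv
      rw [Submodule.Quotient.eq] at hv
      have : x = f v - (f v - x) := by abel
      rw [this]
      exact Submodule.sub_mem _ (Submodule.mem_sup_right ⟨v, rfl⟩) (Submodule.mem_sup_left hv)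
  have h1 : Module.length R (LinearMap.ker g) ≤ (r : ℕ∞) * (tc d N : ℕ∞) := by
    rw [hkg]
    refine (gps_len_range (mm (Fin d) k ^ N) _ ?_).trans ?_
    · intro i c hc
      change Submodule.Quotient.mk (f (Pi.single i c)) = 0
      rw [Submodule.Quotient.mk_eq_zero, Fintype.linearCombination_apply_single]
      exact Submodule.smul_mem_smul hc Submodule.mem_top
    · rw [gps_length_quot, Fintype.card_fin]
      gcongr
  have h2 : Module.length R (M ⧸ Q) ≤
      ((gen.card * a : ℕ) : ℕ∞) * ((N : ℕ∞) + 1) ^ (d - 1) := by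
    let E : (gen → R) →ₗ[R] M := Fintype.linearCombination R (fun x => (x : M))
    have hE : LinearMap.range E = ⊤ := by
      rw [← hgen, Fintype.range_linearCombination R]
      simp
    have hE' : LinearMap.range (Q.mkQ.comp E) = ⊤ := by
      rw [LinearMap.range_comp, hE, Submodule.map_top, Submodule.range_mkQ]
    have h3 : Module.length R (M ⧸ Q) = Module.length R (LinearMap.range (Q.mkQ.comp E)) := by
      rw [hE', Module.length_top]
    rw [h3]
    refine (gps_len_range (Ideal.span {Δ} ⊔ mm (Fin d) k ^ N) _ ?_).trans ?_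
    · intro x c hc
      change Submodule.Quotient.mk (E (Pi.single x c)) = 0
      rw [Submodule.Quotient.mk_eq_zero, Fintype.linearCombination_apply_single]
      obtain ⟨y, hy, z, hz, rfl⟩ := Submodule.mem_sup.mp hc
      obtain ⟨c, rfl⟩ := Ideal.mem_span_singleton'.mp hy
      rw [add_smul, mul_smul]
      refine Submodule.add_mem _ (Submodule.mem_sup_right ?_) (Submodule.mem_sup_left ?_)
      · exact Submodule.smul_mem _ _ (hΔ x x.2)
      · exact Submodule.smul_mem_smul hz Submodule.mem_top
    · rw [Fintype.card_coe]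
      have h4 : (gen.card : ℕ∞) * ((a * N ^ (d - 1) : ℕ) : ℕ∞) ≤
          ((gen.card * a : ℕ) : ℕ∞) * ((N : ℕ∞) + 1) ^ (d - 1) := by
        have : gen.card * (a * N ^ (d - 1)) ≤ gen.card * a * (N + 1) ^ (d - 1) := by
          rw [mul_assoc]
          gcongr
          omega
        exact_mod_cast this
      exact (mul_le_mul_right (ha N) _).trans h4
  rw [hlen]
  exact add_le_add h1 h2

end Growth

end Vale.Agent.P202.CZ
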