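import Vale.Agent.P202.CharZero.ModelDef
import Vale.Agent.P202.CharZero.Fgc

/-!
Existence of models over finitely generated rings of power series.
-/

namespace Vale.Agent.P202.CZ

open MvPowerSeries Filter

open scoped Pointwise

universe u

section General

/-- only finitely many coefficients are needed for a linear combination. -/
lemma mx_ev_span {A M : Type u} [CommRing A] [AddCommGroup M] [Module A M] {H : Set M} {p : M}
    (hp : p ∈ Submodule.span A H) :
    ∃ C : Finset A, ∀ (R : Type u) [CommRing R] [Algebra R A] [Module R M] [IsScalarTower R A M],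
      (∀ c ∈ C, ∃ r : R, algebraMap R A r = c) → p ∈ Submodule.span R H := by
  classical
  obtain ⟨n, f, g, hfg⟩ := Submodule.mem_span_set'.mp hp
  refine ⟨Finset.univ.image f, ?_⟩
  intro R _ _ _ _ hC
  rw [← hfg]
  refine Submodule.sum_mem _ fun i _ => ?_
  obtain ⟨r, hr⟩ := hC (f i) (Finset.mem_image_of_mem _ (Finset.mem_univ i))
  rw [← hr, algebraMap_smul]
  exact Submodule.smul_mem _ _ (Submodule.subset_span (g i).2)

lemma mx_adjoin {R A : Type*} [CommRing R] [CommRing A] [Algebra R A] (W : Set A)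
    (h1 : (1 : A) ∈ Submodule.span R W)
    (hm : ∀ x ∈ W, ∀ y ∈ W, x * y ∈ Submodule.span R W) :
    Subalgebra.toSubmodule (Algebra.adjoin R W) = Submodule.span R W := by
  apply le_antisymm
  · have hmul : ∀ x y, x ∈ Submodule.span R W → y ∈ Submodule.span R W →
        x * y ∈ Submodule.span R W := by
      intro x y hx hy
      have h2 : Submodule.span R W * Submodule.span R W ≤ Submodule.span R W := by
        rw [Submodule.span_mul_span, Submodule.span_le]
        rintro _ ⟨a, ha, b, hb, rfl⟩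
        exact hm a ha b hb
      exact h2 (Submodule.mul_mem_mul hx hy)
    have h3 : Algebra.adjoin R W ≤ (Submodule.span R W).toSubalgebra h1 hmul :=
      Algebra.adjoin_le Submodule.subset_span
    intro z hz
    exact h3 hz
  · exact Submodule.span_le.mpr Algebra.subset_adjoin

lemma mx_top {R A A' : Type*} [CommRing R] [AddCommGroup A] [Module R A] [AddCommGroup A']
    [Module R A'] (f : A' →ₗ[R] A) (hf : Function.Injective f) (W' : Set A') (W : Set A)
    (hW : f '' W' = W) (h : ∀ z, f z ∈ Submodule.span R W) : Submodule.span R W' = ⊤ := by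
  rw [eq_top_iff]
  rintro z -
  have h1 := h z
  rw [← hW, ← Submodule.map_span] at h1
  obtain ⟨z', hz', hzz⟩ := h1
  rwa [← hf hzz]

lemma mx_ideal {R A : Type*} [CommRing R] [CommRing A] [Algebra R A]
    (hinj : Function.Injective (algebraMap R A)) (H : Set R) (H' : Set A)
    (hH : algebraMap R A '' H = H') (p : R)
    (h : algebraMap R A p ∈ Submodule.span R H') : p ∈ Ideal.span H := by
  rw [← hH] at h
  have h2 : Submodule.map (Algebra.linearMap R A) (Submodule.span R H) =
      Submodule.span R (algebraMap R A '' H) := by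
    rw [Submodule.map_span]
    rfl
  rw [← h2] at h
  obtain ⟨z', hz', hzz⟩ := h
  have h3 : z' = p := hinj hzz
  rw [← h3]
  exact hz'

lemma mx_span_pow {R : Type*} [CommRing R] (H : Set R) (n : ℕ) :
    Ideal.span H ^ n = Ideal.span (H ^ n) := by
  induction n with
  | zero => simp
  | succ n ih => rw [pow_succ, pow_succ, ih, Ideal.span_mul_span']

lemma mx_pow_le {R A : Type*} [CommRing R] [CommRing A] [Algebra R A]
    (hinj : Function.Injective (algebraMap R A)) (G H : Set R) (G' H' : Set A)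
    (hG : algebraMap R A '' G = G') (hH : algebraMap R A '' H = H') (n : ℕ)
    (h : ∀ p ∈ G' ^ n, p ∈ Submodule.span R H') : Ideal.span G ^ n ≤ Ideal.span H := by
  rw [mx_span_pow, Ideal.span_le]
  intro p hp
  refine mx_ideal hinj H H' hH p (h _ ?_)
  rw [← hG, ← Set.image_pow]
  exact ⟨p, hp, rfl⟩

/-- the augmentation attached to an ideal with residue ring `K`. -/
lemma mx_eps {K A : Type*} [Field K] [CommRing A] (φ : K →+* A) (J : Ideal A)
    (hJ : ∀ z : A, ∃ a : K, z - φ a ∈ J) (hJ1 : (1 : A) ∉ J) :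
    ∃ ε : A →+* K, (∀ z ∈ J, ε z = 0) ∧ (∀ a, ε (φ a) = a) ∧ ∀ z, ε z = 0 → z ∈ J := by
  have hne : Nontrivial (A ⧸ J) :=
    Ideal.Quotient.nontrivial_iff.mpr ((Ideal.ne_top_iff_one J).mpr hJ1)
  have hbij : Function.Bijective ((Ideal.Quotient.mk J).comp φ) := by
    constructor
    · exact RingHom.injective _
    · intro x
      obtain ⟨z, rfl⟩ := Ideal.Quotient.mk_surjective x
      obtain ⟨a, ha⟩ := hJ z
      exact ⟨a, (Ideal.Quotient.eq.mpr ha).symm⟩
  let f := RingEquiv.ofBijective _ hbij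
  refine ⟨f.symm.toRingHom.comp (Ideal.Quotient.mk J), ?_, ?_, ?_⟩
  · intro z hz
    change f.symm (Ideal.Quotient.mk J z) = 0
    rw [Ideal.Quotient.eq_zero_iff_mem.mpr hz, map_zero]
  · intro a
    change f.symm (f a) = a
    exact f.symm_apply_apply a
  · intro z hz
    change f.symm (Ideal.Quotient.mk J z) = 0 at hz
    rw [← Ideal.Quotient.eq_zero_iff_mem]
    exact (map_eq_zero_iff _ f.symm.injective).mp hz

lemma mx_eq_span {K A : Type*} [Field K] [CommRing A] (φ : K →+* A) (J : Ideal A)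
    (ε : A →+* K) (hεJ : ∀ z ∈ J, ε z = 0) (hεφ : ∀ a, ε (φ a) = a)
    (hε : ∀ z, ε z = 0 → z ∈ J) (G : Set A) (hG : ∀ x ∈ G, ε x = 0)
    (hdec : ∀ z, ∃ a, z - φ a ∈ Ideal.span G) : J = Ideal.span G := by
  have h1 : Ideal.span G ≤ RingHom.ker ε := Ideal.span_le.mpr hG
  apply le_antisymm
  · intro z hz
    obtain ⟨a, ha⟩ := hdec z
    have h2 : ε (z - φ a) = 0 := h1 ha
    rw [map_sub, hεJ z hz, hεφ, zero_sub, neg_eq_zero] at h2
    rwa [h2, map_zero, sub_zero] at ha
  · exact fun z hz => hε z (h1 hz)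

end General

section Abs

variable {K : Type u} [Field K] {d : ℕ}

/-- the finitely generated ring `B`. -/
noncomputable abbrev mxB (T : Finset (MvPowerSeries (Fin d) K)) :
    Subring (MvPowerSeries (Fin d) K) :=
  Subring.closure (T : Set (MvPowerSeries (Fin d) K))

theorem mx_abs (T : Finset (MvPowerSeries (Fin d) K))
    (hX : ∀ i, (X i : MvPowerSeries (Fin d) K) ∈ mxB T)
    {E S : Type u} [CommRing E] [CommRing S] [Algebra (mxB T) E] [Algebra E S]
    [Module.Finite (mxB T) E] {t : ℕ} (v : Module.Basis (Fin t) E S)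
    {r : ℕ} (e : Fin r → E) (he : LinearIndependent (mxB T) e)
    {g : ℕ} (w : Fin g → E)
    (hEtop : Submodule.span (mxB T) (insert 1 (Set.range w)) = ⊤)
    (xE : Fin d → E) (hxE : xE = fun i => algebraMap (mxB T) E ⟨X i, hX i⟩)
    (GE : Set E) (hGE : GE = Set.range xE ∪ Set.range w)
    (ε : E →+* K) (hε : ∀ b : mxB T, ε (algebraMap (mxB T) E b) =
      constantCoeff (b : MvPowerSeries (Fin d) K)) (hεw : ∀ i, ε (w i) = 0)
    {s : ℕ} (hJs : Ideal.span GE ^ (s + 1) ≤ Ideal.span (Set.range xE) * Ideal.span GE ^ s)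
    (εS : S →+* K) (hεS : ∀ z : E, εS (algebraMap E S z) = ε z)
    (κ : Fin t → mxB T) (hκ : ∀ i, (κ i : MvPowerSeries (Fin d) K) = C (εS (v i)))
    (NS : Set S) (hNS : NS = (Set.range fun i => algebraMap E S (xE i)) ∪
      (Set.range fun i => algebraMap E S (w i)) ∪
      Set.range fun i => v i - algebraMap E S (algebraMap (mxB T) E (κ i)))
    {M : ℕ}
    (hnM : Ideal.span NS ^ M ≤ Ideal.span (Set.range fun i => algebraMap E S (xE i)))
    (y : Fin d → S) (hy : ∀ i, y i ∈ Ideal.span NS) {j c : ℕ}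
    (hc : Ideal.span (Set.range fun i => algebraMap E S (xE i)) ^ c ≤
      Ideal.span (Set.range y) ^ j)
    {l : ℕ} (b : Fin l → S)
    (hb1 : ∀ x ∈ insert 1 (Set.range w), ∀ i, ∃ β : Fin l → mxB T,
      algebraMap E S x * v i - ∑ q, algebraMap E S (algebraMap (mxB T) E (β q)) * b q ∈
        Ideal.span (Set.range y) ^ j)
    (hb2 : ∀ i q, ∃ β : Fin l → mxB T,
      (∀ q', ∃ a : K, (β q' : MvPowerSeries (Fin d) K) = C a) ∧
      algebraMap E S (xE i) * b q -
        ∑ q', algebraMap E S (algebraMap (mxB T) E (β q')) * b q' ∈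
        Ideal.span (Set.range y) ^ j) :
    Nonempty (Model K d r j c l) := by
  have hJ : ∀ z : E, ∃ b : mxB T, z - algebraMap (mxB T) E b ∈ Ideal.span GE := by
    intro z
    have hz : z ∈ Submodule.span (mxB T) (insert 1 (Set.range w)) := by
      rw [hEtop]
      exact Submodule.mem_top
    induction hz using Submodule.span_induction with
    | mem x hx =>
      rcases hx with rfl | ⟨i, rfl⟩
      · exact ⟨1, by rw [map_one, sub_self]; exact Ideal.zero_mem _⟩
      · exact ⟨0, by
          rw [map_zero, sub_zero, hGE]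
          exact Ideal.subset_span (Or.inr ⟨i, rfl⟩)⟩
    | zero => exact ⟨0, by rw [map_zero, sub_zero]; exact Ideal.zero_mem _⟩
    | add x y _ _ h1 h2 =>
      obtain ⟨b1, h1⟩ := h1
      obtain ⟨b2, h2⟩ := h2
      refine ⟨b1 + b2, ?_⟩
      rw [map_add, add_sub_add_comm]
      exact Ideal.add_mem _ h1 h2
    | smul a x _ h1 =>
      obtain ⟨b1, h1⟩ := h1
      refine ⟨a * b1, ?_⟩
      rw [map_mul, Algebra.smul_def, ← mul_sub]
      exact Ideal.mul_mem_left _ _ h1
  have hJx : ∀ i, xE i ∈ Ideal.span GE := fun i =>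
    Ideal.subset_span (by rw [hGE]; exact Or.inl ⟨i, rfl⟩)
  have hεx : ∀ i, ε (xE i) = 0 := by
    intro i
    rw [hxE]
    change ε (algebraMap (mxB T) E ⟨X i, hX i⟩) = 0
    rw [hε]
    exact constantCoeff_X i
  have hεJ : ∀ z ∈ Ideal.span GE, ε z = 0 := by
    have h1 : Ideal.span GE ≤ RingHom.ker ε := by
      rw [Ideal.span_le, hGE]
      rintro _ (⟨i, rfl⟩ | ⟨i, rfl⟩)
      · exact hεx i
      · exact hεw i
    exact fun z hz => h1 hz
  have hJn : (Ideal.span GE).map (algebraMap E S) ≤ Ideal.span NS := by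
    rw [Ideal.map_span, Ideal.span_le, hGE, hNS]
    rintro _ ⟨z, ⟨i, rfl⟩ | ⟨i, rfl⟩, rfl⟩
    · exact Ideal.subset_span (Or.inl (Or.inl ⟨i, rfl⟩))
    · exact Ideal.subset_span (Or.inl (Or.inr ⟨i, rfl⟩))
  -- induction principle for `S`
  have key : ∀ P : S → Prop, P 0 → (∀ a b, P a → P b → P (a + b)) →
      (∀ (b : mxB T) z, P z → P (algebraMap E S (algebraMap (mxB T) E b) * z)) →
      (∀ x ∈ insert 1 (Set.range w), ∀ i, P (algebraMap E S x * v i)) → ∀ z, P z := by
    intro P h0 hadd hmul hgen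
    have h1 : ∀ (z : E) (i : Fin t), P (algebraMap E S z * v i) := by
      intro z i
      have hz : z ∈ Submodule.span (mxB T) (insert 1 (Set.range w)) := by
        rw [hEtop]
        exact Submodule.mem_top
      induction hz using Submodule.span_induction with
      | mem x hx => exact hgen x hx i
      | zero => rw [map_zero, zero_mul]; exact h0
      | add x y _ _ h1 h2 => rw [map_add, add_mul]; exact hadd _ _ h1 h2
      | smul a x _ h1 =>
        rw [Algebra.smul_def, map_mul, mul_assoc]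
        exact hmul a _ h1
    intro z
    rw [← v.sum_repr z]
    refine Finset.sum_induction _ P hadd h0 fun i _ => ?_
    rw [Algebra.smul_def]
    exact h1 _ i
  have hn : ∀ z : S, ∃ b : mxB T,
      z - algebraMap E S (algebraMap (mxB T) E b) ∈ Ideal.span NS := by
    apply key
    · exact ⟨0, by rw [map_zero, map_zero, sub_zero]; exact Ideal.zero_mem _⟩
    · rintro a b ⟨b1, h1⟩ ⟨b2, h2⟩
      refine ⟨b1 + b2, ?_⟩
      rw [map_add, map_add, add_sub_add_comm]
      exact Ideal.add_mem _ h1 h2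
    · rintro b z ⟨b1, h1⟩
      refine ⟨b * b1, ?_⟩
      rw [map_mul, map_mul, ← mul_sub]
      exact Ideal.mul_mem_left _ _ h1
    · rintro x (rfl | ⟨l, rfl⟩) i
      · refine ⟨κ i, ?_⟩
        rw [map_one, one_mul, hNS]
        exact Ideal.subset_span (Or.inr ⟨i, rfl⟩)
      · refine ⟨0, ?_⟩
        rw [map_zero, map_zero, sub_zero, hNS]
        exact Ideal.mul_mem_right _ _ (Ideal.subset_span (Or.inl (Or.inr ⟨l, rfl⟩)))
  have hεn : ∀ z ∈ Ideal.span NS, εS z = 0 := by
    have h1 : Ideal.span NS ≤ RingHom.ker εS := by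
      rw [Ideal.span_le, hNS]
      rintro _ ((⟨i, rfl⟩ | ⟨i, rfl⟩) | ⟨i, rfl⟩)
      · exact (hεS _).trans (hεx i)
      · exact (hεS _).trans (hεw i)
      · change εS (v i - algebraMap E S (algebraMap (mxB T) E (κ i))) = 0
        rw [map_sub, hεS, hε, hκ, constantCoeff_C, sub_self]
    exact fun z hz => h1 hz
  have hb1' : ∀ z : S, ∃ β : Fin l → mxB T,
      z - ∑ q, algebraMap E S (algebraMap (mxB T) E (β q)) * b q ∈
        Ideal.span (Set.range y) ^ j := by
    apply key
    · exact ⟨0, by simp⟩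
    · rintro z1 z2 ⟨b1, h1⟩ ⟨b2, h2⟩
      refine ⟨b1 + b2, ?_⟩
      have h3 : z1 + z2 - ∑ q, algebraMap E S (algebraMap (mxB T) E ((b1 + b2) q)) * b q =
          (z1 - ∑ q, algebraMap E S (algebraMap (mxB T) E (b1 q)) * b q) +
          (z2 - ∑ q, algebraMap E S (algebraMap (mxB T) E (b2 q)) * b q) := by
        simp only [Pi.add_apply, map_add, add_mul, Finset.sum_add_distrib]
        ring
      rw [h3]
      exact Ideal.add_mem _ h1 h2
    · rintro a z ⟨b1, h1⟩
      refine ⟨fun q => a * b1 q, ?_⟩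
      have h3 : algebraMap E S (algebraMap (mxB T) E a) * z -
          ∑ q, algebraMap E S (algebraMap (mxB T) E (a * b1 q)) * b q =
          algebraMap E S (algebraMap (mxB T) E a) *
          (z - ∑ q, algebraMap E S (algebraMap (mxB T) E (b1 q)) * b q) := by
        rw [mul_sub, Finset.mul_sum]
        simp only [map_mul, mul_assoc]
      rw [h3]
      exact Ideal.mul_mem_left _ _ h1
    · exact hb1
  subst hxE
  exact ⟨{
    T := T
    hT := hX
    E := E
    S := S
    t := t
    v := v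
    e := e
    he := he
    J := Ideal.span GE
    hJ := hJ
    hJx := hJx
    εE := ε
    hεE := hε
    hεJ := hεJ
    s := s
    hJs := hJs
    n := Ideal.span NS
    hn := hn
    hJn := hJn
    εS := εS
    hεS := hεS
    hεn := hεn
    M := M
    hnM := hnM
    y := y
    hy := hy
    hc := hc
    b := b
    hb1 := hb1'
    hb2 := hb2 }⟩

end Abs

section Mid

variable {K : Type u} [Field K] {d : ℕ}

/-- the power series `b` in `E`. -/
noncomputable abbrev mxa (E : Type u) [CommRing E] [Algebra (MvPowerSeries (Fin d) K) E]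
    (b : MvPowerSeries (Fin d) K) : E := algebraMap (MvPowerSeries (Fin d) K) E b

/-- the power series `b` in `S`. -/
noncomputable abbrev mxb (E S : Type u) [CommRing E] [CommRing S]
    [Algebra (MvPowerSeries (Fin d) K) E] [Algebra E S]
    (b : MvPowerSeries (Fin d) K) : S := algebraMap E S (algebraMap (MvPowerSeries (Fin d) K) E b)

theorem mx_mid (T : Finset (MvPowerSeries (Fin d) K))
    (hX : ∀ i, (X i : MvPowerSeries (Fin d) K) ∈ mxB T)
    {E S : Type u} [CommRing E] [CommRing S]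
    [Algebra (MvPowerSeries (Fin d) K) E] [Algebra E S]
    {E' S' : Type u} [CommRing E'] [CommRing S'] [Algebra (mxB T) E'] [Algebra E' S']
    [Algebra E' E] [Algebra S' S]
    (hinjE : Function.Injective (algebraMap E' E)) (hinjS : Function.Injective (algebraMap S' S))
    (hcE : ∀ b : mxB T, algebraMap E' E (algebraMap (mxB T) E' b) =
      mxa E (b : MvPowerSeries (Fin d) K))
    (hcS : ∀ z : E', algebraMap S' S (algebraMap E' S' z) = algebraMap E S (algebraMap E' E z))
    {g : ℕ} (w : Fin g → E) (w' : Fin g → E') (hw' : ∀ i, algebraMap E' E (w' i) = w i)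
    (hEtop : Submodule.span (mxB T) (insert 1 (Set.range w')) = ⊤)
    {t : ℕ} (v : Module.Basis (Fin t) E S) (v' : Fin t → S')
    (hv' : ∀ i, algebraMap S' S (v' i) = v i)
    (hStop : Submodule.span E' (Set.range v') = ⊤)
    {r : ℕ} (e : Fin r → E) (he : LinearIndependent (MvPowerSeries (Fin d) K) e)
    (e' : Fin r → E') (hee : ∀ i, algebraMap E' E (e' i) = e i)
    (ε : E →+* K) (hε : ∀ b : MvPowerSeries (Fin d) K, ε (mxa E b) = constantCoeff b)
    (hεw : ∀ i, ε (w i) = 0)
    {s : ℕ}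
    (hJs : ∀ p ∈ ((Set.range fun i => mxa E (X i : MvPowerSeries (Fin d) K)) ∪
        Set.range w) ^ (s + 1),
      p ∈ Submodule.span E'
        ((Set.range fun i => mxa E (X i : MvPowerSeries (Fin d) K)) *
          ((Set.range fun i => mxa E (X i : MvPowerSeries (Fin d) K)) ∪ Set.range w) ^ s))
    (εS : S →+* K) (hεS : ∀ z : E, εS (algebraMap E S z) = ε z)
    (hκ : ∀ i, (C (εS (v i)) : MvPowerSeries (Fin d) K) ∈ mxB T)
    {M : ℕ}
    (hnM : ∀ p ∈ ((Set.range fun i => mxb E S (X i : MvPowerSeries (Fin d) K)) ∪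
        (Set.range fun i => algebraMap E S (w i)) ∪
        (Set.range fun i => v i - mxb E S (C (εS (v i)) : MvPowerSeries (Fin d) K))) ^ M,
      p ∈ Submodule.span S' (Set.range fun i => mxb E S (X i : MvPowerSeries (Fin d) K)))
    (y : Fin d → S) (y' : Fin d → S') (hyy : ∀ i, algebraMap S' S (y' i) = y i)
    (hy : ∀ i, y i ∈ Submodule.span S'
      ((Set.range fun i => mxb E S (X i : MvPowerSeries (Fin d) K)) ∪
        (Set.range fun i => algebraMap E S (w i)) ∪
        (Set.range fun i => v i - mxb E S (C (εS (v i)) : MvPowerSeries (Fin d) K))))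
    {j c : ℕ}
    (hc : ∀ p ∈ (Set.range fun i => mxb E S (X i : MvPowerSeries (Fin d) K)) ^ c,
      p ∈ Submodule.span S' ((Set.range y) ^ j))
    {l : ℕ} (b : Fin l → S) (b' : Fin l → S') (hbb : ∀ i, algebraMap S' S (b' i) = b i)
    (hb1 : ∀ x ∈ insert 1 (Set.range w), ∀ i, ∃ a : Fin l → K,
      (∀ q, (C (a q) : MvPowerSeries (Fin d) K) ∈ mxB T) ∧
      algebraMap E S x * v i - ∑ q, mxb E S (C (a q) : MvPowerSeries (Fin d) K) * b q ∈
        Submodule.span S' ((Set.range y) ^ j))
    (hb2 : ∀ (i : Fin d) (q : Fin l), ∃ a : Fin l → K,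
      (∀ q', (C (a q') : MvPowerSeries (Fin d) K) ∈ mxB T) ∧
      mxb E S (X i : MvPowerSeries (Fin d) K) * b q -
        ∑ q', mxb E S (C (a q') : MvPowerSeries (Fin d) K) * b q' ∈
        Submodule.span S' ((Set.range y) ^ j)) :
    Nonempty (Model K d r j c l) := by
  classical
  have hfin : Module.Finite (mxB T) E' :=
    ⟨Submodule.fg_def.mpr ⟨_, (Set.finite_range w').insert 1, hEtop⟩⟩
  have hv'li : LinearIndependent E' v' := by
    rw [Fintype.linearIndependent_iff]
    intro f hf i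
    have h1 : ∑ i, algebraMap E' E (f i) • v i = 0 := by
      have h2 := congrArg (algebraMap S' S) hf
      rw [map_sum, map_zero] at h2
      rw [← h2]
      refine Finset.sum_congr rfl fun i _ => ?_
      rw [Algebra.smul_def, Algebra.smul_def, map_mul, hcS, hv']
    have h3 := (Fintype.linearIndependent_iff.mp v.linearIndependent) _ h1 i
    exact hinjE (by rw [h3, map_zero])
  let vb : Module.Basis (Fin t) E' S' := Module.Basis.mk hv'li hStop.ge
  have hvb : ∀ i, algebraMap S' S (vb i) = v i := fun i => by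
    rw [Module.Basis.mk_apply, hv']
  have he' : LinearIndependent (mxB T) e' := by
    rw [Fintype.linearIndependent_iff]
    intro f hf i
    have h1 : ∑ i, (f i : MvPowerSeries (Fin d) K) • e i = 0 := by
      have h2 := congrArg (algebraMap E' E) hf
      rw [map_sum, map_zero] at h2
      rw [← h2]
      refine Finset.sum_congr rfl fun i _ => ?_
      rw [Algebra.smul_def, Algebra.smul_def, map_mul, hcE, hee]
    exact Subtype.ext ((Fintype.linearIndependent_iff.mp he) _ h1 i)
  -- the ideal `J_B`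
  let xE : Fin d → E' := fun i => algebraMap (mxB T) E' ⟨X i, hX i⟩
  have hxE0 : ∀ i, algebraMap E' E (xE i) = mxa E (X i : MvPowerSeries (Fin d) K) :=
    fun i => hcE _
  have hxE : algebraMap E' E '' Set.range xE =
      Set.range fun i => mxa E (X i : MvPowerSeries (Fin d) K) := by
    rw [← Set.range_comp]
    congr 1
    funext i
    exact hxE0 i
  have hGE : algebraMap E' E '' (Set.range xE ∪ Set.range w') =
      (Set.range fun i => mxa E (X i : MvPowerSeries (Fin d) K)) ∪ Set.range w := by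
    rw [Set.image_union, hxE, ← Set.range_comp]
    congr 2
    funext i
    exact hw' i
  have hJs' : Ideal.span (Set.range xE ∪ Set.range w') ^ (s + 1) ≤
      Ideal.span (Set.range xE) * Ideal.span (Set.range xE ∪ Set.range w') ^ s := by
    rw [mx_span_pow _ s, Ideal.span_mul_span']
    refine mx_pow_le hinjE _ _ _ _ hGE ?_ _ hJs
    rw [Set.image_mul, Set.image_pow, hGE, hxE]
  -- the ideal `n_B`
  let NS : Set S' := (Set.range fun i => algebraMap E' S' (xE i)) ∪
    (Set.range fun i => algebraMap E' S' (w' i)) ∪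
    Set.range fun i => vb i - algebraMap E' S' (algebraMap (mxB T) E' ⟨C (εS (v i)), hκ i⟩)
  have hxS : algebraMap S' S '' (Set.range fun i => algebraMap E' S' (xE i)) =
      Set.range fun i => mxb E S (X i : MvPowerSeries (Fin d) K) := by
    rw [← Set.range_comp]
    congr 1
    funext i
    change algebraMap S' S (algebraMap E' S' (xE i)) = _
    rw [hcS, hxE0]
  have hwS : algebraMap S' S '' (Set.range fun i => algebraMap E' S' (w' i)) =
      Set.range fun i => algebraMap E S (w i) := by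
    rw [← Set.range_comp]
    congr 1
    funext i
    change algebraMap S' S (algebraMap E' S' (w' i)) = _
    rw [hcS, hw']
  have hvS : algebraMap S' S '' (Set.range fun i => vb i -
        algebraMap E' S' (algebraMap (mxB T) E' ⟨C (εS (v i)), hκ i⟩)) =
      Set.range fun i => v i - mxb E S (C (εS (v i)) : MvPowerSeries (Fin d) K) := by
    rw [← Set.range_comp]
    congr 1
    funext i
    change algebraMap S' S (vb i -
      algebraMap E' S' (algebraMap (mxB T) E' ⟨C (εS (v i)), hκ i⟩)) = _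
    rw [map_sub, hvb, hcS, hcE]
  have hNS : algebraMap S' S '' NS =
      (Set.range fun i => mxb E S (X i : MvPowerSeries (Fin d) K)) ∪
        (Set.range fun i => algebraMap E S (w i)) ∪
        (Set.range fun i => v i - mxb E S (C (εS (v i)) : MvPowerSeries (Fin d) K)) := by
    rw [Set.image_union, Set.image_union, hxS, hwS, hvS]
  have hyr : algebraMap S' S '' (Set.range y') ^ j = Set.range y ^ j := by
    rw [Set.image_pow, ← Set.range_comp]
    congr 2
    funext i
    exact hyy i
  have hc' : Ideal.span (Set.range fun i => algebraMap E' S' (xE i)) ^ c ≤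
      Ideal.span (Set.range y') ^ j := by
    rw [mx_span_pow _ j]
    exact mx_pow_le hinjS _ _ _ _ hxS hyr _ hc
  have hsum : ∀ (a : Fin l → K) (ha : ∀ q, (C (a q) : MvPowerSeries (Fin d) K) ∈ mxB T),
      algebraMap S' S (∑ q, algebraMap E' S' (algebraMap (mxB T) E' ⟨C (a q), ha q⟩) * b' q) =
      ∑ q, mxb E S (C (a q) : MvPowerSeries (Fin d) K) * b q := by
    intro a ha
    rw [map_sum]
    refine Finset.sum_congr rfl fun q _ => ?_
    rw [map_mul, hcS, hcE, hbb]
  refine mx_abs T hX vb e' he' w' hEtop xE rfl _ rfl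
    (ε.comp (algebraMap E' E)) (fun b => ?_) (fun i => ?_) hJs'
    (εS.comp (algebraMap S' S)) (fun z => ?_)
    (fun i => ⟨C (εS (v i)), hκ i⟩) (fun i => ?_) NS rfl
    (mx_pow_le hinjS _ _ _ _ hNS hxS _ hnM) y'
    (fun i => mx_ideal hinjS _ _ hNS _ (by rw [hyy]; exact hy i)) hc' b' ?_ ?_
  · rw [RingHom.comp_apply, hcE, hε]
  · rw [RingHom.comp_apply, hw', hεw]
  · rw [RingHom.comp_apply, RingHom.comp_apply, hcS, hεS]
  · rw [RingHom.comp_apply, hvb]
  · intro x hx i
    have hx' : algebraMap E' E x ∈ insert 1 (Set.range w) := by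
      rcases hx with rfl | ⟨q, rfl⟩
      · rw [map_one]
        exact Set.mem_insert _ _
      · rw [hw']
        exact Set.mem_insert_of_mem _ ⟨q, rfl⟩
    obtain ⟨a, ha, hax⟩ := hb1 _ hx' i
    refine ⟨fun q => ⟨C (a q), ha q⟩, ?_⟩
    rw [mx_span_pow _ j]
    refine mx_ideal hinjS _ _ hyr _ ?_
    rw [map_sub, hsum a ha, map_mul, hcS, hvb]
    exact hax
  · intro i q
    obtain ⟨a, ha, hax⟩ := hb2 i q
    refine ⟨fun q => ⟨C (a q), ha q⟩, fun q' => ⟨a q', rfl⟩, ?_⟩
    rw [mx_span_pow _ j]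
    refine mx_ideal hinjS _ _ hyr _ ?_
    rw [map_sub, hsum a ha, map_mul, hcS, hxE0, hbb]
    exact hax

end Mid

section Build

variable {K : Type u} [Field K] {d : ℕ} {E S : Type u} [CommRing E] [CommRing S]
  [Algebra (MvPowerSeries (Fin d) K) E] [Algebra E S]

theorem mx_build (T : Finset (MvPowerSeries (Fin d) K))
    (hX : ∀ i, (X i : MvPowerSeries (Fin d) K) ∈ mxB T)
    (E' : Subring E) (S' : Subring S)
    (hBE : ∀ b : mxB T, mxa E (b : MvPowerSeries (Fin d) K) ∈ E')
    (hES : ∀ z : E', algebraMap E S (z : E) ∈ S')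
    {g : ℕ} (w : Fin g → E) (hwE : ∀ i, w i ∈ E')
    (hEW : ∀ z ∈ E', z ∈ Submodule.span (mxB T) (insert 1 (Set.range w)))
    {t : ℕ} (v : Module.Basis (Fin t) E S) (hvS : ∀ i, v i ∈ S')
    (hSV : ∀ z ∈ S', z ∈ Submodule.span E' (Set.range v))
    {r : ℕ} (e : Fin r → E) (he : LinearIndependent (MvPowerSeries (Fin d) K) e)
    (heE : ∀ i, e i ∈ E')
    (ε : E →+* K) (hε : ∀ b : MvPowerSeries (Fin d) K, ε (mxa E b) = constantCoeff b)
    (hεw : ∀ i, ε (w i) = 0)
    {s : ℕ}
    (hJs : ∀ p ∈ ((Set.range fun i => mxa E (X i : MvPowerSeries (Fin d) K)) ∪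
        Set.range w) ^ (s + 1),
      p ∈ Submodule.span E' ((Set.range fun i => mxa E (X i : MvPowerSeries (Fin d) K)) *
          ((Set.range fun i => mxa E (X i : MvPowerSeries (Fin d) K)) ∪ Set.range w) ^ s))
    (εS : S →+* K) (hεS : ∀ z : E, εS (algebraMap E S z) = ε z)
    (hκ : ∀ i, (C (εS (v i)) : MvPowerSeries (Fin d) K) ∈ mxB T)
    {M : ℕ}
    (hnM : ∀ p ∈ ((Set.range fun i => mxb E S (X i : MvPowerSeries (Fin d) K)) ∪
        (Set.range fun i => algebraMap E S (w i)) ∪
        (Set.range fun i => v i - mxb E S (C (εS (v i)) : MvPowerSeries (Fin d) K))) ^ M,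
      p ∈ Submodule.span S' (Set.range fun i => mxb E S (X i : MvPowerSeries (Fin d) K)))
    (y : Fin d → S) (hyS : ∀ i, y i ∈ S')
    (hy : ∀ i, y i ∈ Submodule.span S'
      ((Set.range fun i => mxb E S (X i : MvPowerSeries (Fin d) K)) ∪
        (Set.range fun i => algebraMap E S (w i)) ∪
        (Set.range fun i => v i - mxb E S (C (εS (v i)) : MvPowerSeries (Fin d) K))))
    {j c : ℕ}
    (hc : ∀ p ∈ (Set.range fun i => mxb E S (X i : MvPowerSeries (Fin d) K)) ^ c,
      p ∈ Submodule.span S' ((Set.range y) ^ j))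
    {l : ℕ} (b : Fin l → S) (hbS : ∀ i, b i ∈ S')
    (hb1 : ∀ x ∈ insert 1 (Set.range w), ∀ i, ∃ a : Fin l → K,
      (∀ q, (C (a q) : MvPowerSeries (Fin d) K) ∈ mxB T) ∧
      algebraMap E S x * v i - ∑ q, mxb E S (C (a q) : MvPowerSeries (Fin d) K) * b q ∈
        Submodule.span S' ((Set.range y) ^ j))
    (hb2 : ∀ (i : Fin d) (q : Fin l), ∃ a : Fin l → K,
      (∀ q', (C (a q') : MvPowerSeries (Fin d) K) ∈ mxB T) ∧
      mxb E S (X i : MvPowerSeries (Fin d) K) * b q -
        ∑ q', mxb E S (C (a q') : MvPowerSeries (Fin d) K) * b q' ∈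
        Submodule.span S' ((Set.range y) ^ j)) :
    Nonempty (Model K d r j c l) := by
  classical
  letI i1 : Algebra (mxB T) E' :=
    (((algebraMap (MvPowerSeries (Fin d) K) E).comp (mxB T).subtype).codRestrict E' hBE).toAlgebra
  letI i2 : Algebra E' S' :=
    (((algebraMap E S).comp E'.subtype).codRestrict S' hES).toAlgebra
  let f : E' →ₗ[mxB T] E :=
    { toFun := fun z => z
      map_add' := fun _ _ => rfl
      map_smul' := fun _ _ => (Algebra.smul_def _ _).symm }
  let f' : S' →ₗ[E'] S :=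
    { toFun := fun z => z
      map_add' := fun _ _ => rfl
      map_smul' := fun _ _ => (Algebra.smul_def _ _).symm }
  have hE'top : Submodule.span (mxB T)
      (insert 1 (Set.range fun i => (⟨w i, hwE i⟩ : E'))) = ⊤ := by
    refine mx_top f Subtype.val_injective _ (insert 1 (Set.range w)) ?_ (fun z => hEW z z.2)
    rw [Set.image_insert_eq, ← Set.range_comp]
    rfl
  have hS'top : Submodule.span E' (Set.range fun i => (⟨v i, hvS i⟩ : S')) = ⊤ := by
    refine mx_top f' Subtype.val_injective _ (Set.range v) ?_ (fun z => hSV z z.2)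
    rw [← Set.range_comp]
    rfl
  exact mx_mid T hX (E' := E') (S' := S')
    Subtype.val_injective Subtype.val_injective (fun _ => rfl) (fun _ => rfl) w _
    (fun _ => rfl) hE'top v _ (fun _ => rfl) hS'top e he (fun i => ⟨e i, heE i⟩) (fun _ => rfl)
    ε hε hεw hJs εS hεS hκ hnM y (fun i => ⟨y i, hyS i⟩) (fun _ => rfl) hy hc b
    (fun i => ⟨b i, hbS i⟩) (fun _ => rfl) hb1 hb2

end Build

section Ev

lemma mx_ev_mem {τ : Type*} (F : Filter τ) {A M : Type u} [CommRing A] [AddCommGroup M]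
    [Module A M] (R : τ → Subring A) (hR : ∀ a : A, ∀ᶠ i in F, a ∈ R i) {H : Set M} {p : M}
    (hp : p ∈ Submodule.span A H) : ∀ᶠ i in F, p ∈ Submodule.span (R i) H := by
  obtain ⟨C, hC⟩ := mx_ev_span hp
  have h1 : ∀ᶠ i in F, ∀ c ∈ C, c ∈ R i :=
    (Filter.eventually_all_finset C).mpr fun c _ => hR c
  filter_upwards [h1] with i hi
  exact hC (R i) fun c hc => ⟨⟨c, hi c hc⟩, rfl⟩

lemma mx_ev_pow {τ : Type*} (F : Filter τ) {A : Type u} [CommRing A]
    (R : τ → Subring A) (hR : ∀ a : A, ∀ᶠ i in F, a ∈ R i) {G H : Set A} (hG : G.Finite) (n : ℕ)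
    (h : Ideal.span G ^ n ≤ Ideal.span H) :
    ∀ᶠ i in F, ∀ p ∈ G ^ n, p ∈ Submodule.span (R i) H := by
  rw [mx_span_pow, Ideal.span_le] at h
  have h2 : (G ^ n).Finite := by
    clear h
    induction n with
    | zero =>
      rw [pow_zero]
      exact Set.finite_singleton 1
    | succ n ih =>
      rw [pow_succ]
      exact ih.mul hG
  exact h2.eventually_all.mpr fun p hp => mx_ev_mem F R hR (h hp)

variable {K : Type u} [Field K] {d : ℕ} {E S : Type u} [CommRing E] [CommRing S]
  [Algebra (MvPowerSeries (Fin d) K) E] [Algebra E S]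

/-- the ring `E_B`. -/
noncomputable def mxE (W : Set E) (T : Finset (MvPowerSeries (Fin d) K)) : Subring E :=
  (Algebra.adjoin (mxB T) W).toSubring

/-- the ring `S_B`. -/
noncomputable def mxS (V : Set S) (R : Subring E) : Subring S :=
  (Algebra.adjoin R V).toSubring

lemma mx_ev_B (x : MvPowerSeries (Fin d) K) :
    ∀ᶠ T : Finset (MvPowerSeries (Fin d) K) in atTop, x ∈ mxB T := by
  filter_upwards [eventually_ge_atTop {x}] with T hT
  exact Subring.subset_closure (Finset.mem_coe.mpr (hT (Finset.mem_singleton_self x)))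

lemma mxE_base (W : Set E) (T : Finset (MvPowerSeries (Fin d) K)) (b : mxB T) :
    mxa E (b : MvPowerSeries (Fin d) K) ∈ mxE W T :=
  (Algebra.adjoin (mxB T) W).algebraMap_mem b

lemma mxE_sub (W : Set E) (T : Finset (MvPowerSeries (Fin d) K)) {x : E} (hx : x ∈ W) :
    x ∈ mxE W T := Algebra.subset_adjoin hx

lemma mxE_of_span (W : Set E) (T : Finset (MvPowerSeries (Fin d) K)) {x : E}
    (hx : x ∈ Submodule.span (mxB T) W) : x ∈ mxE W T := by
  have h : Submodule.span (mxB T) W ≤ Subalgebra.toSubmodule (Algebra.adjoin (mxB T) W) :=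
    Submodule.span_le.mpr Algebra.subset_adjoin
  exact h hx

lemma mxS_base (V : Set S) (R : Subring E) (z : R) : algebraMap E S (z : E) ∈ mxS V R :=
  (Algebra.adjoin R V).algebraMap_mem z

lemma mxS_of_span (V : Set S) (R : Subring E) {x : S}
    (hx : x ∈ Submodule.span R V) : x ∈ mxS V R := by
  have h : Submodule.span R V ≤ Subalgebra.toSubmodule (Algebra.adjoin R V) :=
    Submodule.span_le.mpr Algebra.subset_adjoin
  exact h hx

lemma mx_ev_E {W : Set E} (hW : Submodule.span (MvPowerSeries (Fin d) K) W = ⊤) (z : E) :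
    ∀ᶠ T : Finset (MvPowerSeries (Fin d) K) in atTop, z ∈ Submodule.span (mxB T) W :=
  mx_ev_mem atTop (fun T => mxB T) mx_ev_B (by rw [hW]; exact Submodule.mem_top)

lemma mx_ev_E' {W : Set E} (hW : Submodule.span (MvPowerSeries (Fin d) K) W = ⊤) (z : E) :
    ∀ᶠ T : Finset (MvPowerSeries (Fin d) K) in atTop, z ∈ mxE W T :=
  (mx_ev_E hW z).mono fun T hT => mxE_of_span W T hT

lemma mx_ev_E_all {W : Set E} (hW : Submodule.span (MvPowerSeries (Fin d) K) W = ⊤)
    (hf : W.Finite) (h1 : (1 : E) ∈ W) :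
    ∀ᶠ T : Finset (MvPowerSeries (Fin d) K) in atTop,
      ∀ z ∈ mxE W T, z ∈ Submodule.span (mxB T) W := by
  have h2 : ∀ᶠ T : Finset (MvPowerSeries (Fin d) K) in atTop,
      ∀ x ∈ W, ∀ y ∈ W, x * y ∈ Submodule.span (mxB T) W :=
    hf.eventually_all.mpr fun x _ => hf.eventually_all.mpr fun y _ => mx_ev_E hW (x * y)
  filter_upwards [h2] with T hT z hz
  have h3 := mx_adjoin W (Submodule.subset_span h1) hT
  rw [← h3]
  exact hz

lemma mx_ev_S {W : Set E} (hW : Submodule.span (MvPowerSeries (Fin d) K) W = ⊤)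
    {V : Set S} (hV : Submodule.span E V = ⊤) (z : S) :
    ∀ᶠ T : Finset (MvPowerSeries (Fin d) K) in atTop, z ∈ Submodule.span (mxE W T) V :=
  mx_ev_mem atTop (fun T => mxE W T) (mx_ev_E' hW) (by rw [hV]; exact Submodule.mem_top)

lemma mx_ev_S' {W : Set E} (hW : Submodule.span (MvPowerSeries (Fin d) K) W = ⊤)
    {V : Set S} (hV : Submodule.span E V = ⊤) (z : S) :
    ∀ᶠ T : Finset (MvPowerSeries (Fin d) K) in atTop, z ∈ mxS V (mxE W T) :=
  (mx_ev_S hW hV z).mono fun _ hT => mxS_of_span V _ hT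

lemma mx_ev_S_all {W : Set E} (hW : Submodule.span (MvPowerSeries (Fin d) K) W = ⊤)
    {V : Set S} (hV : Submodule.span E V = ⊤) (hf : V.Finite) :
    ∀ᶠ T : Finset (MvPowerSeries (Fin d) K) in atTop,
      ∀ z ∈ mxS V (mxE W T), z ∈ Submodule.span (mxE W T) V := by
  have h2 : ∀ᶠ T : Finset (MvPowerSeries (Fin d) K) in atTop,
      ∀ x ∈ V, ∀ y ∈ V, x * y ∈ Submodule.span (mxE W T) V :=
    hf.eventually_all.mpr fun x _ => hf.eventually_all.mpr fun y _ => mx_ev_S hW hV (x * y)
  filter_upwards [h2, mx_ev_S hW hV 1] with T hT h1 z hz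
  have h3 := mx_adjoin V h1 hT
  rw [← h3]
  exact hz

end Ev

/-- D8: existence of the model. -/
theorem exists_model {K : Type u} [Field K] {d : ℕ}
    {E S : Type u} [CommRing E] [CommRing S] [Algebra (MvPowerSeries (Fin d) K) E]
    [Algebra E S] [Module.Finite (MvPowerSeries (Fin d) K) E]
    {t : ℕ} (v : Module.Basis (Fin t) E S)
    {r : ℕ} (e : Fin r → E) (he : LinearIndependent (MvPowerSeries (Fin d) K) e)
    (J : Ideal E) (hJ : ∀ z : E, ∃ a : K, z - algebraMap (MvPowerSeries (Fin d) K) E (C a) ∈ J)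
    (hJ1 : (1 : E) ∉ J) (hJx : ∀ i, algebraMap (MvPowerSeries (Fin d) K) E (X i) ∈ J)
    {s : ℕ} (hJs : J ^ (s + 1) ≤
      Ideal.span (Set.range fun i => algebraMap (MvPowerSeries (Fin d) K) E (X i)) * J ^ s)
    (n : Ideal S) (hn : ∀ z : S, ∃ a : K,
      z - algebraMap E S (algebraMap (MvPowerSeries (Fin d) K) E (C a)) ∈ n)
    (hn1 : (1 : S) ∉ n) (hJn : J.map (algebraMap E S) ≤ n)
    {M : ℕ} (hnM : n ^ M ≤
      Ideal.span (Set.range fun i => algebraMap E S
        (algebraMap (MvPowerSeries (Fin d) K) E (X i))))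
    (y : Fin d → S) (hy : ∀ i, y i ∈ n) {j c : ℕ}
    (hc : Ideal.span (Set.range fun i => algebraMap E S
        (algebraMap (MvPowerSeries (Fin d) K) E (X i))) ^ c ≤
      Ideal.span (Set.range y) ^ j)
    {l : ℕ} (b : Fin l → S)
    (hb : ∀ z : S, ∃ a : Fin l → K,
      z - ∑ q, algebraMap E S (algebraMap (MvPowerSeries (Fin d) K) E (C (a q))) * b q ∈
        Ideal.span (Set.range y) ^ j) :
    Nonempty (Model K d r j c l) := by
  classical
  -- the augmentations
  obtain ⟨ε, hεJ, hεC, hεJ'⟩ := mx_eps ((algebraMap (MvPowerSeries (Fin d) K) E).comp C) J hJ hJ1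
  obtain ⟨εS, hεn, hεSC, hεn'⟩ := mx_eps ((algebraMap E S).comp
    ((algebraMap (MvPowerSeries (Fin d) K) E).comp C)) n hn hn1
  have hdec : ∀ b : MvPowerSeries (Fin d) K, mxa E (b - C (constantCoeff b)) ∈
      Ideal.span (Set.range fun i => mxa E (X i : MvPowerSeries (Fin d) K)) := by
    intro b
    have h1 := fgc_mem_span_X (b - C (constantCoeff b)) (by
      rw [map_sub, constantCoeff_C, sub_self])
    have h2 := Ideal.mem_map_of_mem (algebraMap (MvPowerSeries (Fin d) K) E) h1
    rw [Ideal.map_span, ← Set.range_comp] at h2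
    exact h2
  have hXJ : Ideal.span (Set.range fun i => mxa E (X i : MvPowerSeries (Fin d) K)) ≤ J := by
    rw [Ideal.span_le]
    rintro _ ⟨i, rfl⟩
    exact hJx i
  have hε : ∀ b : MvPowerSeries (Fin d) K, ε (mxa E b) = constantCoeff b := by
    intro b
    have h1 := hεJ _ (hXJ (hdec b))
    rw [mxa, map_sub, map_sub, sub_eq_zero] at h1
    exact h1.trans (hεC _)
  have hεS : ∀ z : E, εS (algebraMap E S z) = ε z := by
    intro z
    obtain ⟨a, ha⟩ := hJ z
    have h1 := hεJ _ ha
    have h2 := hεn _ (hJn (Ideal.mem_map_of_mem _ ha))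
    rw [map_sub, map_sub, sub_eq_zero] at h2
    rw [map_sub, sub_eq_zero] at h1
    rw [h1, h2]
    exact (hεSC a).trans (hεC a).symm
  -- generators of `E`
  obtain ⟨g, w0, hw0⟩ := Module.Finite.exists_fin (R := MvPowerSeries (Fin d) K) (M := E)
  let w : Fin g → E := fun i => w0 i - mxa E (C (ε (w0 i)) : MvPowerSeries (Fin d) K)
  have hεw : ∀ i, ε (w i) = 0 := by
    intro i
    change ε (w0 i - mxa E (C (ε (w0 i)) : MvPowerSeries (Fin d) K)) = 0
    rw [map_sub, hε, constantCoeff_C, sub_self]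
  have hW : Submodule.span (MvPowerSeries (Fin d) K) (insert 1 (Set.range w)) = ⊤ := by
    rw [eq_top_iff, ← hw0, Submodule.span_le]
    rintro _ ⟨i, rfl⟩
    have h1 : w0 i = w i + (C (ε (w0 i)) : MvPowerSeries (Fin d) K) • (1 : E) := by
      rw [Algebra.smul_def, mul_one]
      exact (sub_add_cancel _ _).symm
    rw [h1]
    exact Submodule.add_mem _ (Submodule.subset_span (Set.mem_insert_of_mem _ ⟨i, rfl⟩))
      (Submodule.smul_mem _ _ (Submodule.subset_span (Set.mem_insert _ _)))
  -- the ideal `J`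
  set xE : Fin d → E := fun i => mxa E (X i : MvPowerSeries (Fin d) K) with hxEdef
  set GE : Set E := Set.range xE ∪ Set.range w with hGEdef
  have hxG : Ideal.span (Set.range xE) ≤ Ideal.span GE := Ideal.span_mono Set.subset_union_left
  have hdecJ : ∀ z : E, ∃ a : K, z - ((algebraMap (MvPowerSeries (Fin d) K) E).comp C) a ∈
      Ideal.span GE := by
    intro z
    have hz : z ∈ Submodule.span (MvPowerSeries (Fin d) K) (insert 1 (Set.range w)) := by
      rw [hW]
      exact Submodule.mem_top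
    induction hz using Submodule.span_induction with
    | mem x hx =>
      rcases hx with rfl | ⟨i, rfl⟩
      · exact ⟨1, by rw [map_one, sub_self]; exact Ideal.zero_mem _⟩
      · exact ⟨0, by rw [map_zero, sub_zero]; exact Ideal.subset_span (Or.inr ⟨i, rfl⟩)⟩
    | zero => exact ⟨0, by rw [map_zero, sub_zero]; exact Ideal.zero_mem _⟩
    | add x y _ _ h1 h2 =>
      obtain ⟨b1, h1⟩ := h1
      obtain ⟨b2, h2⟩ := h2
      refine ⟨b1 + b2, ?_⟩
      rw [map_add, add_sub_add_comm]
      exact Ideal.add_mem _ h1 h2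
    | smul a x _ h1 =>
      obtain ⟨b1, h1⟩ := h1
      refine ⟨constantCoeff a * b1, ?_⟩
      have h3 : a • x - ((algebraMap (MvPowerSeries (Fin d) K) E).comp C)
          (constantCoeff a * b1) =
          mxa E a * (x - ((algebraMap (MvPowerSeries (Fin d) K) E).comp C) b1) +
          ((algebraMap (MvPowerSeries (Fin d) K) E).comp C) b1 *
            mxa E (a - C (constantCoeff a)) := by
        rw [Algebra.smul_def, map_mul, mxa, mxa, map_sub, RingHom.comp_apply, RingHom.comp_apply]
        ring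
      rw [h3]
      exact Ideal.add_mem _ (Ideal.mul_mem_left _ _ h1)
        (Ideal.mul_mem_left _ _ (hxG (hdec a)))
  have hGε : ∀ x ∈ GE, ε x = 0 := by
    rintro _ (⟨i, rfl⟩ | ⟨i, rfl⟩)
    · exact (hε _).trans (constantCoeff_X i)
    · exact hεw i
  have hJG : J = Ideal.span GE := mx_eq_span _ J ε hεJ hεC hεJ' GE hGε hdecJ
  -- the ideal `n`
  set xS : Fin d → S := fun i => mxb E S (X i : MvPowerSeries (Fin d) K) with hxSdef
  set NS : Set S := (Set.range xS) ∪ (Set.range fun i => algebraMap E S (w i)) ∪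
    (Set.range fun i => v i - mxb E S (C (εS (v i)) : MvPowerSeries (Fin d) K)) with hNSdef
  have hGN : ∀ z ∈ Ideal.span GE, algebraMap E S z ∈ Ideal.span NS := by
    intro z hz
    have h1 := Ideal.mem_map_of_mem (algebraMap E S) hz
    rw [Ideal.map_span] at h1
    refine Ideal.span_mono ?_ h1
    rintro _ ⟨z, ⟨i, rfl⟩ | ⟨i, rfl⟩, rfl⟩
    · exact Or.inl (Or.inl ⟨i, rfl⟩)
    · exact Or.inl (Or.inr ⟨i, rfl⟩)
  have hdecN : ∀ z : S, ∃ a : K, z - ((algebraMap E S).comp
      ((algebraMap (MvPowerSeries (Fin d) K) E).comp C)) a ∈ Ideal.span NS := by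
    intro z
    rw [← v.sum_repr z]
    refine Finset.sum_induction _ (fun z => ∃ a : K, z - ((algebraMap E S).comp
      ((algebraMap (MvPowerSeries (Fin d) K) E).comp C)) a ∈ Ideal.span NS) ?_ ?_ ?_
    · rintro z1 z2 ⟨a1, h1⟩ ⟨a2, h2⟩
      refine ⟨a1 + a2, ?_⟩
      rw [map_add, add_sub_add_comm]
      exact Ideal.add_mem _ h1 h2
    · exact ⟨0, by rw [map_zero, sub_zero]; exact Ideal.zero_mem _⟩
    · intro i _
      obtain ⟨a, ha⟩ := hdecJ (v.repr z i)
      refine ⟨a * εS (v i), ?_⟩
      have h3 : v.repr z i • v i - ((algebraMap E S).comp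
          ((algebraMap (MvPowerSeries (Fin d) K) E).comp C)) (a * εS (v i)) =
          v i * algebraMap E S (v.repr z i -
            ((algebraMap (MvPowerSeries (Fin d) K) E).comp C) a) +
          ((algebraMap E S).comp ((algebraMap (MvPowerSeries (Fin d) K) E).comp C)) a *
            (v i - mxb E S (C (εS (v i)) : MvPowerSeries (Fin d) K)) := by
        rw [Algebra.smul_def, map_mul, map_sub, mxb]
        simp only [RingHom.comp_apply]
        ring
      rw [h3]
      exact Ideal.add_mem _ (Ideal.mul_mem_left _ _ (hGN _ ha))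
        (Ideal.mul_mem_left _ _ (Ideal.subset_span (Or.inr ⟨i, rfl⟩)))
  have hNε : ∀ x ∈ NS, εS x = 0 := by
    rintro _ ((⟨i, rfl⟩ | ⟨i, rfl⟩) | ⟨i, rfl⟩)
    · exact (hεS _).trans ((hε _).trans (constantCoeff_X i))
    · exact (hεS _).trans (hεw i)
    · change εS (v i - mxb E S (C (εS (v i)) : MvPowerSeries (Fin d) K)) = 0
      rw [map_sub, hεS, hε, constantCoeff_C, sub_self]
  have hnN : n = Ideal.span NS := mx_eq_span _ n εS hεn hεSC hεn' NS hNε hdecN
  -- finiteness
  have hWfin : (insert 1 (Set.range w) : Set E).Finite := (Set.finite_range w).insert 1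
  have hGfin : GE.Finite := (Set.finite_range xE).union (Set.finite_range w)
  have hNfin : NS.Finite := ((Set.finite_range xS).union (Set.finite_range _)).union
    (Set.finite_range _)
  have hV : Submodule.span E (Set.range v) = ⊤ := v.span_eq
  have hES' := mx_ev_E' hW
  have hSS' := mx_ev_S' hW hV
  have hX : ∀ᶠ T : Finset (MvPowerSeries (Fin d) K) in atTop,
      ∀ i, (X i : MvPowerSeries (Fin d) K) ∈ mxB T := Filter.eventually_all.mpr fun i => mx_ev_B _
  have he' : ∀ᶠ T : Finset (MvPowerSeries (Fin d) K) in atTop,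
      ∀ i, e i ∈ mxE (insert 1 (Set.range w)) T := Filter.eventually_all.mpr fun i => hES' _
  have hJs' : Ideal.span GE ^ (s + 1) ≤ Ideal.span (Set.range xE * GE ^ s) := by
    rw [← Ideal.span_mul_span', ← mx_span_pow, ← hJG]
    exact hJs
  have hJs'' := mx_ev_pow atTop (fun T : Finset (MvPowerSeries (Fin d) K) =>
    mxE (insert 1 (Set.range w)) T) hES' hGfin (s + 1) hJs'
  have hκ : ∀ᶠ T : Finset (MvPowerSeries (Fin d) K) in atTop,
      ∀ i, (C (εS (v i)) : MvPowerSeries (Fin d) K) ∈ mxB T :=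
    Filter.eventually_all.mpr fun i => mx_ev_B _
  have hnM' := mx_ev_pow atTop (fun T : Finset (MvPowerSeries (Fin d) K) =>
    mxS (Set.range v) (mxE (insert 1 (Set.range w)) T)) hSS' hNfin M (H := Set.range xS)
    (by rw [← hnN]; exact hnM)
  have hyS : ∀ᶠ T : Finset (MvPowerSeries (Fin d) K) in atTop,
      ∀ i, y i ∈ mxS (Set.range v) (mxE (insert 1 (Set.range w)) T) :=
    Filter.eventually_all.mpr fun i => hSS' _
  have hyN : ∀ᶠ T : Finset (MvPowerSeries (Fin d) K) in atTop,
      ∀ i, y i ∈ Submodule.span (mxS (Set.range v) (mxE (insert 1 (Set.range w)) T)) NS :=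
    Filter.eventually_all.mpr fun i => mx_ev_mem atTop
      (fun T : Finset (MvPowerSeries (Fin d) K) =>
        mxS (Set.range v) (mxE (insert 1 (Set.range w)) T)) hSS'
      (by
        have h1 := hy i
        rw [hnN] at h1
        exact h1)
  have hyj : Ideal.span (Set.range y) ^ j = Submodule.span S (Set.range y ^ j) :=
    mx_span_pow _ _
  have hc' := mx_ev_pow atTop (fun T : Finset (MvPowerSeries (Fin d) K) =>
    mxS (Set.range v) (mxE (insert 1 (Set.range w)) T)) hSS' (Set.finite_range xS) c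
    (H := Set.range y ^ j) (by rw [← mx_span_pow]; exact hc)
  have hbS : ∀ᶠ T : Finset (MvPowerSeries (Fin d) K) in atTop,
      ∀ i, b i ∈ mxS (Set.range v) (mxE (insert 1 (Set.range w)) T) :=
    Filter.eventually_all.mpr fun i => hSS' _
  have hbz : ∀ z : S, ∀ᶠ T : Finset (MvPowerSeries (Fin d) K) in atTop, ∃ a : Fin l → K,
      (∀ q, (C (a q) : MvPowerSeries (Fin d) K) ∈ mxB T) ∧
      z - ∑ q, mxb E S (C (a q) : MvPowerSeries (Fin d) K) * b q ∈
        Submodule.span (mxS (Set.range v) (mxE (insert 1 (Set.range w)) T))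
          ((Set.range y) ^ j) := by
    intro z
    obtain ⟨a, ha⟩ := hb z
    have h1 : ∀ᶠ T : Finset (MvPowerSeries (Fin d) K) in atTop,
        ∀ q, (C (a q) : MvPowerSeries (Fin d) K) ∈ mxB T :=
      Filter.eventually_all.mpr fun i => mx_ev_B _
    rw [hyj] at ha
    filter_upwards [h1, mx_ev_mem atTop (fun T : Finset (MvPowerSeries (Fin d) K) =>
        mxS (Set.range v) (mxE (insert 1 (Set.range w)) T)) hSS' ha] with T hT1 hT2
    exact ⟨a, hT1, hT2⟩
  have hb1 := hWfin.eventually_all.mpr fun x _ => Filter.eventually_all.mpr fun i : Fin t =>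
    hbz (algebraMap E S x * v i)
  have hb2 := Filter.eventually_all.mpr fun i : Fin d => Filter.eventually_all.mpr
    fun q : Fin l => hbz (mxb E S (X i : MvPowerSeries (Fin d) K) * b q)
  obtain ⟨T, hT⟩ := (hX.and (he'.and (hJs''.and (hκ.and (hnM'.and (hyS.and (hyN.and (hc'.and
    (hbS.and (hb1.and (hb2.and ((mx_ev_E_all hW hWfin (Set.mem_insert _ _)).and
      ((mx_ev_S_all hW hV (Set.finite_range v))))))))))))))).exists
  obtain ⟨a1, a2, a3, a4, a5, a6, a7, a8, a9, a10, a11, a12, a13⟩ := hT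
  exact mx_build T a1 (mxE (insert 1 (Set.range w)) T)
    (mxS (Set.range v) (mxE (insert 1 (Set.range w)) T)) (mxE_base _ T) (mxS_base _ _) w
    (fun i => mxE_sub _ T (Set.mem_insert_of_mem _ ⟨i, rfl⟩)) a12 v
    (fun i => mxS_of_span _ _ (Submodule.subset_span ⟨i, rfl⟩)) a13 e he a2 ε hε hεw a3
    εS hεS a4 a5 y a6 a7 a8 b a9 a10 a11

end Vale.Agent.P202.CZ
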