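import Vale.Agent.P202.CharZero.CZDefs

/-!
Lengths of powers of an ideal with `d` generators: averages over simplices of an antitone function
are antitone.
-/

set_option linter.unusedVariables false

namespace Vale.Agent.P202.CZ

open Finset

variable {d : ℕ}

/-- exponents of degree `i` -/
noncomputable def prD (d i : ℕ) : Finset (Fin d →₀ ℕ) :=
  (Finset.univ : Finset (Fin d)).finsuppAntidiag i

theorem mem_prD {i : ℕ} {u : Fin d →₀ ℕ} : u ∈ prD d i ↔ u.degree = i := by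
  rw [prD, Finset.mem_finsuppAntidiag, Finsupp.degree_eq_sum]
  simp

theorem pr_shift (g : (Fin d →₀ ℕ) → ℕ∞) (i : ℕ) :
    ∑ w ∈ prD d (i + 1), ∑ l, (w l : ℕ∞) * g (w - Finsupp.single l 1) =
      ∑ u ∈ prD d i, ∑ l, ((u l + 1 : ℕ) : ℕ∞) * g u := by
  classical
  rw [Finset.sum_comm, Finset.sum_comm (s := prD d i)]
  refine Finset.sum_congr rfl fun l _ => ?_
  have h1 : ∑ w ∈ prD d (i + 1), (w l : ℕ∞) * g (w - Finsupp.single l 1) =
      ∑ w ∈ (prD d (i + 1)).filter (fun w => w l ≠ 0),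
        (w l : ℕ∞) * g (w - Finsupp.single l 1) := by
    rw [Finset.sum_filter]
    refine Finset.sum_congr rfl fun w _ => ?_
    split_ifs with h
    · rfl
    · rw [not_not] at h
      rw [h]; simp
  rw [h1]
  refine Finset.sum_nbij' (fun w => w - Finsupp.single l 1) (fun u => u + Finsupp.single l 1)
    ?_ ?_ ?_ ?_ ?_
  · intro w hw
    rw [Finset.mem_filter, mem_prD] at hw
    rw [mem_prD]
    have h2 : w = (w - Finsupp.single l 1) + Finsupp.single l 1 := by
      ext j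
      by_cases hj : j = l
      · subst hj
        simp only [Finsupp.coe_add, Finsupp.coe_tsub, Pi.add_apply, Pi.sub_apply,
          Finsupp.single_eq_same]
        have := hw.2
        omega
      · simp [Finsupp.single_eq_of_ne hj]
    have h3 := congrArg Finsupp.degree h2
    rw [map_add, Finsupp.degree_single, hw.1] at h3
    omega
  · intro u hu
    rw [mem_prD] at hu
    rw [Finset.mem_filter, mem_prD, map_add, Finsupp.degree_single, hu]
    simp
  · intro w hw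
    rw [Finset.mem_filter, mem_prD] at hw
    ext j
    by_cases hj : j = l
    · subst hj
      simp only [Finsupp.coe_add, Finsupp.coe_tsub, Pi.add_apply, Pi.sub_apply,
        Finsupp.single_eq_same]
      have := hw.2
      omega
    · simp [Finsupp.single_eq_of_ne hj]
  · intro u _
    simp
  · intro w hw
    rw [Finset.mem_filter, mem_prD] at hw
    congr 2
    simp only [Finsupp.coe_tsub, Pi.sub_apply, Finsupp.single_eq_same]
    have := hw.2
    omega

theorem pr_degree (u : Fin d →₀ ℕ) (x : ℕ∞) : ∑ l, (u l : ℕ∞) * x = (u.degree : ℕ∞) * x := by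
  rw [← Finset.sum_mul, Finsupp.degree_eq_sum]
  push_cast
  rfl

theorem pr_right (g : (Fin d →₀ ℕ) → ℕ∞) (i : ℕ) :
    ∑ u ∈ prD d i, ∑ l, ((u l + 1 : ℕ) : ℕ∞) * g u = ((i + d : ℕ) : ℕ∞) * ∑ u ∈ prD d i, g u := by
  rw [Finset.mul_sum]
  refine Finset.sum_congr rfl fun u hu => ?_
  rw [mem_prD] at hu
  have : ∑ l, ((u l + 1 : ℕ) : ℕ∞) * g u = ∑ l, (u l : ℕ∞) * g u + ∑ _l : Fin d, g u := by
    rw [← Finset.sum_add_distrib]
    refine Finset.sum_congr rfl fun l _ => ?_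
    push_cast
    ring
  rw [this, pr_degree, hu]
  simp only [Finset.sum_const, Finset.card_univ, Fintype.card_fin, nsmul_eq_mul]
  push_cast
  ring

theorem pr_step (g : (Fin d →₀ ℕ) → ℕ∞) (hg : ∀ u w, u ≤ w → g w ≤ g u) (i : ℕ) :
    ((i + 1 : ℕ) : ℕ∞) * ∑ u ∈ prD d (i + 1), g u ≤ ((i + d : ℕ) : ℕ∞) * ∑ u ∈ prD d i, g u := by
  rw [← pr_right, ← pr_shift, Finset.mul_sum]
  refine Finset.sum_le_sum fun w hw => ?_
  rw [mem_prD] at hw
  rw [← hw, ← pr_degree]
  refine Finset.sum_le_sum fun l _ => ?_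
  exact mul_le_mul_right (hg _ _ tsub_le_self) _

theorem pr_step_card (i : ℕ) :
    ((i + 1 : ℕ) : ℕ∞) * (#(prD d (i + 1)) : ℕ∞) = ((i + d : ℕ) : ℕ∞) * (#(prD d i) : ℕ∞) := by
  have h1 := pr_right (d := d) (fun _ => 1) i
  have h2 := pr_shift (d := d) (fun _ => 1) i
  rw [h1] at h2
  simp only [pr_degree] at h2
  rw [Finset.sum_congr rfl (g := fun _ => ((i + 1 : ℕ) : ℕ∞) * 1)
    (fun w hw => by rw [mem_prD] at hw; rw [hw])] at h2
  simp only [Finset.sum_const, nsmul_eq_mul, mul_one] at h2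
  rw [← h2, mul_comm]

theorem pr_cancel (n : ℕ) {a b : ℕ∞} (h : ((n + 1 : ℕ) : ℕ∞) * a ≤ ((n + 1 : ℕ) : ℕ∞) * b) :
    a ≤ b :=
  (ENat.mul_le_mul_left_iff (by exact_mod_cast Nat.succ_ne_zero n) (ENat.natCast_ne_top _)).mp h

theorem pr_chain (g : (Fin d →₀ ℕ) → ℕ∞) (hg : ∀ u w, u ≤ w → g w ≤ g u) (i k : ℕ) :
    (∑ u ∈ prD d (i + k), g u) * (#(prD d i) : ℕ∞) ≤
      (∑ u ∈ prD d i, g u) * (#(prD d (i + k)) : ℕ∞) := by
  induction k with
  | zero => exact le_rfl
  | succ k ih =>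
    apply pr_cancel (i + k)
    calc ((i + k + 1 : ℕ) : ℕ∞) * ((∑ u ∈ prD d (i + (k + 1)), g u) * (#(prD d i) : ℕ∞))
        = (((i + k + 1 : ℕ) : ℕ∞) * ∑ u ∈ prD d (i + k + 1), g u) * (#(prD d i) : ℕ∞) := by
          rw [mul_assoc]; rfl
      _ ≤ (((i + k + d : ℕ) : ℕ∞) * ∑ u ∈ prD d (i + k), g u) * (#(prD d i) : ℕ∞) :=
          mul_le_mul_left (pr_step g hg (i + k)) _
      _ = ((i + k + d : ℕ) : ℕ∞) * ((∑ u ∈ prD d (i + k), g u) * (#(prD d i) : ℕ∞)) := by
          rw [mul_assoc]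
      _ ≤ ((i + k + d : ℕ) : ℕ∞) * ((∑ u ∈ prD d i, g u) * (#(prD d (i + k)) : ℕ∞)) :=
          mul_le_mul_right ih _
      _ = (∑ u ∈ prD d i, g u) * (((i + k + d : ℕ) : ℕ∞) * (#(prD d (i + k)) : ℕ∞)) := by ring
      _ = (∑ u ∈ prD d i, g u) * (((i + k + 1 : ℕ) : ℕ∞) * (#(prD d (i + k + 1)) : ℕ∞)) := by
          rw [pr_step_card]
      _ = ((i + k + 1 : ℕ) : ℕ∞) *
          ((∑ u ∈ prD d i, g u) * (#(prD d (i + (k + 1))) : ℕ∞)) := by
          rw [show i + (k + 1) = i + k + 1 from rfl]; ring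

theorem pr_sum_tri (g : (Fin d →₀ ℕ) → ℕ∞) (N : ℕ) :
    ∑ u ∈ tri (Fin d) N, g u = ∑ i ∈ Finset.range N, ∑ u ∈ prD d i, g u := by
  classical
  induction N with
  | zero =>
    have : tri (Fin d) 0 = ∅ := by ext u; simp [mem_tri]
    rw [this]; simp
  | succ N ih =>
    have h1 : tri (Fin d) (N + 1) = tri (Fin d) N ∪ prD d N := by
      ext u
      rw [mem_tri, Finset.mem_union, mem_tri, mem_prD]
      omega
    have h2 : Disjoint (tri (Fin d) N) (prD d N) := by
      rw [Finset.disjoint_left]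
      intro u hu hu'
      rw [mem_tri] at hu
      rw [mem_prD] at hu'
      omega
    rw [h1, Finset.sum_union h2, ih, Finset.sum_range_succ]

theorem pr_avg (g : (Fin d →₀ ℕ) → ℕ∞) (hg : ∀ u w, u ≤ w → g w ≤ g u) {j N : ℕ} (hjN : j ≤ N) :
    (∑ u ∈ tri (Fin d) N, g u) * (tc d j : ℕ∞) ≤ (∑ u ∈ tri (Fin d) j, g u) * (tc d N : ℕ∞) := by
  have hc : ∀ n : ℕ, (tc d n : ℕ∞) = ∑ i ∈ Finset.range n, (#(prD d i) : ℕ∞) := by
    intro n
    have := pr_sum_tri (d := d) (fun _ => 1) n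
    simpa using this
  rw [pr_sum_tri, pr_sum_tri, hc, hc]
  obtain ⟨m, rfl⟩ := Nat.exists_eq_add_of_le hjN
  clear hjN
  induction m with
  | zero => exact le_rfl
  | succ m ih =>
    rw [← Nat.add_assoc, Finset.sum_range_succ, Finset.sum_range_succ, add_mul, mul_add]
    refine add_le_add ih ?_
    rw [Finset.mul_sum, Finset.sum_mul]
    refine Finset.sum_le_sum fun i hi => ?_
    rw [Finset.mem_range] at hi
    have := pr_chain g hg i (j + m - i)
    rwa [Nat.add_sub_cancel' (by omega)] at this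

/-- D1: lengths of powers of an ideal with `d` generators. -/
theorem pow_ratio {S : Type*} [CommRing S] {d : ℕ} (y : Fin d → S) {j N : ℕ} (hj : 0 < j)
    (hjN : j ≤ N) :
    ell (Ideal.span (Set.range y) ^ N) * (tc d j : ℕ∞) ≤
      ell (Ideal.span (Set.range y) ^ j) * (tc d N : ℕ∞) := by
  rw [ell_pow_eq, ell_pow_eq]
  exact pr_avg _ (fun u w huw => gp_antitone y huw) hjN

end Vale.Agent.P202.CZ
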