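import Mathlib

/-!
D4, D5: the rank of a finite module does not drop under base change to a domain, a local
criterion, and comparison of lengths over two local rings with the same residue field.
-/

set_option linter.unusedVariables false

namespace Vale.Agent.P202.CZ

open IsLocalRing TensorProduct

/-- D5: a local criterion. -/
theorem local_of_pow_le {A R : Type*} [CommRing A] [IsLocalRing A] [CommRing R] [Algebra A R]
    [Module.Finite A R] (m : Ideal R) [m.IsMaximal] (M : ℕ)
    (hM : m ^ M ≤ (maximalIdeal A).map (algebraMap A R)) :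
    ∃ _ : IsLocalRing R, maximalIdeal R = m := by
  have key : ∀ P : Ideal R, P.IsMaximal → P = m := by
    intro P hP
    have h1 : (P.comap (algebraMap A R)).IsMaximal :=
      Ideal.isMaximal_comap_of_isIntegral_of_isMaximal P
    have h2 : P.comap (algebraMap A R) = maximalIdeal A := IsLocalRing.eq_maximalIdeal h1
    have h3 : (maximalIdeal A).map (algebraMap A R) ≤ P := by
      rw [Ideal.map_le_iff_le_comap, h2]
    have h4 : m ≤ P := Ideal.IsPrime.le_of_pow_le (hM.trans h3)
    exact (Ideal.IsMaximal.eq_of_le ‹m.IsMaximal› hP.ne_top h4).symm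
  have hloc : IsLocalRing R := IsLocalRing.of_unique_max_ideal ⟨m, ‹_›, key⟩
  exact ⟨hloc, key _ (maximalIdeal.isMaximal R)⟩

theorem simple_of_residue {A R : Type*} [CommRing A] [CommRing R]
    [IsLocalRing R] [Algebra A R] (hres : ∀ z : R, ∃ a : A, z - algebraMap A R a ∈ maximalIdeal R)
    {P : Type*} [AddCommGroup P] [Module A P] [Module R P] [IsScalarTower A R P]
    [IsSimpleModule R P] : IsSimpleModule A P := by
  rw [isSimpleModule_iff_toSpanSingleton_surjective]
  obtain ⟨h1, h2⟩ := (isSimpleModule_iff_toSpanSingleton_surjective (R := R) (M := P)).1 ‹_›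
  refine ⟨h1, fun x hx y => ?_⟩
  obtain ⟨z, hz⟩ := h2 x hx y
  obtain ⟨a, ha⟩ := hres z
  have hkill : ∀ c ∈ maximalIdeal R, c • x = 0 := by
    intro c hc
    by_contra hne
    obtain ⟨u, hu⟩ := h2 _ hne x
    have h3 : (1 - u * c) • x = 0 := by
      rw [sub_smul, one_smul, mul_smul]
      exact sub_eq_zero.2 hu.symm
    have h4 : IsUnit (1 - u * c) := by
      by_contra h5
      have h6 : (1 - u * c) + u * c ∈ maximalIdeal R :=
        add_mem ((mem_maximalIdeal _).2 h5) (Ideal.mul_mem_left _ _ hc)
      rw [sub_add_cancel] at h6
      exact (maximalIdeal.isMaximal R).ne_top ((Ideal.eq_top_iff_one _).2 h6)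
    obtain ⟨v, hv⟩ := h4
    apply hx
    have h7 : (↑v⁻¹ : R) • ((1 - u * c) • x) = x := by
      rw [← hv, smul_smul, Units.inv_mul, one_smul]
    rw [← h7, h3, smul_zero]
  refine ⟨a, ?_⟩
  have h8 := hkill _ ha
  rw [sub_smul, algebraMap_smul, sub_eq_zero] at h8
  rw [LinearMap.toSpanSingleton_apply, ← h8]
  exact hz

/-- D5b: comparison of lengths over two local rings with the same residue field. -/
theorem length_le_of_residue {A R : Type*} [CommRing A] [IsLocalRing A] [CommRing R]
    [IsLocalRing R] [Algebra A R] (hres : ∀ z : R, ∃ a : A, z - algebraMap A R a ∈ maximalIdeal R)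
    (hloc : (maximalIdeal A).map (algebraMap A R) ≤ maximalIdeal R)
    {M : Type*} [AddCommGroup M] [Module A M] [Module R M] [IsScalarTower A R M] :
    Module.length A M ≤ Module.length R M := by
  by_cases htop : Module.length R M = ⊤
  · rw [htop]; exact le_top
  obtain ⟨n, hn⟩ := ENat.ne_top_iff_exists.1 htop
  induction n generalizing M with
  | zero =>
    have : Subsingleton M := Module.length_eq_zero_iff.1 hn.symm
    rw [Module.length_eq_zero]
    exact zero_le
  | succ n ih =>
    have h1 := Module.length_ne_top_iff.1 htop
    cases h1 with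
    | of_subsingleton => 
      rw [Module.length_eq_zero]
      exact zero_le
    | of_simple_quotient h2 =>
      rename_i N hN
      have h3 := Module.length_eq_add_of_exact N.subtype N.mkQ N.injective_subtype
        N.mkQ_surjective (LinearMap.exact_subtype_mkQ N)
      have h4 := Module.length_eq_add_of_exact (N.subtype.restrictScalars A)
        (N.mkQ.restrictScalars A) N.injective_subtype
        N.mkQ_surjective (LinearMap.exact_subtype_mkQ N)
      have h5 : Module.length R (M ⧸ N) = 1 := Module.length_eq_one R _
      have h6 : IsSimpleModule A (M ⧸ N) := simple_of_residue hres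
      have h7 : Module.length A (M ⧸ N) = 1 := Module.length_eq_one A _
      rw [h3, h4, h5, h7]
      rw [h3, h5] at hn
      gcongr
      have h8 := Module.length_ne_top_iff.2 h2
      refine ih h8 ?_
      obtain ⟨l, hl⟩ := ENat.ne_top_iff_exists.1 h8
      rw [← hl] at hn ⊢
      have h9 : n + 1 = l + 1 := by exact_mod_cast hn
      rw [Nat.succ.inj h9]

/-- if `K ⊗ P = 0` for a field `K`, then `P` is killed by an element not zero in `K` -/
theorem exists_annihilator {B K P : Type*} [CommRing B] [Field K] [Algebra B K] [AddCommGroup P]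
    [Module B P] [Module.Finite B P] (h : Subsingleton (K ⊗[B] P)) :
    ∃ b ∈ Module.annihilator B P, algebraMap B K b ≠ 0 := by
  by_contra hcon
  push Not at hcon
  let Q : Ideal B := RingHom.ker (algebraMap B K)
  have hQ : Q.IsPrime := RingHom.ker_isPrime _
  let q : PrimeSpectrum B := ⟨Q, hQ⟩
  have h1 : q ∈ Module.support B P := Module.mem_support_iff_of_finite.2 fun b hb => hcon b hb
  have h2 := (Module.mem_support_iff_nontrivial_residueField_tensorProduct q).1 h1
  let f : q.asIdeal.ResidueField →+* K := Ideal.ResidueField.lift q.asIdeal (algebraMap B K) le_rfl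
    (fun x hx => (Ne.isUnit (fun h0 => hx h0) : IsUnit (algebraMap B K x)))
  let := f.toAlgebra
  have hst : IsScalarTower B q.asIdeal.ResidueField K := IsScalarTower.of_algebraMap_eq fun b =>
    (Ideal.ResidueField.lift_algebraMap _ _ _ _ b).symm
  have e := (AlgebraTensorModule.cancelBaseChange B q.asIdeal.ResidueField K K P)
  have h3 : Nontrivial (K ⊗[q.asIdeal.ResidueField] (q.asIdeal.ResidueField ⊗[B] P)) :=
    inferInstance
  have h4 := e.toEquiv.subsingleton
  exact not_subsingleton _ h4

/-- D4: the rank of a finite module does not drop under base change to a domain. -/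
theorem rank_base_change {B L M : Type*} [CommRing B] [IsDomain B] [CommRing L] [IsDomain L]
    [Algebra B L] [AddCommGroup M] [Module B M] [Module.Finite B M] {r : ℕ} (e : Fin r → M)
    (he : LinearIndependent B e) :
    ∃ e' : Fin r → TensorProduct B L M, LinearIndependent L e' := by
  classical
  let K := FractionRing L
  obtain ⟨s, hs⟩ := Module.Finite.fg_top (R := B) (M := M)
  -- a basis of `K ⊗ M` from the generators
  obtain ⟨κ, a, ha, hsp, hli⟩ := exists_linearIndependent' K
    (fun m : s => (1 : K) ⊗ₜ[B] (m : M))
  have hκ : Finite κ := Finite.of_injective a ha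
  let := Fintype.ofFinite κ
  let N : Submodule B M := Submodule.span B (Set.range fun i => (a i : M))
  have htop : Submodule.span K (Set.range fun m : s => (1 : K) ⊗ₜ[B] (m : M)) = ⊤ := by
    rw [eq_top_iff]
    rintro x -
    induction x using TensorProduct.induction_on with
    | zero => exact zero_mem _
    | add x y hx hy => exact add_mem hx hy
    | tmul c m =>
      have hm : m ∈ Submodule.span B (s : Set M) := by rw [hs]; trivial
      induction hm using Submodule.span_induction with
      | mem m hm =>
        have : c ⊗ₜ[B] m = c • ((1 : K) ⊗ₜ[B] m) := by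
          rw [TensorProduct.smul_tmul', smul_eq_mul, mul_one]
        rw [this]
        exact Submodule.smul_mem _ _ (Submodule.subset_span ⟨⟨m, hm⟩, rfl⟩)
      | zero => rw [TensorProduct.tmul_zero]; exact zero_mem _
      | add x y _ _ hx hy => rw [TensorProduct.tmul_add]; exact add_mem hx hy
      | smul b x _ hx =>
        rw [TensorProduct.tmul_smul, ← algebraMap_smul K b]
        exact Submodule.smul_mem _ _ hx
  have hsub : Subsingleton (K ⊗[B] (M ⧸ N)) := by
    have h1 : ∀ y : K ⊗[B] M, (N.mkQ.baseChange K) y = 0 := by
      intro y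
      have hy : y ∈ Submodule.span K (Set.range ((fun m : s => (1 : K) ⊗ₜ[B] (m : M)) ∘ a)) := by
        rw [hsp, htop]; trivial
      induction hy using Submodule.span_induction with
      | mem y hy =>
        obtain ⟨i, rfl⟩ := hy
        simp only [Function.comp_apply, LinearMap.baseChange_tmul, Submodule.mkQ_apply]
        have h2 : (Submodule.Quotient.mk (a i : M) : M ⧸ N) = 0 :=
          (Submodule.Quotient.mk_eq_zero N).2 (Submodule.subset_span ⟨i, rfl⟩)
        rw [h2, TensorProduct.tmul_zero]
      | zero => exact map_zero _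
      | add x y _ _ hx hy => rw [map_add, hx, hy, add_zero]
      | smul c x _ hx => rw [map_smul, hx, smul_zero]
    refine ⟨fun x y => ?_⟩
    have h3 : Function.Surjective (N.mkQ.baseChange K) :=
      LinearMap.lTensor_surjective K N.mkQ_surjective
    obtain ⟨x', rfl⟩ := h3 x
    obtain ⟨y', rfl⟩ := h3 y
    rw [h1, h1]
  obtain ⟨b, hb, hbK⟩ := exists_annihilator hsub
  have hb0 : b ≠ 0 := fun h => hbK (by rw [h, map_zero])
  have hbN : ∀ m : M, b • m ∈ N := by
    intro m
    rw [← Submodule.Quotient.mk_eq_zero N, Submodule.Quotient.mk_smul]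
    exact Module.mem_annihilator.1 hb _
  -- counting
  have hcard : r ≤ Fintype.card κ := by
    have h1 : LinearIndependent B (fun i => b • e i) := by
      rw [Fintype.linearIndependent_iff] at he ⊢
      intro g hg i
      have h2 := he (fun i => g i * b) (by simpa only [mul_smul] using hg) i
      exact (mul_eq_zero.1 h2).resolve_right hb0
    have h2 := linearIndependent_le_span_aux' (fun i => b • e i) h1
      (Set.range fun i => (a i : M)) (by
        rintro _ ⟨i, rfl⟩
        exact hbN (e i))
    rw [Fintype.card_fin] at h2
    exact h2.trans (Fintype.card_range_le _)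
  have hL : LinearIndependent L (fun i : κ => (1 : L) ⊗ₜ[B] (a i : M)) := by
    have h1 : LinearIndependent L (fun i : κ => (1 : K) ⊗ₜ[B] (a i : M)) := by
      refine LinearIndependent.restrict_scalars ?_ hli
      intro x y hxy
      simp only [Algebra.smul_def, mul_one] at hxy
      exact FaithfulSMul.algebraMap_injective L K hxy
    let φ : L ⊗[B] M →ₗ[L] K ⊗[B] M := AlgebraTensorModule.map (Algebra.linearMap L K)
      (LinearMap.id : M →ₗ[B] M)
    refine LinearIndependent.of_comp φ ?_
    convert h1 using 2 with i
    simp [φ]
  have e' : Fin r ↪ κ := (Function.Embedding.nonempty_of_card_le (by simpa using hcard)).some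
  exact ⟨_, hL.comp e' e'.injective⟩

end Vale.Agent.P202.CZ
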