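import Vale.Agent.P202.CharZero.CZDefs
import Vale.Agent.P202.CharZero.GrowthPS
import Vale.Agent.P202.CharZero.RankBC
import Vale.Agent.P202.CharZero.MM

/-!
Finite algebras over a power series ring: local structure and lengths.
-/

namespace Vale.Agent.P202.CZ

open MvPowerSeries IsLocalRing

universe u

variable {k : Type*} [Field k] {d : ℕ}

lemma sub_C_mem_mm (f : MvPowerSeries (Fin d) k) : f - C (constantCoeff f) ∈ mm (Fin d) k := by
  rw [mem_mm_iff, map_sub, constantCoeff_C, sub_self]

lemma maximalIdeal_mvPowerSeries :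
    maximalIdeal (MvPowerSeries (Fin d) k) = mm (Fin d) k := by
  ext f
  rw [mem_maximalIdeal, mem_nonunits_iff, mem_mm_iff, MvPowerSeries.isUnit_iff_constantCoeff,
    isUnit_iff_ne_zero, not_not]

/-- polynomials are dense. -/
lemma exists_mem_subring_sub_mem (A : Subring (MvPowerSeries (Fin d) k)) (hC : ∀ a, C a ∈ A)
    (hX : ∀ i, X i ∈ A) (N : ℕ) : ∀ f : MvPowerSeries (Fin d) k, ∃ g ∈ A,
      f - g ∈ mm (Fin d) k ^ N := by
  induction N with
  | zero =>
    intro f
    exact ⟨0, A.zero_mem, by simp⟩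
  | succ N ih =>
    intro f
    have h1 := sub_C_mem_mm f
    rw [mm, Ideal.mem_span_range_iff_exists_fun] at h1
    obtain ⟨q, hq⟩ := h1
    choose g hg hqg using fun i => ih (q i)
    refine ⟨C (constantCoeff f) + ∑ i, g i * X i, A.add_mem (hC _)
      (A.sum_mem fun i _ => A.mul_mem (hg i) (hX i)), ?_⟩
    have h2 : f - (C (constantCoeff f) + ∑ i, g i * X i) = ∑ i, (q i - g i) * X i := by
      rw [← sub_sub, ← hq, ← Finset.sum_sub_distrib]
      exact Finset.sum_congr rfl fun i _ => by ring
    rw [h2, pow_succ]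
    exact Ideal.sum_mem _ fun i _ => Ideal.mul_mem_mul (hqg i) (Ideal.subset_span ⟨i, rfl⟩)

section Local

variable {R : Type*} [CommRing R] [Algebra (MvPowerSeries (Fin d) k) R]

lemma algebraMap_mem_of_mem_mm {m : Ideal R}
    (hX : ∀ i, algebraMap (MvPowerSeries (Fin d) k) R (X i) ∈ m) {f : MvPowerSeries (Fin d) k}
    (hf : f ∈ mm (Fin d) k) : algebraMap (MvPowerSeries (Fin d) k) R f ∈ m := by
  have h : mm (Fin d) k ≤ m.comap (algebraMap (MvPowerSeries (Fin d) k) R) := by
    rw [mm, Ideal.span_le]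
    rintro _ ⟨i, rfl⟩
    exact hX i
  exact h hf

lemma map_mm_pow (N : ℕ) : (mm (Fin d) k ^ N).map (algebraMap (MvPowerSeries (Fin d) k) R) =
    Ideal.span (Set.range fun i => algebraMap (MvPowerSeries (Fin d) k) R (X i)) ^ N := by
  rw [Ideal.map_pow, mm, Ideal.map_span, ← Set.range_comp]
  rfl

/-- the ideal `m` is the maximal ideal of the local ring `R`. -/
theorem local_of_data [Module.Finite (MvPowerSeries (Fin d) k) R] (m : Ideal R) (ε : R →+* k)
    (hε : ∀ f, ε (algebraMap (MvPowerSeries (Fin d) k) R f) = constantCoeff f)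
    (hεm : ∀ z ∈ m, ε z = 0)
    (hm : ∀ z : R, ∃ f : MvPowerSeries (Fin d) k, z - algebraMap _ R f ∈ m)
    (hX : ∀ i, algebraMap (MvPowerSeries (Fin d) k) R (X i) ∈ m) {M : ℕ}
    (hM : m ^ M ≤
      Ideal.span (Set.range fun i => algebraMap (MvPowerSeries (Fin d) k) R (X i))) :
    m = RingHom.ker ε ∧ ∃ _ : IsLocalRing R, maximalIdeal R = m := by
  have hker : m = RingHom.ker ε := by
    refine le_antisymm (fun z hz => hεm z hz) ?_
    intro z hz
    rw [RingHom.mem_ker] at hz
    obtain ⟨f, hf⟩ := hm z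
    have h1 := hεm _ hf
    rw [map_sub, hz, hε, zero_sub, neg_eq_zero] at h1
    have h2 := algebraMap_mem_of_mem_mm hX (mem_mm_iff.mpr h1)
    have := m.add_mem hf h2
    rwa [sub_add_cancel] at this
  refine ⟨hker, ?_⟩
  have hsurj : Function.Surjective ε := fun a => ⟨algebraMap _ R (C a), by
    rw [hε, constantCoeff_C]⟩
  have hmax : m.IsMaximal := by
    rw [hker]
    exact RingHom.ker_isMaximal_of_surjective ε hsurj
  refine local_of_pow_le (A := MvPowerSeries (Fin d) k) m M ?_
  rw [maximalIdeal_mvPowerSeries, ← pow_one (mm (Fin d) k), map_mm_pow, pow_one]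
  exact hM

end Local

section Dim

/-- Krull's height theorem. -/
theorem exists_dim_le {R : Type*} [CommRing R] [IsLocalRing R] [IsNoetherianRing R] {d M : ℕ}
    (x : Fin d → R) (hx : ∀ i, x i ∈ maximalIdeal R)
    (hM : maximalIdeal R ^ M ≤ Ideal.span (Set.range x)) :
    ∃ d' : ℕ, ringKrullDim R = d' ∧ d' ≤ d := by
  have hmin : maximalIdeal R ∈ (Ideal.span (Set.range x)).minimalPrimes := by
    refine ⟨⟨inferInstance, ?_⟩, ?_⟩
    · rw [Ideal.span_le]
      rintro _ ⟨i, rfl⟩
      exact hx i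
    · rintro P ⟨hP, hIP⟩ _
      exact hP.le_of_pow_le (hM.trans hIP)
  have h1 := Ideal.height_le_card_of_mem_minimalPrimes_span (Set.finite_range x) hmin
  have h2 : (Set.range x).ncard ≤ d := by
    rw [← Set.image_univ]
    refine (Set.ncard_image_le (Set.toFinite _)).trans ?_
    simp
  have h3 : (maximalIdeal R).height ≤ (d : ℕ∞) := h1.trans (by exact_mod_cast h2)
  have h4 : (maximalIdeal R).height ≠ ⊤ := ne_top_of_le_ne_top (ENat.natCast_ne_top d) h3
  obtain ⟨d', hd'⟩ := ENat.ne_top_iff_exists.mp h4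
  refine ⟨d', ?_, ?_⟩
  · rw [← IsLocalRing.maximalIdeal_height_eq_ringKrullDim, ← hd']
    rfl
  · rw [← hd'] at h3
    exact_mod_cast h3

end Dim

section Lower

variable {R : Type*} [CommRing R] [IsLocalRing R] [Algebra (MvPowerSeries (Fin d) k) R]
  [Module.Finite (MvPowerSeries (Fin d) k) R]

omit [IsLocalRing R] [Algebra (MvPowerSeries (Fin d) k) R]
  [Module.Finite (MvPowerSeries (Fin d) k) R] in
lemma pow_add_le (I m : Ideal R) {s : ℕ} (h : m ^ (s + 1) ≤ I * m ^ s) (N : ℕ) :
    m ^ (N + s) ≤ I ^ N := by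
  have h1 : m ^ (N + s) ≤ I ^ N * m ^ s := by
    induction N with
    | zero => simp
    | succ N ih =>
      calc m ^ (N + 1 + s) = m * m ^ (N + s) := by rw [← pow_succ']; congr 1; omega
        _ ≤ m * (I ^ N * m ^ s) := Ideal.mul_mono le_rfl ih
        _ = I ^ N * m ^ (s + 1) := by ring
        _ ≤ I ^ N * (I * m ^ s) := Ideal.mul_mono le_rfl h
        _ = I ^ (N + 1) * m ^ s := by ring
  exact h1.trans Ideal.mul_le_left

theorem lower_of_data {r s : ℕ}
    (hres : ∀ z : R, ∃ f : MvPowerSeries (Fin d) k, z - algebraMap _ R f ∈ maximalIdeal R)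
    (hX : ∀ i, algebraMap (MvPowerSeries (Fin d) k) R (X i) ∈ maximalIdeal R)
    (hs : maximalIdeal R ^ (s + 1) ≤
      Ideal.span (Set.range fun i => algebraMap (MvPowerSeries (Fin d) k) R (X i)) *
        maximalIdeal R ^ s)
    (e : Fin r → R) (he : LinearIndependent (MvPowerSeries (Fin d) k) e) :
    ∃ a, ∀ N, (r : ℕ∞) * (tc d N : ℕ∞) ≤ ell (maximalIdeal R ^ (N + a)) := by
  obtain ⟨a, ha⟩ := lower_growth e he
  refine ⟨a + s, fun N => (ha N).trans ?_⟩
  have hloc : (maximalIdeal (MvPowerSeries (Fin d) k)).map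
      (algebraMap (MvPowerSeries (Fin d) k) R) ≤ maximalIdeal R := by
    rw [maximalIdeal_mvPowerSeries, ← pow_one (mm (Fin d) k), map_mm_pow, pow_one, Ideal.span_le]
    rintro _ ⟨i, rfl⟩
    exact hX i
  have h1 : (maximalIdeal R ^ (N + (a + s))).restrictScalars (MvPowerSeries (Fin d) k) ≤
      (mm (Fin d) k ^ (N + a) • (⊤ : Submodule (MvPowerSeries (Fin d) k) R)) := by
    rw [Ideal.smul_top_eq_map, map_mm_pow]
    intro z hz
    have h2 := pow_add_le _ _ hs (N + a)
    rw [add_assoc] at h2
    exact h2 hz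
  have h2 := Module.length_le_of_surjective (Submodule.factor h1) (Submodule.factor_surjective h1)
  refine h2.trans ?_
  rw [(Submodule.Quotient.restrictScalarsEquiv (MvPowerSeries (Fin d) k)
    (maximalIdeal R ^ (N + (a + s)))).length_eq]
  exact length_le_of_residue hres hloc

end Lower

section Upper

variable {S : Type*} [CommRing S] [Algebra (MvPowerSeries (Fin d) k) S]

theorem upper_of_data (I : Ideal S) {l c : ℕ} (b : Fin l → S)
    (hc : Ideal.span (Set.range fun i => algebraMap (MvPowerSeries (Fin d) k) S (X i)) ^ c ≤ I)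
    (hb1 : ∀ z : S, ∃ β : Fin l → MvPowerSeries (Fin d) k,
      z - ∑ q, algebraMap _ S (β q) * b q ∈ I)
    (hb2 : ∀ i q, ∃ a : Fin l → k,
      algebraMap (MvPowerSeries (Fin d) k) S (X i) * b q -
        ∑ q', algebraMap (MvPowerSeries (Fin d) k) S (C (a q')) * b q' ∈ I) :
    ell I ≤ (l : ℕ∞) := by
  let _ : Algebra k S := ((algebraMap (MvPowerSeries (Fin d) k) S).comp C).toAlgebra
  have hsm : ∀ (a : k) (z : S), a • z = algebraMap (MvPowerSeries (Fin d) k) S (C a) * z :=
    fun a z => rfl
  let V : Submodule k S := Submodule.span k (Set.range b) ⊔ I.restrictScalars k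
  have hIV : ∀ z ∈ I, z ∈ V := fun z hz => Submodule.mem_sup_right hz
  have hbV : ∀ q, b q ∈ V := fun q => Submodule.mem_sup_left (Submodule.subset_span ⟨q, rfl⟩)
  let A : Subring (MvPowerSeries (Fin d) k) :=
    { carrier := {f | ∀ v ∈ V, algebraMap (MvPowerSeries (Fin d) k) S f * v ∈ V}
      mul_mem' := by
        intro f g hf hg v hv
        rw [map_mul, mul_assoc]
        exact hf _ (hg _ hv)
      one_mem' := by
        intro v hv
        rwa [map_one, one_mul]
      add_mem' := by
        intro f g hf hg v hv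
        rw [map_add, add_mul]
        exact V.add_mem (hf _ hv) (hg _ hv)
      zero_mem' := by
        intro v hv
        rw [map_zero, zero_mul]
        exact V.zero_mem
      neg_mem' := by
        intro f hf v hv
        rw [map_neg, neg_mul]
        exact V.neg_mem (hf _ hv) }
  have hC : ∀ a, C a ∈ A := fun a v hv => V.smul_mem a hv
  have hX : ∀ i, X i ∈ A := by
    intro i v hv
    obtain ⟨v, hv', w, hw, rfl⟩ := Submodule.mem_sup.mp hv
    clear hv
    rw [mul_add]
    refine V.add_mem ?_ (hIV _ (Ideal.mul_mem_left _ _ hw))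
    induction hv' using Submodule.span_induction with
    | mem z hz =>
      obtain ⟨q, rfl⟩ := hz
      obtain ⟨a, ha⟩ := hb2 i q
      have h1 := V.add_mem (hIV _ ha)
        (V.sum_mem fun q' (_ : q' ∈ Finset.univ) => V.smul_mem (a q') (hbV q'))
      simp only [hsm, sub_add_cancel] at h1
      exact h1
    | zero => rw [mul_zero]; exact V.zero_mem
    | add z z' _ _ h h' => rw [mul_add]; exact V.add_mem h h'
    | smul a z _ h =>
      rw [hsm, mul_left_comm]
      exact V.smul_mem a h
  have hA : ∀ f, f ∈ A := by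
    intro f v hv
    obtain ⟨g, hg, hfg⟩ := exists_mem_subring_sub_mem A hC hX c f
    have h1 : algebraMap (MvPowerSeries (Fin d) k) S f * v =
        algebraMap (MvPowerSeries (Fin d) k) S g * v +
          algebraMap (MvPowerSeries (Fin d) k) S (f - g) * v := by
      rw [map_sub]; ring
    rw [h1]
    refine V.add_mem (hg v hv) (hIV _ (Ideal.mul_mem_right _ _ (hc ?_)))
    rw [← map_mm_pow]
    exact Ideal.mem_map_of_mem _ hfg
  have hV : V = ⊤ := by
    rw [eq_top_iff]
    intro z _
    obtain ⟨β, hβ⟩ := hb1 z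
    have h1 := V.add_mem (hIV _ hβ) (V.sum_mem fun q (_ : q ∈ Finset.univ) => hA (β q) _ (hbV q))
    rwa [sub_add_cancel] at h1
  let f : (Fin l → k) →ₗ[k] (S ⧸ I.restrictScalars k) :=
    (I.restrictScalars k).mkQ.comp (Fintype.linearCombination k b)
  have hf : Function.Surjective f := by
    intro z
    obtain ⟨z, rfl⟩ := Submodule.mkQ_surjective _ z
    have hz : z ∈ V := hV ▸ Submodule.mem_top
    obtain ⟨v, hv, w, hw, rfl⟩ := Submodule.mem_sup.mp hz
    rw [← Fintype.range_linearCombination k] at hv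
    obtain ⟨a, rfl⟩ := hv
    refine ⟨a, ?_⟩
    change (I.restrictScalars k).mkQ _ = _
    rw [map_add]
    have h0 : (I.restrictScalars k).mkQ w = 0 := by
      rw [Submodule.mkQ_apply, Submodule.Quotient.mk_eq_zero]
      exact hw
    rw [h0, add_zero]
  have h1 := Module.length_le_of_surjective f hf
  rw [(Submodule.Quotient.restrictScalarsEquiv k I).length_eq, Module.length_eq_finrank k (Fin l → k),
    Module.finrank_fin_fun] at h1
  refine le_trans ?_ h1
  have h2 := Submodule.length_le_length_restrictScalars (R := S) (M := S ⧸ I) k ⊤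
  rwa [Module.length_top, Submodule.restrictScalars_top, Module.length_top] at h2

end Upper

end Vale.Agent.P202.CZ
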