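import Vale.Agent.P202.CharZero.CZDefs
import Vale.Agent.P202.CharZero.PowRatio

/-!
Numerical part of the specialization theorem.
-/

namespace Vale.Agent.P202.CZ

open MvPowerSeries IsLocalRing Filter Topology

universe u

lemma tc_one (d : ℕ) : tc d 1 = 1 := by
  have := card_tri_succ (σ := Fin d) 0
  rw [Nat.multichoose_zero_right] at this
  exact this

lemma ell_pow_le_tc {A : Type u} [CommRing A] {d : ℕ} (w : Fin d → A) {N : ℕ} (hN : 1 ≤ N) :
    ell (Ideal.span (Set.range w) ^ N) ≤ ell (Ideal.span (Set.range w)) * (tc d N : ℕ∞) := by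
  have h := pow_ratio w (j := 1) one_pos hN
  rwa [tc_one, pow_one, Nat.cast_one, mul_one] at h

/-- growth of order `N ^ d` needs dimension at least `d`. -/
lemma le_dim_of_growth {A : Type u} [CommRing A] [IsLocalRing A] [IsNoetherianRing A]
    {d d' r a : ℕ} (hr : 0 < r) (hd' : ringKrullDim A = d')
    (h : ∀ N, (r : ℕ∞) * (tc d N : ℕ∞) ≤ ell (maximalIdeal A ^ (N + a))) : d ≤ d' := by
  by_contra hlt
  push Not at hlt
  obtain ⟨w, hw, s, hs⟩ := exists_parameters hd'
  have hfin : ell (Ideal.span (Set.range w)) ≠ ⊤ := ell_ne_top_of_pow_le hs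
  obtain ⟨C, hC⟩ := ENat.ne_top_iff_exists.mp hfin
  have hle : Ideal.span (Set.range w) ≤ maximalIdeal A := by
    rw [Ideal.span_le]
    rintro _ ⟨i, rfl⟩
    exact hw i
  have h1 : ∀ N, 1 ≤ N → r * tc d N ≤ C * tc d' (N + a) := by
    intro N hN
    have h2 := (h N).trans ((ell_mono (Ideal.pow_right_mono hle (N + a))).trans
      (ell_pow_le_tc w (by omega)))
    rw [← hC] at h2
    exact_mod_cast h2
  set K := d.factorial * C * 2 ^ d' with hK
  set N := a + d' + K + 1 with hN
  have hN1 : 1 ≤ N := by omega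
  have h3 : N ^ d ≤ d.factorial * tc d N := by
    have := pow_le_factorial_mul_card_tri (σ := Fin d) N (by omega)
    rwa [Fintype.card_fin] at this
  have h4 : tc d' (N + a) ≤ (N + a + d') ^ d' := by
    have := factorial_mul_card_tri_le (σ := Fin d') (N + a)
    rw [Fintype.card_fin] at this
    refine le_trans ?_ this
    exact Nat.le_mul_of_pos_left _ (Nat.factorial_pos _)
  have h5 : (N + a + d') ^ d' ≤ 2 ^ d' * N ^ d' := by
    rw [← mul_pow]
    exact Nat.pow_le_pow_left (by omega) _
  have h6 : N ^ d ≤ K * N ^ d' := by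
    calc N ^ d ≤ d.factorial * tc d N := h3
      _ ≤ d.factorial * (r * tc d N) := by
          gcongr
          exact Nat.le_mul_of_pos_left _ hr
      _ ≤ d.factorial * (C * tc d' (N + a)) := Nat.mul_le_mul_left _ (h1 N hN1)
      _ ≤ d.factorial * (C * (2 ^ d' * N ^ d')) := by gcongr; exact h4.trans h5
      _ = K * N ^ d' := by rw [hK]; ring
  have h7 : N * N ^ d' ≤ N ^ d := by
    rw [← pow_succ']
    exact Nat.pow_le_pow_right (by omega) (by omega)
  have h8 : N ≤ K := Nat.le_of_mul_le_mul_right (h7.trans h6) (by positivity)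
  omega

/-- upper bound for a limit. -/
lemma limit_upper' {d q l j : ℕ} (b : ℕ → ℕ)
    (hb : ∀ N, j ≤ N → b N * q ≤ l * tc d N) (e : ℝ)
    (he : Tendsto (fun N : ℕ => (d.factorial : ℝ) * (b N : ℝ) / (N : ℝ) ^ d) atTop (𝓝 e)) :
    e * q ≤ l := by
  have h1 := (tendsto_shift_pow_ratio d d).const_mul (l : ℝ)
  rw [mul_one] at h1
  have h2 := he.mul_const (q : ℝ)
  refine le_of_tendsto_of_tendsto h2 h1 ?_
  filter_upwards [eventually_gt_atTop 0, eventually_ge_atTop j] with n hn hj
  have hnd : (0 : ℝ) < (n : ℝ) ^ d := by positivity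
  rw [div_mul_eq_mul_div, mul_div_assoc']
  refine (div_le_div_iff_of_pos_right hnd).mpr ?_
  have h3 := factorial_mul_card_tri_le (σ := Fin d) n
  rw [Fintype.card_fin] at h3
  have h4 : d.factorial * b n * q ≤ l * (n + d) ^ d := by
    calc d.factorial * b n * q = d.factorial * (b n * q) := by ring
      _ ≤ d.factorial * (l * tc d n) := Nat.mul_le_mul_left _ (hb n hj)
      _ = l * (d.factorial * tc d n) := by ring
      _ ≤ _ := by gcongr
  exact_mod_cast h4

/-- the dimension does not drop along flat local maps. -/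
lemma dim_le_of_flat {R S : Type u} [CommRing R] [IsLocalRing R] [IsNoetherianRing R]
    [CommRing S] [IsLocalRing S] [IsNoetherianRing S] [Algebra R S]
    [IsLocalHom (algebraMap R S)] [Module.Flat R S] {d s : ℕ} (hR : ringKrullDim R = d)
    (hS : ringKrullDim S = s) : d ≤ s := by
  have h1 := Ideal.height_eq_height_add_of_liesOver_of_hasGoingDown (maximalIdeal R)
    (maximalIdeal S)
  have h2 : (maximalIdeal R).height ≤ (maximalIdeal S).height := by
    rw [h1]; exact le_self_add
  rw [← IsLocalRing.maximalIdeal_height_eq_ringKrullDim] at hR hS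
  have h3 : (maximalIdeal R).height = d := by exact_mod_cast hR
  have h4 : (maximalIdeal S).height = s := by exact_mod_cast hS
  rw [h3, h4] at h2
  exact_mod_cast h2

theorem final_ineq (Hp : CharPLech.{u}) {p : ℕ} (hp : p.Prime) {R S : Type u} [CommRing R]
    [IsLocalRing R] [IsNoetherianRing R] [CommRing S] [IsLocalRing S] [IsNoetherianRing S]
    [Algebra R S] [IsLocalHom (algebraMap R S)] [Module.Flat R S] [CharP R p]
    [Finite (ResidueField R)] {d dR dS : ℕ} (hd : 0 < d) (hdR : ringKrullDim R = dR) (hdS : ringKrullDim S = dS)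
    (hdSle : dS ≤ d) {r a j l : ℕ} (hj : 0 < j)
    (hlow : ∀ N, (r : ℕ∞) * (tc d N : ℕ∞) ≤ ell (maximalIdeal R ^ (N + a)))
    (y : Fin d → S) (hy : ∀ i, y i ∈ maximalIdeal S)
    (hl : ell (Ideal.span (Set.range y) ^ j) ≤ (l : ℕ∞)) : r * tc d j ≤ l := by
  rcases Nat.eq_zero_or_pos r with rfl | hr
  · simp
  have h1 : d ≤ dR := le_dim_of_growth hr hdR hlow
  have h2 : dR ≤ dS := dim_le_of_flat (R := R) (S := S) hdR hdS
  obtain rfl : dR = d := by omega
  obtain rfl : dS = dR := by omega
  obtain ⟨eR, heR⟩ := exists_mult (A := R) hd hdR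
  obtain ⟨eS, heS⟩ := exists_mult (A := S) hd hdS
  have h3 : eR ≤ eS := Hp p hp R S _ hd hdR hdS eR eS heR heS
  have h4 : (r : ℝ) ≤ eR := by
    refine limit_lower (c := a) (fun N => (ell (maximalIdeal R ^ N)).toNat) ?_ eR heR
    intro N
    obtain ⟨b, hb⟩ := ENat.ne_top_iff_exists.mp
      (ell_ne_top_of_pow_le (I := maximalIdeal R ^ (N + a)) le_rfl)
    have h5 := hlow N
    rw [← hb] at h5
    simp only [← hb, ENat.toNat_natCast]
    exact_mod_cast h5
  have h5 : (eS : ℝ) * (tc dS j : ℕ) ≤ l := by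
    refine limit_upper' (d := dS) (j := j) (fun N => (ell (maximalIdeal S ^ N)).toNat) ?_ eS heS
    intro N hN
    obtain ⟨b, hb⟩ := ENat.ne_top_iff_exists.mp
      (ell_ne_top_of_pow_le (I := maximalIdeal S ^ N) le_rfl)
    have hle : Ideal.span (Set.range y) ≤ maximalIdeal S := by
      rw [Ideal.span_le]
      rintro _ ⟨i, rfl⟩
      exact hy i
    have h6 : ell (maximalIdeal S ^ N) * (tc dS j : ℕ∞) ≤ (l : ℕ∞) * (tc dS N : ℕ∞) := by
      refine (mul_le_mul_left (ell_mono (Ideal.pow_right_mono hle N)) _).trans ?_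
      refine (pow_ratio y hj hN).trans ?_
      gcongr
    rw [← hb] at h6
    simp only [← hb, ENat.toNat_natCast]
    exact_mod_cast h6
  have h6 : r ≤ eS := by
    have : r ≤ eR := by exact_mod_cast h4
    omega
  have h7 : eS * tc dS j ≤ l := by exact_mod_cast h5
  exact (Nat.mul_le_mul_right _ h6).trans h7

end Vale.Agent.P202.CZ
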