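import Vale.Agent.P202.CharZero.SpecNum
import Vale.Agent.P202.CharZero.SpecData

/-!
The specialization theorem.
-/

namespace Vale.Agent.P202.CZ

open MvPowerSeries IsLocalRing TensorProduct

universe u

/-- Base change of an algebra with a compatible augmentation. -/
theorem exists_base_change {A C L : Type u} {k : Type*} [CommRing A] [CommRing C] [CommRing L]
    [Field k] [Algebra A C] (θ : A →+* L) (ε : L →+* k) (εC : C →+* k)
    (hε : ∀ a, εC (algebraMap A C a) = ε (θ a)) :
    ∃ (C' : Type u) (_ : CommRing C') (_ : Algebra L C') (ρ : C →+* C') (ε' : C' →+* k),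
      (∀ a, ρ (algebraMap A C a) = algebraMap L C' (θ a)) ∧
      (∀ z, z ∈ Submodule.span L (Set.range ρ)) ∧
      (∀ f, ε' (algebraMap L C' f) = ε f) ∧ (∀ z, ε' (ρ z) = εC z) ∧
      (Module.Finite A C → Module.Finite L C') ∧
      (∀ (t : ℕ), Module.Basis (Fin t) A C → Module.Free L C' ∧ Module.Finite L C') ∧
      (∀ (_ : IsDomain A) (_ : IsDomain L) (_ : Module.Finite A C) (r : ℕ) (e : Fin r → C),
        LinearIndependent A e → ∃ e' : Fin r → C', LinearIndependent L e') := by
  let _ : Algebra A L := θ.toAlgebra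
  let _ : Algebra A k := (ε.comp θ).toAlgebra
  let f : L →ₐ[A] k := { ε with commutes' := fun a => rfl }
  let g : C →ₐ[A] k := { εC with commutes' := fun a => hε a }
  refine ⟨L ⊗[A] C, inferInstance, inferInstance,
    (Algebra.TensorProduct.includeRight : C →ₐ[A] L ⊗[A] C).toRingHom,
    (Algebra.TensorProduct.productMap f g).toRingHom, ?_, ?_, ?_, ?_, ?_, ?_, ?_⟩
  · intro a
    change (Algebra.TensorProduct.includeRight : C →ₐ[A] L ⊗[A] C) (algebraMap A C a) = _
    rw [AlgHom.commutes, IsScalarTower.algebraMap_apply A L]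
    rfl
  · intro z
    induction z using TensorProduct.induction_on with
    | zero => exact Submodule.zero_mem _
    | tmul x y =>
      have : x ⊗ₜ[A] y = x • ((1 : L) ⊗ₜ[A] y) := by
        rw [TensorProduct.smul_tmul', smul_eq_mul, mul_one]
      rw [this]
      exact Submodule.smul_mem _ _ (Submodule.subset_span ⟨y, rfl⟩)
    | add x y hx hy => exact Submodule.add_mem _ hx hy
  · intro x
    exact Algebra.TensorProduct.productMap_left_apply f g x
  · intro x
    exact Algebra.TensorProduct.productMap_right_apply f g x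
  · intro h
    infer_instance
  · intro t v
    have h1 := Module.Free.of_basis (Algebra.TensorProduct.basis L v)
    have h2 := Module.Finite.of_basis (Algebra.TensorProduct.basis L v)
    exact ⟨h1, h2⟩
  · intro _ _ _ r e he
    exact rank_base_change e he

/-- D9: specialization.  The rings `E ⊗ k[[x]]` and `S ⊗ k[[x]]` are local, and prime
characteristic gives the inequality. -/
theorem specialize (Hp : CharPLech.{u}) {p : ℕ} (hp : p.Prime) {k : Type u} [Field k] [CharP k p]
    [Finite k] {d : ℕ} (hd : 0 < d) {B : Type u} [CommRing B] [IsDomain B]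
    (x : Fin d → B) (θ : B →+* MvPowerSeries (Fin d) k) (hθ : ∀ i, θ (x i) = X i)
    {E S : Type u} [CommRing E] [CommRing S] [Algebra B E] [Algebra E S] [Module.Finite B E]
    {t : ℕ} (v : Module.Basis (Fin t) E S)
    {r : ℕ} (e : Fin r → E) (he : LinearIndependent B e)
    (J : Ideal E) (hJ : ∀ z : E, ∃ b : B, z - algebraMap B E b ∈ J)
    (hJx : ∀ i, algebraMap B E (x i) ∈ J)
    (εE : E →+* k) (hεE : ∀ b, εE (algebraMap B E b) = constantCoeff (θ b))
    (hεJ : ∀ z ∈ J, εE z = 0)
    {s : ℕ} (hJs : J ^ (s + 1) ≤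
      Ideal.span (Set.range fun i => algebraMap B E (x i)) * J ^ s)
    (n : Ideal S) (hn : ∀ z : S, ∃ b : B, z - algebraMap E S (algebraMap B E b) ∈ n)
    (hJn : J.map (algebraMap E S) ≤ n)
    (εS : S →+* k) (hεS : ∀ z : E, εS (algebraMap E S z) = εE z) (hεn : ∀ z ∈ n, εS z = 0)
    {M : ℕ} (hnM : n ^ M ≤
      Ideal.span (Set.range fun i => algebraMap E S (algebraMap B E (x i))))
    (y : Fin d → S) (hy : ∀ i, y i ∈ n) {j c : ℕ} (hj : 0 < j)
    (hc : Ideal.span (Set.range fun i => algebraMap E S (algebraMap B E (x i))) ^ c ≤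
      Ideal.span (Set.range y) ^ j)
    {l : ℕ} (b : Fin l → S)
    (hb1 : ∀ z : S, ∃ β : Fin l → B,
      z - ∑ q, algebraMap E S (algebraMap B E (β q)) * b q ∈ Ideal.span (Set.range y) ^ j)
    (hb2 : ∀ i q, ∃ β : Fin l → B,
      (∀ q', θ (β q') - C (constantCoeff (θ (β q'))) ∈ mm (Fin d) k ^ c) ∧
      algebraMap E S (algebraMap B E (x i)) * b q -
        ∑ q', algebraMap E S (algebraMap B E (β q')) * b q' ∈ Ideal.span (Set.range y) ^ j) :
    r * tc d j ≤ l := by
  obtain ⟨R', _, _, ρE, εR, hρE, hspanE, hεR1, hεR2, hfinE, -, hrankE⟩ :=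
    exists_base_change θ (constantCoeff (σ := Fin d) (R := k)) εE hεE
  obtain ⟨S', _, _, ρS, εS', hρS, hspanS, hεS1, hεS2, -, hfreeS, -⟩ :=
    exists_base_change ρE εR εS (fun z => by rw [hεS, hεR2])
  have hfinE' := hfinE inferInstance
  obtain ⟨hfree, hfin⟩ := hfreeS t v
  let _ : Algebra (MvPowerSeries (Fin d) k) S' :=
    ((algebraMap R' S').comp (algebraMap (MvPowerSeries (Fin d) k) R')).toAlgebra
  have htower : IsScalarTower (MvPowerSeries (Fin d) k) R' S' :=
    IsScalarTower.of_algebraMap_eq fun _ => rfl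
  have hfinS : Module.Finite (MvPowerSeries (Fin d) k) S' := Module.Finite.trans R' S'
  have hρS' : ∀ β : B, algebraMap (MvPowerSeries (Fin d) k) S' (θ β) =
      ρS (algebraMap E S (algebraMap B E β)) := by
    intro β
    rw [IsScalarTower.algebraMap_apply (MvPowerSeries (Fin d) k) R' S', ← hρE, ← hρS]
  have hXE : ∀ i, algebraMap (MvPowerSeries (Fin d) k) R' (X i) = ρE (algebraMap B E (x i)) := by
    intro i
    rw [hρE, hθ]
  have hXS : ∀ i, algebraMap (MvPowerSeries (Fin d) k) S' (X i) =
      ρS (algebraMap E S (algebraMap B E (x i))) := by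
    intro i
    rw [← hρS', hθ]
  -- the span of `S` over the power series ring
  have hspanLS : ∀ z : S', z ∈ Submodule.span (MvPowerSeries (Fin d) k) (Set.range ρS) := by
    have h1 : ∀ (c : R') (w : S), c • ρS w ∈
        Submodule.span (MvPowerSeries (Fin d) k) (Set.range ρS) := by
      intro c w
      induction hspanE c using Submodule.span_induction with
      | mem c hc =>
        obtain ⟨c, rfl⟩ := hc
        rw [Algebra.smul_def, ← hρS, ← map_mul]
        exact Submodule.subset_span ⟨_, rfl⟩
      | zero => rw [zero_smul]; exact Submodule.zero_mem _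
      | add c c' _ _ h h' => rw [add_smul]; exact Submodule.add_mem _ h h'
      | smul a c _ h => rw [smul_assoc]; exact Submodule.smul_mem _ _ h
    have h2 : ∀ (c : R') (w : S'), w ∈ Submodule.span (MvPowerSeries (Fin d) k) (Set.range ρS) →
        c • w ∈ Submodule.span (MvPowerSeries (Fin d) k) (Set.range ρS) := by
      intro c w hw
      induction hw using Submodule.span_induction with
      | mem w hw =>
        obtain ⟨w, rfl⟩ := hw
        exact h1 c w
      | zero => rw [smul_zero]; exact Submodule.zero_mem _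
      | add w w' _ _ h h' => rw [smul_add]; exact Submodule.add_mem _ h h'
      | smul a w _ h => rw [smul_comm]; exact Submodule.smul_mem _ _ h
    intro z
    induction hspanS z using Submodule.span_induction with
    | mem w hw => exact Submodule.subset_span hw
    | zero => exact Submodule.zero_mem _
    | add w w' _ _ h h' => exact Submodule.add_mem _ h h'
    | smul a w _ h => exact h2 a w h
  -- the local ring `R'`
  have hspX : (Ideal.span (Set.range fun i => algebraMap B E (x i))).map ρE =
      Ideal.span (Set.range fun i => algebraMap (MvPowerSeries (Fin d) k) R' (X i)) := by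
    rw [Ideal.map_span, ← Set.range_comp]
    congr 2
    funext i
    exact (hXE i).symm
  have hmR : ∀ z : R', ∃ f : MvPowerSeries (Fin d) k, z - algebraMap _ R' f ∈ J.map ρE := by
    intro z
    induction hspanE z using Submodule.span_induction with
    | mem z hz =>
      obtain ⟨z, rfl⟩ := hz
      obtain ⟨β, hβ⟩ := hJ z
      refine ⟨θ β, ?_⟩
      rw [← hρE, ← map_sub]
      exact Ideal.mem_map_of_mem _ hβ
    | zero => exact ⟨0, by rw [map_zero, sub_zero]; exact Ideal.zero_mem _⟩
    | add z z' _ _ h h' =>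
      obtain ⟨f, hf⟩ := h
      obtain ⟨f', hf'⟩ := h'
      refine ⟨f + f', ?_⟩
      rw [map_add, add_sub_add_comm]
      exact Ideal.add_mem _ hf hf'
    | smul a z _ h =>
      obtain ⟨f, hf⟩ := h
      refine ⟨a * f, ?_⟩
      rw [map_mul, Algebra.smul_def, ← mul_sub]
      exact Ideal.mul_mem_left _ _ hf
  have hXmR : ∀ i, algebraMap (MvPowerSeries (Fin d) k) R' (X i) ∈ J.map ρE := by
    intro i
    rw [hXE]
    exact Ideal.mem_map_of_mem _ (hJx i)
  have hmRs : (J.map ρE) ^ (s + 1) ≤
      Ideal.span (Set.range fun i => algebraMap (MvPowerSeries (Fin d) k) R' (X i)) *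
        (J.map ρE) ^ s := by
    rw [← hspX, ← Ideal.map_pow, ← Ideal.map_pow, ← Ideal.map_mul]
    exact Ideal.map_mono hJs
  obtain ⟨hkerR, hlocR, hmaxR⟩ := local_of_data (J.map ρE) εR hεR1
    (fun z hz => (Ideal.map_le_iff_le_comap (K := RingHom.ker εR)).mpr
      (fun w hw => by
        rw [Ideal.mem_comap, RingHom.mem_ker, hεR2]
        exact hεJ w hw) hz) hmR hXmR (hmRs.trans Ideal.mul_le_left)
  -- the local ring `S'`
  have hspXS : (Ideal.span (Set.range fun i => algebraMap E S (algebraMap B E (x i)))).map ρS =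
      Ideal.span (Set.range fun i => algebraMap (MvPowerSeries (Fin d) k) S' (X i)) := by
    rw [Ideal.map_span, ← Set.range_comp]
    congr 2
    funext i
    exact (hXS i).symm
  have hmS : ∀ z : S', ∃ f : MvPowerSeries (Fin d) k, z - algebraMap _ S' f ∈ n.map ρS := by
    intro z
    induction hspanLS z using Submodule.span_induction with
    | mem z hz =>
      obtain ⟨z, rfl⟩ := hz
      obtain ⟨β, hβ⟩ := hn z
      refine ⟨θ β, ?_⟩
      rw [hρS', ← map_sub]
      exact Ideal.mem_map_of_mem _ hβ
    | zero => exact ⟨0, by rw [map_zero, sub_zero]; exact Ideal.zero_mem _⟩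
    | add z z' _ _ h h' =>
      obtain ⟨f, hf⟩ := h
      obtain ⟨f', hf'⟩ := h'
      refine ⟨f + f', ?_⟩
      rw [map_add, add_sub_add_comm]
      exact Ideal.add_mem _ hf hf'
    | smul a z _ h =>
      obtain ⟨f, hf⟩ := h
      refine ⟨a * f, ?_⟩
      rw [map_mul, Algebra.smul_def, ← mul_sub]
      exact Ideal.mul_mem_left _ _ hf
  have hXmS : ∀ i, algebraMap (MvPowerSeries (Fin d) k) S' (X i) ∈ n.map ρS := by
    intro i
    rw [hXS]
    exact Ideal.mem_map_of_mem _ (hJn (Ideal.mem_map_of_mem _ (hJx i)))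
  have hmSM : (n.map ρS) ^ M ≤
      Ideal.span (Set.range fun i => algebraMap (MvPowerSeries (Fin d) k) S' (X i)) := by
    rw [← hspXS, ← Ideal.map_pow]
    exact Ideal.map_mono hnM
  obtain ⟨hkerS, hlocS, hmaxS⟩ := local_of_data (n.map ρS) εS'
    (fun f => by rw [IsScalarTower.algebraMap_apply (MvPowerSeries (Fin d) k) R' S', hεS1, hεR1])
    (fun z hz => (Ideal.map_le_iff_le_comap (K := RingHom.ker εS')).mpr
      (fun w hw => by
        rw [Ideal.mem_comap, RingHom.mem_ker, hεS2]
        exact hεn w hw) hz) hmS hXmS hmSM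
  have hnoethR : IsNoetherianRing R' := IsNoetherianRing.of_finite (MvPowerSeries (Fin d) k) R'
  have hnoethS : IsNoetherianRing S' := IsNoetherianRing.of_finite (MvPowerSeries (Fin d) k) S'
  have hlocal : IsLocalHom (algebraMap R' S') := by
    refine ⟨fun z hz => ?_⟩
    by_contra hz'
    have h1 : z ∈ J.map ρE := by
      rw [← hmaxR]
      exact (mem_maximalIdeal z).mpr hz'
    rw [hkerR, RingHom.mem_ker, ← hεS1] at h1
    exact (hz.map εS').ne_zero h1
  have hchar : CharP R' p :=
    charP_of_injective_ringHom (f := (algebraMap (MvPowerSeries (Fin d) k) R').comp C)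
      (RingHom.injective _) p
  have hfinres : Finite (ResidueField R') := by
    have h1 : ∀ z ∈ maximalIdeal R', εR z = 0 := by
      intro z hz
      rw [hmaxR, hkerR] at hz
      exact hz
    let f : ResidueField R' →+* k := Ideal.Quotient.lift (maximalIdeal R') εR h1
    exact Finite.of_injective f (RingHom.injective f)
  obtain ⟨dR, hdR, -⟩ := exists_dim_le
    (fun i => algebraMap (MvPowerSeries (Fin d) k) R' (X i)) (fun i => by rw [hmaxR]; exact hXmR i)
    (M := s + 1) (by rw [hmaxR]; exact hmRs.trans Ideal.mul_le_left)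
  obtain ⟨dS, hdS, hdSle⟩ := exists_dim_le
    (fun i => algebraMap (MvPowerSeries (Fin d) k) S' (X i)) (fun i => by rw [hmaxS]; exact hXmS i)
    (M := M) (by rw [hmaxS]; exact hmSM)
  obtain ⟨e', he'⟩ := hrankE inferInstance (NoZeroDivisors.to_isDomain _) inferInstance r e he
  obtain ⟨a, ha⟩ := lower_of_data (s := s) (by rw [hmaxR]; exact hmR)
    (by rw [hmaxR]; exact hXmR) (by rw [hmaxR]; exact hmRs) e' he'
  have hspy : (Ideal.span (Set.range y)).map ρS = Ideal.span (Set.range fun i => ρS (y i)) := by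
    rw [Ideal.map_span, ← Set.range_comp]
    rfl
  have hcS : Ideal.span (Set.range fun i => algebraMap (MvPowerSeries (Fin d) k) S' (X i)) ^ c ≤
      Ideal.span (Set.range fun i => ρS (y i)) ^ j := by
    rw [← hspXS, ← hspy, ← Ideal.map_pow, ← Ideal.map_pow]
    exact Ideal.map_mono hc
  have hmemI : ∀ z ∈ Ideal.span (Set.range y) ^ j,
      ρS z ∈ Ideal.span (Set.range fun i => ρS (y i)) ^ j := by
    intro z hz
    rw [← hspy, ← Ideal.map_pow]
    exact Ideal.mem_map_of_mem _ hz
  refine final_ineq Hp hp (R := R') (S := S') hd hdR hdS hdSle hj ha (fun i => ρS (y i))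
    (fun i => by rw [hmaxS]; exact Ideal.mem_map_of_mem _ (hy i)) ?_
  refine upper_of_data _ (fun q => ρS (b q)) hcS ?_ ?_
  · intro z
    induction hspanLS z using Submodule.span_induction with
    | mem z hz =>
      obtain ⟨z, rfl⟩ := hz
      obtain ⟨β, hβ⟩ := hb1 z
      refine ⟨fun q => θ (β q), ?_⟩
      have := hmemI _ hβ
      rw [map_sub, map_sum] at this
      simpa only [map_mul, ← hρS'] using this
    | zero => exact ⟨0, by simp⟩
    | add z z' _ _ h h' =>
      obtain ⟨f, hf⟩ := h
      obtain ⟨f', hf'⟩ := h'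
      refine ⟨f + f', ?_⟩
      have := Ideal.add_mem _ hf hf'
      rw [← add_sub_add_comm, ← Finset.sum_add_distrib] at this
      simpa only [Pi.add_apply, map_add, add_mul] using this
    | smul a z _ h =>
      obtain ⟨f, hf⟩ := h
      refine ⟨fun q => a * f q, ?_⟩
      have := Ideal.mul_mem_left _ (algebraMap _ S' a) hf
      rw [mul_sub, Finset.mul_sum, ← Algebra.smul_def] at this
      simpa only [map_mul, mul_assoc] using this
  · intro i q
    obtain ⟨β, hβ, hβ'⟩ := hb2 i q
    refine ⟨fun q' => constantCoeff (θ (β q')), ?_⟩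
    have h1 := hmemI _ hβ'
    rw [map_sub, map_sum] at h1
    simp only [map_mul, ← hρS'] at h1
    rw [hθ] at h1
    have h2 : ∑ q', algebraMap _ S' (θ (β q') - C (constantCoeff (θ (β q')))) * ρS (b q') ∈
        Ideal.span (Set.range fun i => ρS (y i)) ^ j := by
      refine Ideal.sum_mem _ fun q' _ => Ideal.mul_mem_right _ _ (hcS ?_)
      rw [← map_mm_pow]
      exact Ideal.mem_map_of_mem _ (hβ q')
    have h3 := Ideal.add_mem _ h1 h2
    simp only [map_sub, sub_mul, Finset.sum_sub_distrib] at h3
    rwa [sub_add_sub_cancel] at h3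

end Vale.Agent.P202.CZ
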