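import Vale.Agent.P202.CharZero.Fgc
import Vale.Agent.P202.CharZero.MM

/-!
Weierstrass preparation and division in the form used by the approximation theorem.
-/

namespace Vale.Agent.P202.CZ

open MvPowerSeries

variable {K : Type*} [Field K] {n : ℕ}

lemma toPS_apply (p : Polynomial (MvPowerSeries (Fin n) K)) :
    MvPowerSeries.finSuccEquiv K n (toPS K n p) = (p : PowerSeries (MvPowerSeries (Fin n) K)) := by
  simp [toPS, Polynomial.coeToPowerSeries.ringHom]

lemma residue_ne_zero_iff (u : MvPowerSeries (Fin n) K) :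
    IsLocalRing.residue (MvPowerSeries (Fin n) K) u = 0 ↔ constantCoeff u = 0 := by
  rw [IsLocalRing.residue_eq_zero_iff, maximalIdeal_eq, mem_mm_iff]

lemma map_residue_ne_zero_iff (g : PowerSeries (MvPowerSeries (Fin n) K)) :
    PowerSeries.map (IsLocalRing.residue (MvPowerSeries (Fin n) K)) g ≠ 0 ↔
      PowerSeries.map (MvPowerSeries.constantCoeff (σ := Fin n) (R := K)) g ≠ 0 := by
  rw [not_iff_not]
  constructor
  · intro h
    ext k
    have := congrArg (PowerSeries.coeff k) h
    rw [PowerSeries.coeff_map, map_zero] at this ⊢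
    exact (residue_ne_zero_iff _).mp this
  · intro h
    ext k
    have := congrArg (PowerSeries.coeff k) h
    rw [PowerSeries.coeff_map, map_zero] at this ⊢
    exact (residue_ne_zero_iff _).mpr this

/-- `toPS` is injective. -/
lemma toPS_injective : Function.Injective (toPS K n) := by
  intro p q h
  have := congrArg (MvPowerSeries.finSuccEquiv K n) h
  rw [toPS_apply, toPS_apply] at this
  exact_mod_cast this

lemma distinguished_map {a : Polynomial (MvPowerSeries (Fin n) K)}
    (ha : a.IsDistinguishedAt (IsLocalRing.maximalIdeal (MvPowerSeries (Fin n) K))) :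
    a.map (MvPowerSeries.constantCoeff (σ := Fin n) (R := K)) = Polynomial.X ^ a.natDegree := by
  ext k
  rw [Polynomial.coeff_map, Polynomial.coeff_X_pow]
  split_ifs with h
  · subst h
    rw [show a.coeff a.natDegree = 1 from ha.monic]
    simp
  · rcases lt_or_gt_of_ne h with h' | h'
    · have := ha.mem h'
      rwa [maximalIdeal_eq, mem_mm_iff] at this
    · rw [Polynomial.coeff_eq_zero_of_natDegree_lt h']
      simp

lemma distinguished_of_map {a : Polynomial (MvPowerSeries (Fin n) K)}
    (ha : a.map (MvPowerSeries.constantCoeff (σ := Fin n) (R := K)) =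
      Polynomial.X ^ a.natDegree) :
    PowerSeries.map (MvPowerSeries.constantCoeff (σ := Fin n) (R := K))
      (a : PowerSeries (MvPowerSeries (Fin n) K)) = PowerSeries.X ^ a.natDegree := by
  have h1 : PowerSeries.map (MvPowerSeries.constantCoeff (σ := Fin n) (R := K))
      (a : PowerSeries (MvPowerSeries (Fin n) K)) =
      ((a.map (MvPowerSeries.constantCoeff (σ := Fin n) (R := K)) : Polynomial K) :
        PowerSeries K) := by
    ext k
    simp
  rw [h1, ha]
  simp

lemma residue_map_ne_zero {a : Polynomial (MvPowerSeries (Fin n) K)}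
    (ha : a.map (MvPowerSeries.constantCoeff (σ := Fin n) (R := K)) =
      Polynomial.X ^ a.natDegree) :
    PowerSeries.map (IsLocalRing.residue (MvPowerSeries (Fin n) K))
      (a : PowerSeries (MvPowerSeries (Fin n) K)) ≠ 0 := by
  rw [map_residue_ne_zero_iff, distinguished_of_map ha]
  exact pow_ne_zero _ PowerSeries.X_ne_zero

lemma residue_map_order {a : Polynomial (MvPowerSeries (Fin n) K)} (hm : a.Monic)
    (ha : a.map (MvPowerSeries.constantCoeff (σ := Fin n) (R := K)) =
      Polynomial.X ^ a.natDegree) :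
    ((a : PowerSeries (MvPowerSeries (Fin n) K)).map
      (IsLocalRing.residue (MvPowerSeries (Fin n) K))).order.toNat = a.natDegree := by
  have h1 : PowerSeries.map (IsLocalRing.residue (MvPowerSeries (Fin n) K))
    (a : PowerSeries (MvPowerSeries (Fin n) K)) = PowerSeries.X ^ a.natDegree := by
    ext k
    have := congrArg (PowerSeries.coeff k) (distinguished_of_map ha)
    rw [PowerSeries.coeff_map, PowerSeries.coeff_X_pow] at this ⊢
    split_ifs at this ⊢ with hk
    · subst hk
      rw [Polynomial.coeff_coe, show a.coeff a.natDegree = 1 from hm, map_one]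
    · exact (residue_ne_zero_iff _).mpr this
  rw [h1, PowerSeries.order_X_pow]
  simp

/-- Weierstrass preparation and division. -/
theorem exists_weierstrass {I : Type*} (g : MvPowerSeries (Fin (n + 1)) K) (hg : RegX g)
    (z : I → MvPowerSeries (Fin (n + 1)) K) :
    ∃ (a : Polynomial (MvPowerSeries (Fin n) K)) (ε : MvPowerSeries (Fin (n + 1)) K)
      (w : I → Polynomial (MvPowerSeries (Fin n) K)) (v : I → MvPowerSeries (Fin (n + 1)) K),
      a.Monic ∧
      a.map (MvPowerSeries.constantCoeff (σ := Fin n) (R := K)) = Polynomial.X ^ a.natDegree ∧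
      IsUnit ε ∧ g = toPS K n a * ε ∧ (∀ i, (w i).degree < a.natDegree) ∧
      ∀ i, z i = toPS K n (w i) + toPS K n a * v i := by
  have hg' := (map_residue_ne_zero_iff _).mpr hg
  obtain ⟨a, h, H⟩ := PowerSeries.exists_isWeierstrassFactorization hg'
  have hmap := distinguished_map H.isDistinguishedAt
  have ha1 : PowerSeries.map (MvPowerSeries.constantCoeff (σ := Fin n) (R := K))
      (a : PowerSeries (MvPowerSeries (Fin n) K)) = PowerSeries.X ^ a.natDegree :=
    distinguished_of_map hmap
  have ha2 := residue_map_ne_zero hmap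
  have hord := residue_map_order H.isDistinguishedAt.monic hmap
  have hdiv := fun i => PowerSeries.exists_isWeierstrassDivision
    (MvPowerSeries.finSuccEquiv K n (z i)) ha2
  choose q r hqr using hdiv
  refine ⟨a, (MvPowerSeries.finSuccEquiv K n).symm h, r,
    fun i => (MvPowerSeries.finSuccEquiv K n).symm (q i), H.isDistinguishedAt.monic, hmap,
    H.isUnit.map _, ?_, ?_, ?_⟩
  · apply (MvPowerSeries.finSuccEquiv K n).injective
    rw [map_mul, toPS_apply, AlgEquiv.apply_symm_apply]
    exact H.eq_mul
  · intro i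
    have := (hqr i).degree_lt
    rw [← hord]
    exact this
  · intro i
    apply (MvPowerSeries.finSuccEquiv K n).injective
    rw [map_add, map_mul, toPS_apply, toPS_apply, AlgEquiv.apply_symm_apply]
    have := (hqr i).eq_mul_add
    rw [this, add_comm]

/-- divisibility by a distinguished polynomial. -/
theorem dvd_of_toPS_dvd {a F : Polynomial (MvPowerSeries (Fin n) K)} (hm : a.Monic)
    (ha : a.map (MvPowerSeries.constantCoeff (σ := Fin n) (R := K)) =
      Polynomial.X ^ a.natDegree) (h : toPS K n a ∣ toPS K n F) : a ∣ F := by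
  obtain ⟨q, hq⟩ := h
  have h1 : (F : PowerSeries (MvPowerSeries (Fin n) K)) =
      (a : PowerSeries (MvPowerSeries (Fin n) K)) * MvPowerSeries.finSuccEquiv K n q := by
    rw [← toPS_apply, ← toPS_apply, hq, map_mul]
  have h2 : F = F %ₘ a + a * (F /ₘ a) := (Polynomial.modByMonic_add_div F a).symm
  have h3 : (0 : PowerSeries (MvPowerSeries (Fin n) K)).IsWeierstrassDivision a
      (((F /ₘ a : Polynomial _) : PowerSeries (MvPowerSeries (Fin n) K)) -
        MvPowerSeries.finSuccEquiv K n q) (F %ₘ a) := by
    refine ⟨?_, ?_⟩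
    · have h4 := residue_map_order hm ha
      have h5 := Polynomial.degree_modByMonic_lt F hm
      rw [Polynomial.degree_eq_natDegree hm.ne_zero] at h5
      change _ < ((((a : PowerSeries (MvPowerSeries (Fin n) K)).map
        (IsLocalRing.residue (MvPowerSeries (Fin n) K))).order.toNat : ℕ) : WithBot ℕ)
      rwa [h4]
    · have h6 := congrArg (fun p : Polynomial (MvPowerSeries (Fin n) K) =>
        (p : PowerSeries (MvPowerSeries (Fin n) K))) h2
      simp only [Polynomial.coe_add, Polynomial.coe_mul] at h6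
      rw [mul_sub, ← h1]
      conv_lhs => rw [← sub_self (F : PowerSeries (MvPowerSeries (Fin n) K))]
      nth_rewrite 1 [h6]
      ring
  have h7 := (h3.eq_zero (residue_map_ne_zero ha)).2
  rw [h7, zero_add] at h2
  exact ⟨_, h2⟩

/-- the quotient has coefficients in `fgc`. -/
theorem exists_quotient_fgc {a F : Polynomial (MvPowerSeries (Fin n) K)} (hm : a.Monic)
    (ha : ∀ l, a.coeff l ∈ fgc (Fin n) K) (hF : ∀ l, F.coeff l ∈ fgc (Fin n) K) (h : a ∣ F) :
    ∃ w : Polynomial (MvPowerSeries (Fin n) K), F = a * w ∧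
      ∀ l, w.coeff l ∈ fgc (Fin n) K := by
  have hlift : ∀ p : Polynomial (MvPowerSeries (Fin n) K), (∀ l, p.coeff l ∈ fgc (Fin n) K) →
      ∃ p₀ : Polynomial (fgc (Fin n) K), p₀.map (fgc (Fin n) K).subtype = p := by
    intro p hp
    have : p ∈ Polynomial.lifts (fgc (Fin n) K).subtype := by
      rw [Polynomial.lifts_iff_coeff_lifts]
      intro l
      exact ⟨⟨_, hp l⟩, rfl⟩
    exact (Polynomial.mem_lifts p).mp this
  obtain ⟨F₀, hF₀⟩ := hlift F hF
  obtain ⟨a₀, ha₀⟩ := hlift a ha
  have hinj : Function.Injective (fgc (Fin n) K).subtype := Subtype.coe_injective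
  have hm₀ : a₀.Monic := by
    refine Polynomial.monic_of_injective hinj ?_
    rw [ha₀]
    exact hm
  have h1 : (F₀ %ₘ a₀).map (fgc (Fin n) K).subtype = 0 := by
    rw [Polynomial.map_modByMonic _ hm₀, hF₀, ha₀]
    exact (Polynomial.modByMonic_eq_zero_iff_dvd hm).mpr h
  have h2 : F₀ %ₘ a₀ = 0 := (Polynomial.map_eq_zero_iff hinj).mp h1
  refine ⟨(F₀ /ₘ a₀).map (fgc (Fin n) K).subtype, ?_, ?_⟩
  · have h3 := Polynomial.modByMonic_add_div F₀ a₀
    rw [h2, zero_add] at h3
    rw [← ha₀, ← Polynomial.map_mul, h3, hF₀]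
  · intro l
    rw [Polynomial.coeff_map]
    exact ((F₀ /ₘ a₀).coeff l).2

end Vale.Agent.P202.CZ
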